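import Vale.Agent.P174.Prod

/-!
Completeness of nested insertion: a coefficient that is a product of `k` conjugates of `v` and
`v⁻¹` gives a word of value one built from at most `k` blocks inserted into a single coefficient.
-/

namespace Vale.Agent.P174

open Monoid

variable {G : Type*} [Group G] {ι : Type*} {α β : Type*}

section Relabel

/-- Relabel a list of items. -/
def relabel (f : α → β) (l : List (α × G)) : List (β × G) := l.map fun p => (f p.1, p.2)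

theorem relabel_adjLast (f : α → β) (l : List (α × G)) (g : G) :
    relabel f (adjLast l g) = adjLast (relabel f l) g := by
  rcases l.eq_nil_or_concat' with rfl | ⟨r, p, rfl⟩ <;> simp [relabel, adjLast_concat]

/-- Relabel a raw word. -/
def Raw.relab (f : α → β) : Raw G α →* Raw G β where
  toFun r := ⟨r.hd, relabel f r.tl⟩
  map_one' := by simp [Raw.one_def, relabel]
  map_mul' a b := by
    obtain ⟨g, s⟩ := a
    by_cases hs : s = []
    · subst hs; simp [Raw.mul_of_nil, relabel]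
    · have h' : relabel f s ≠ [] := by simpa [relabel] using hs
      simp only [Raw.mul_of_ne (a := ⟨g, s⟩) hs, Raw.mul_of_ne (a := ⟨g, relabel f s⟩) h',
        ← relabel_adjLast]
      simp [relabel]

@[simp] theorem Raw.relab_co (f : α → β) (g : G) : Raw.relab f (Raw.co g) = Raw.co g := rfl

@[simp] theorem Raw.relab_lst (f : α → β) (l : List (α × G)) :
    Raw.relab f (Raw.lst l) = Raw.lst (relabel f l) := rfl

theorem lval_relabel (f : α → β) (ℓ : α → Letter ι) (ℓ' : β → Letter ι) (l : List (α × G))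
    (h : ∀ p ∈ l, ℓ' (f p.1) = ℓ p.1) : lval ℓ' (relabel f l) = lval ℓ l := by
  induction l with
  | nil => simp [relabel]
  | cons p r ih =>
    have e : relabel f (p :: r) = (f p.1, p.2) :: relabel f r := rfl
    rw [e, lval_cons, lval_cons, ih fun q hq => h q (List.mem_cons_of_mem _ hq),
      h p (List.mem_cons_self ..)]

end Relabel

namespace Ext

variable {T : ℕ → List (α × G) → Prop}

/-- An insertion in either factor. -/
theorem split {k : ℕ} {U V L : Raw G α} (h : Ext T k (U * V) L) :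
    ∃ k₁ k₂ U' V', k₁ + k₂ = k ∧ Ext T k₁ U U' ∧ Ext T k₂ V V' ∧ L = U' * V' := by
  generalize hW : U * V = W at h
  induction h with
  | refl W => exact ⟨0, 0, U, V, rfl, .refl U, .refl V, hW.symm⟩
  | @ins k j W A B R _ hR ih =>
    obtain ⟨k₁, k₂, U', V', hk, hU, hV, e⟩ := ih hW
    rcases Raw.levi _ _ _ _ e with ⟨M, rfl, rfl⟩ | ⟨M, rfl, rfl⟩
    · refine ⟨k₁ + j, k₂, A * R * M, V', by omega, .ins hU hR, hV, ?_⟩
      simp [mul_assoc]
    · refine ⟨k₁, k₂ + j, U', M * R * B, by omega, hU, .ins hV hR, ?_⟩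
      simp [mul_assoc]

theorem mul_left {k : ℕ} {V V' : Raw G α} (h : Ext T k V V') (U : Raw G α) :
    Ext T k (U * V) (U * V') := by
  induction h with
  | refl W => exact .refl _
  | @ins k j W A B R _ hR ih =>
    rw [← mul_assoc] at ih
    simpa [mul_assoc] using Ext.ins ih hR

theorem mul_right {k : ℕ} {U U' : Raw G α} (h : Ext T k U U') (V : Raw G α) :
    Ext T k (U * V) (U' * V) := by
  induction h with
  | refl W => exact .refl _
  | @ins k j W A B R _ hR ih =>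
    rw [mul_assoc] at ih
    simpa [mul_assoc] using Ext.ins ih hR

theorem trans {j k : ℕ} {W M L : Raw G α} (h : Ext T j W M) (h' : Ext T k M L) :
    Ext T (j + k) W L := by
  induction h' with
  | refl W' => simpa using h
  | @ins k i W' A B R _ hR ih => rw [← add_assoc]; exact .ins (ih h) hR

theorem mul {a b : ℕ} {U U' V V' : Raw G α} (h : Ext T a U U') (h' : Ext T b V V') :
    Ext T (a + b) (U * V) (U' * V') :=
  (h.mul_right V).trans (h'.mul_left U')

theorem ins_null {j k : ℕ} {W A B N : Raw G α} (h : Ext T k W (A * B)) (hN : Ext T j 1 N) :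
    Ext T (k + j) W (A * N * B) := by
  refine h.trans ?_
  simpa using (hN.mul_left A).mul_right B

theorem of_letter {k : ℕ} {p : α} {L : Raw G α} (h : Ext T k (Raw.lt p) L) :
    ∃ k₁ k₂ Y₁ Y₂, k₁ + k₂ = k ∧ Ext T k₁ 1 Y₁ ∧ Ext T k₂ 1 Y₂ ∧
      L = Y₁ * Raw.lt p * Y₂ := by
  suffices H : ∀ W, Ext T k W L → W = Raw.lt p → ∃ k₁ k₂ Y₁ Y₂, k₁ + k₂ = k ∧
      Ext T k₁ 1 Y₁ ∧ Ext T k₂ 1 Y₂ ∧ L = Y₁ * Raw.lt p * Y₂ from H _ h rfl
  clear h
  intro W h hW
  induction h with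
  | refl W => exact ⟨0, 0, 1, 1, rfl, .refl 1, .refl 1, by simp [hW]⟩
  | @ins k j W A B R _ hR ih =>
    obtain ⟨k₁, k₂, Y₁, Y₂, hk, h₁, h₂, e⟩ := ih hW
    rcases Raw.split_letter _ _ _ _ _ e with ⟨M, rfl, rfl⟩ | ⟨M, rfl, rfl⟩
    · refine ⟨k₁, k₂ + j, Y₁, M * R * B, by omega, h₁, .ins h₂ hR, ?_⟩
      simp [mul_assoc]
    · refine ⟨k₁ + j, k₂, A * R * M, Y₂, by omega, .ins h₁ hR, h₂, ?_⟩
      simp [mul_assoc]

theorem single {j : ℕ} {R : Raw G α} (hR : InBlock T j R) : Ext T j 1 R := by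
  have h := Ext.ins (A := (1 : Raw G α)) (B := 1)
    (show Ext T 0 1 ((1 : Raw G α) * 1) by rw [mul_one]; exact Ext.refl 1) hR
  simpa using h

end Ext

theorem InBlock.rotate {T : ℕ → List (α × G) → Prop}
    (hrot : ∀ j l₁ l₂, T j (l₁ ++ l₂) → T j (l₂ ++ l₁)) {j : ℕ} {X Y : Raw G α}
    (h : InBlock T j (X * Y)) : InBlock T j (Y * X) := by
  obtain ⟨q, l, hl, e⟩ := h
  have hswap : Y * X = (Y * Raw.co q) * (Raw.co q⁻¹ * X) := by
    rw [mul_assoc Y, ← mul_assoc (Raw.co q), Raw.co_mul_co, mul_inv_cancel, Raw.co_one, one_mul]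
  have e' : (Raw.co q⁻¹ * X) * (Y * Raw.co q) = Raw.lst l := by
    rw [mul_assoc, ← mul_assoc X, e]
    simp only [mul_assoc, Raw.co_mul_co, inv_mul_cancel, Raw.co_one, mul_one]
    rw [← mul_assoc, Raw.co_mul_co, inv_mul_cancel, Raw.co_one, one_mul]
  rw [hswap]
  generalize Raw.co q⁻¹ * X = X' at e' ⊢
  generalize Y * Raw.co q = Y' at e' ⊢
  obtain ⟨g, t⟩ := X'
  by_cases ht : t = []
  · subst ht
    refine ⟨g⁻¹, l, hl, ?_⟩
    rw [← e', inv_inv, show (⟨g, []⟩ : Raw G α) = Raw.co g from rfl, ← mul_assoc (Raw.co g⁻¹),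
      Raw.co_mul_co, inv_mul_cancel, Raw.co_one, one_mul]
  · rw [Raw.mul_of_ne (a := ⟨g, t⟩) ht] at e'
    simp only [Raw.lst, Raw.mk.injEq] at e'
    obtain ⟨rfl, rfl⟩ := e'
    refine ⟨Y'.hd, Y'.tl ++ adjLast t Y'.hd, hrot _ _ _ hl, ?_⟩
    rw [Raw.lst_append, Raw.lst_adjLast ht, show (⟨1, t⟩ : Raw G α) = Raw.lst t from rfl]
    conv_lhs => rw [Raw.eq_co_mul_lst Y']
    simp [mul_assoc]

theorem Ext.rotate {T : ℕ → List (α × G) → Prop}
    (hrot : ∀ j l₁ l₂, T j (l₁ ++ l₂) → T j (l₂ ++ l₁)) {k : ℕ} {U V : Raw G α}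
    (h : Ext T k 1 (U * V)) : Ext T k 1 (V * U) := by
  generalize hL : U * V = L at h
  generalize hW : (1 : Raw G α) = W at h
  induction h generalizing U V with
  | refl W =>
    subst hW
    have hn := congrArg Raw.nlet hL
    rw [Raw.nlet_mul, show (1 : Raw G α).nlet = 0 from rfl] at hn
    have hU : U = Raw.co U.hd := Raw.eq_co_of_nlet (by omega)
    have hV : V = Raw.co V.hd := Raw.eq_co_of_nlet (by omega)
    rw [hU, hV, Raw.co_mul_co] at hL
    have huv : U.hd * V.hd = 1 := by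
      have := congrArg Raw.hd hL
      simpa [Raw.co, Raw.one_def] using this
    rw [hU, hV, Raw.co_mul_co, mul_eq_one_comm.1 huv, Raw.co_one]
    exact .refl 1
  | @ins k j W A B R _ hR ih =>
    subst hW
    rw [mul_assoc A] at hL
    rcases Raw.levi _ _ _ _ hL.symm with ⟨M, rfl, hRB⟩ | ⟨M, rfl, rfl⟩
    · rcases Raw.levi _ _ _ _ hRB with ⟨M', rfl, rfl⟩ | ⟨M', rfl, rfl⟩
      · have h1 := ih (U := A * M') (V := V) (by simp [mul_assoc]) rfl
        rw [← mul_assoc] at h1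
        simpa [mul_assoc] using Ext.ins h1 hR
      · have h1 := ih (U := A) (V := B) rfl rfl
        rw [add_comm]
        have := Ext.ins_null (Ext.single (InBlock.rotate hrot hR)) h1
        simpa [mul_assoc] using this
    · have h1 := ih (U := U) (V := M * B) (by simp [mul_assoc]) rfl
      rw [mul_assoc] at h1
      simpa [mul_assoc] using Ext.ins h1 hR

/-- A cancelling pair of the base can be removed. -/
theorem Ext.elim_pair (ℓ : α → Letter ι) {T : ℕ → List (α × G) → Prop}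
    (hrot : ∀ j l₁ l₂, T j (l₁ ++ l₂) → T j (l₂ ++ l₁)) {k : ℕ} {P Q L : Raw G α} {p q : α}
    (hpq : ℓ q = (ℓ p).rev) (h : Ext T k (P * Raw.lt p * Raw.lt q * Q) L)
    (hL : Raw.val ℓ L = 1) : ∃ L', Ext T k (P * Q) L' ∧ Raw.val ℓ L' = 1 := by
  obtain ⟨k₁, b₀, X, B', hk, hX, hB', rfl⟩ := h.split
  obtain ⟨k₂, q₀, X', Q', hk₁, hX', hQ', rfl⟩ := hX.split
  obtain ⟨a₀, p₀, A', P', hk₂, hA', hP', rfl⟩ := hX'.split
  obtain ⟨p₁, p₂, Y₁, Y₂, hp, hY₁, hY₂, rfl⟩ := hP'.of_letter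
  obtain ⟨q₁, q₂, Z₁, Z₂, hq, hZ₁, hZ₂, rfl⟩ := hQ'.of_letter
  have hA : Ext T (a₀ + p₁) P (A' * Y₁) := by simpa using hA'.mul hY₁
  have hZ : Ext T (p₂ + q₁) 1 (Y₂ * Z₁) := by simpa using hY₂.mul hZ₁
  have hB : Ext T (q₂ + b₀) Q (Z₂ * B') := by simpa using hZ₂.mul hB'
  have hL' : Raw.val ℓ (A' * Y₁ * Raw.lt p * ((Y₂ * Z₁) * Raw.lt q * (Z₂ * B'))) = 1 := by
    rw [← hL]; simp [mul_assoc]
  rw [show k = a₀ + p₁ + (p₂ + q₁) + (q₂ + b₀) by omega]
  generalize A' * Y₁ = A at hA hL' ⊢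
  generalize Y₂ * Z₁ = Z at hZ hL' ⊢
  generalize Z₂ * B' = B at hB hL' ⊢
  generalize a₀ + p₁ = a at hA ⊢
  generalize p₂ + q₁ = z at hZ ⊢
  generalize q₂ + b₀ = b at hB ⊢
  clear hk hk₁ hk₂ hp hq hX hX' hA' hP' hQ' hB' hY₁ hY₂ hZ₁ hZ₂ hL h
  have fin : ∀ L', Raw.val ℓ L' = Raw.val ℓ (A * Raw.lt p * (Z * Raw.lt q * B)) →
      Raw.val ℓ L' = 1 := fun L' e => e.trans hL'
  rcases Raw.exists_partner ℓ A (Z * Raw.lt q * B) p hL' with
    ⟨A₀, r, A₁, rfl, hA₁, hr⟩ | ⟨B₁, r, B₀, hB₁e, hB₁, hr⟩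
  · refine ⟨A₀ * Z * (Raw.lt r * A₁) * B, ?_, fin _ ?_⟩
    · rw [mul_assoc A₀] at hA
      exact (Ext.ins_null hA hZ).mul hB
    · simp [hA₁, hr, hpq, Letter.rev_rev, letter_rev, mul_assoc]
  · rw [mul_assoc Z] at hB₁e
    rcases Raw.split_letter _ _ _ _ _ hB₁e with ⟨M, rfl, -⟩ | ⟨M, hqB, rfl⟩
    · refine ⟨A * (M * (B₁ * Raw.lt r)) * B, ?_, fin _ ?_⟩
      · exact (hA.mul (Ext.rotate hrot hZ)).mul hB |> fun h => by simpa using h
      · simp [hB₁, hr, hpq, letter_rev, mul_assoc]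
    · rcases Raw.split_letter _ _ _ _ _ hqB with ⟨M', hq, -⟩ | ⟨M', rfl, rfl⟩
      · obtain ⟨rfl, rfl⟩ := Raw.lt_eq hq
        rw [mul_one] at hB₁
        refine ⟨A * Z * B, ?_, fin _ ?_⟩
        · simpa using (hA.mul hZ).mul hB
        · simp [hB₁, hr, letter_rev]
      · rw [← mul_assoc] at hB₁
        rcases Raw.exists_partner ℓ Z M' q hB₁ with
          ⟨Z₀, r', Z₁, rfl, hZ₁, hr'⟩ | ⟨C, r', D, rfl, hC, hr'⟩
        · rw [mul_assoc Z₀] at hZ
          refine ⟨A * (Raw.lt r' * Z₁ * Z₀) * (M' * Raw.lt r * B₀), ?_, fin _ ?_⟩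
          · simpa using (hA.mul (Ext.rotate hrot hZ)).mul hB
          · have e : ℓ p = ℓ r' := by
              rw [← Letter.rev_rev (ℓ p), ← hpq, hr', Letter.rev_rev]
            simp [hZ₁, hpq, e, letter_rev, mul_assoc]
        · have hB' : Ext T b Q (C * Raw.lt r' * (D * Raw.lt r * B₀)) := by
            simpa [mul_assoc] using hB
          refine ⟨A * (C * Raw.lt r' * Z * (D * Raw.lt r * B₀)), ?_, fin _ ?_⟩
          · rw [add_assoc, add_comm z b]
            exact hA.mul (Ext.ins_null hB' hZ)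
          · simp [hC, hr', hpq, Letter.rev_rev, letter_rev, mul_assoc]

/-- All cancelling pairs of the base can be removed. -/
theorem Ext.elim_all (ℓ : α → Letter ι) {T : ℕ → List (α × G) → Prop}
    (hrot : ∀ j l₁ l₂, T j (l₁ ++ l₂) → T j (l₂ ++ l₁)) {k : ℕ} {W L : Raw G α} {c : G}
    (h : Ext T k W L) (hW : Raw.val ℓ W = Coprod.inl c) (hL : Raw.val ℓ L = 1) :
    ∃ L', Ext T k (Raw.co c) L' ∧ Raw.val ℓ L' = 1 := by
  induction hn : W.nlet using Nat.strong_induction_on generalizing W L with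
  | _ n ih =>
    by_cases h0 : W.nlet = 0
    · have e := Raw.eq_co_of_nlet h0
      refine ⟨L, ?_, hL⟩
      have hc : W.hd = c := by
        rw [e, Raw.val_co] at hW
        simpa using congrArg (Coprod.fst : FP G ι →* G) hW
      rwa [← hc, ← e]
    · obtain ⟨P, a, b, Q, rfl, hab⟩ := Raw.exists_cancel ℓ W c h0 hW
      obtain ⟨L', h', hL'⟩ := Ext.elim_pair ℓ hrot hab h hL
      refine ih (P * Q).nlet (by rw [← hn]; simp) h' ?_ hL' rfl
      rw [← hW]
      simp [hab, letter_rev]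

theorem Ext.relab {T : ℕ → List (α × G) → Prop} {T' : ℕ → List (β × G) → Prop} (f : α → β)
    (hT : ∀ j l, T j l → T' j (relabel f l)) {k : ℕ} {W L : Raw G α} (h : Ext T k W L) :
    Ext T' k (Raw.relab f W) (Raw.relab f L) := by
  induction h with
  | refl W => exact .refl _
  | @ins k j W A B R _ hR ih =>
    rw [map_mul, map_mul]
    rw [map_mul] at ih
    refine .ins ih ?_
    obtain ⟨q, l, hl, rfl⟩ := hR
    exact ⟨q, _, hT _ _ hl, by simp⟩

theorem Ext.labels_subset {T : ℕ → List (α × G) → Prop} {S : Set α}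
    (hT : ∀ j l, T j l → ∀ p ∈ l, p.1 ∈ S) {k : ℕ} {W L : Raw G α} (h : Ext T k W L)
    (hW : ∀ a ∈ W.labels, a ∈ S) : ∀ a ∈ L.labels, a ∈ S := by
  induction h with
  | refl W => exact hW
  | @ins k j W A B R _ hR ih =>
    intro a ha
    have h' := ih hW
    rw [Raw.labels_mul] at h'
    simp only [Raw.labels_mul, List.mem_append] at ha h'
    rcases ha with (ha | ha) | ha
    · exact h' a (Or.inl ha)
    · obtain ⟨q, l, hl, rfl⟩ := hR
      simp only [Raw.labels_mul, List.mem_append] at ha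
      rcases ha with (ha | ha) | ha
      · simp [Raw.labels, Raw.co] at ha
      · simp only [Raw.labels, Raw.lst, List.mem_map] at ha
        obtain ⟨p, hp, rfl⟩ := ha
        exact hT _ _ hl p hp
      · simp [Raw.labels, Raw.co] at ha
    · exact h' a (Or.inr ha)

/-- Every element is the value of a word in stem letters. -/
theorem exists_stem (ℓ : α → Letter ι) (u : FP G ι) :
    ∃ U : Raw G (α ⊕ Letter ι), Raw.val (Sum.elim ℓ id) U = u := by
  induction u using Coprod.induction_on with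
  | inl g => exact ⟨Raw.co g, by simp⟩
  | inr x =>
    induction x using FreeGroup.induction_on with
    | C1 => exact ⟨1, by simp⟩
    | of t => exact ⟨Raw.lt (Sum.inr (t, true)), by simp [letter_true]⟩
    | inv_of t _ => exact ⟨Raw.lt (Sum.inr (t, false)), by simp [letter_false]⟩
    | mul x y hx hy =>
      obtain ⟨U, hU⟩ := hx
      obtain ⟨V, hV⟩ := hy
      exact ⟨U * V, by simp [hU, hV]⟩
  | mul x y hx hy =>
    obtain ⟨U, hU⟩ := hx
    obtain ⟨V, hV⟩ := hy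
    exact ⟨U * V, by simp [hU, hV]⟩

/-- Completeness of nested insertion. -/
theorem exists_ext {G : Type*} [Group G] {ι α : Type*} (ℓ : α → Letter ι)
    (T : ℕ → List (α × G) → Prop) (v : FP G ι)
    (hne : ∀ j l, T j l → l ≠ []) (hrot : ∀ j l₁ l₂, T j (l₁ ++ l₂) → T j (l₂ ++ l₁))
    (hpos : ∃ l c, T 1 l ∧ lval ℓ l = c * v * c⁻¹)
    (hneg : ∃ l c, T 1 l ∧ lval ℓ l = c * v⁻¹ * c⁻¹) {k : ℕ} {g : G}
    (h : InProd v k (Coprod.inl g)) :
    ∃ j L, j ≤ k ∧ Ext T j (Raw.co g⁻¹) L ∧ Raw.val ℓ L = 1 := by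
  classical
  let T' : ℕ → List ((α ⊕ Letter ι) × G) → Prop :=
    fun j l => ∃ l₀, T j l₀ ∧ l = relabel Sum.inl l₀
  let ℓ' : α ⊕ Letter ι → Letter ι := Sum.elim ℓ id
  have hrot' : ∀ j l₁ l₂, T' j (l₁ ++ l₂) → T' j (l₂ ++ l₁) := by
    rintro j l₁ l₂ ⟨l₀, hl₀, e⟩
    obtain ⟨m₁, m₂, rfl, e₁, e₂⟩ := List.map_eq_append_iff.1 e.symm
    exact ⟨m₂ ++ m₁, hrot _ _ _ hl₀, by subst e₁ e₂; simp [relabel]⟩
  have block : ∀ w : FP G ι, (∃ l c, T 1 l ∧ lval ℓ l = c * w * c⁻¹) → ∀ u : FP G ι,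
      ∃ W L, Ext T' 1 W L ∧ Raw.val ℓ' W = 1 ∧ Raw.val ℓ' L = u * w * u⁻¹ := by
    rintro w ⟨l, c, hl, hlv⟩ u
    obtain ⟨U, hU⟩ := exists_stem ℓ (u * c⁻¹)
    obtain ⟨U', hU'⟩ := exists_stem ℓ (u * c⁻¹)⁻¹
    refine ⟨U * U', U * Raw.lst (relabel Sum.inl l) * U', ?_, ?_, ?_⟩
    · have hb : InBlock T' 1 (Raw.lst (relabel Sum.inl l)) :=
        ⟨1, _, ⟨l, hl, rfl⟩, by simp⟩
      simpa using Ext.ins (Ext.refl (T := T') (U * U')) hb
    · rw [map_mul]
      show Raw.val (Sum.elim ℓ id) U * Raw.val (Sum.elim ℓ id) U' = 1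
      rw [hU, hU', mul_inv_cancel]
    · show Raw.val (Sum.elim ℓ id) (U * Raw.lst (relabel Sum.inl l) * U') = _
      rw [map_mul, map_mul, hU, hU', Raw.val_lst, lval_relabel Sum.inl ℓ _ l (fun p _ => rfl), hlv]
      group
  have base : ∀ k x, InProd v k x →
      ∃ j W L, j ≤ k ∧ Ext T' j W L ∧ Raw.val ℓ' W = 1 ∧ Raw.val ℓ' L = x := by
    intro k x hx
    induction hx with
    | one n => exact ⟨0, 1, 1, Nat.zero_le _, .refl 1, map_one _, map_one _⟩
    | @pos n x u _ ih =>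
      obtain ⟨j, W, L, hj, hE, hW, hL⟩ := ih
      obtain ⟨W', L', hE', hW', hL'⟩ := block v hpos u
      exact ⟨j + 1, W * W', L * L', by omega, hE.mul hE', by simp [hW, hW'],
        by rw [map_mul, hL, hL']⟩
    | @neg n x u _ ih =>
      obtain ⟨j, W, L, hj, hE, hW, hL⟩ := ih
      obtain ⟨W', L', hE', hW', hL'⟩ := block v⁻¹ hneg u
      exact ⟨j + 1, W * W', L * L', by omega, hE.mul hE', by simp [hW, hW'],
        by rw [map_mul, hL, hL']⟩
  obtain ⟨j, W, L, hj, hE, hW, hL⟩ := base k _ h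
  obtain ⟨L', hE', hL'⟩ := Ext.elim_all ℓ' hrot' (c := g⁻¹) (hE.mul_left (Raw.co g⁻¹))
    (by simp [hW]) (by simp [hL])
  obtain ⟨l, c, hl, -⟩ := hpos
  obtain ⟨⟨a₀, _⟩, _⟩ := List.exists_mem_of_ne_nil l (hne _ _ hl)
  let π : α ⊕ Letter ι → α := Sum.elim id fun _ => a₀
  refine ⟨j, Raw.relab π L', hj, ?_, ?_⟩
  · have := hE'.relab π (T' := T) (fun i l => by
      rintro ⟨l₀, hl₀, rfl⟩
      simpa [relabel, π, Function.comp_def] using hl₀)
    simpa using this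
  · have hlab : ∀ a ∈ L'.labels, a ∈ Set.range (Sum.inl : α → α ⊕ Letter ι) :=
      hE'.labels_subset (fun i l => by
        rintro ⟨l₀, -, rfl⟩ p hp
        simp only [relabel, List.mem_map] at hp
        obtain ⟨p', -, rfl⟩ := hp
        exact ⟨_, rfl⟩) (by simp [Raw.labels, Raw.co])
    refine Eq.trans ?_ hL'
    show Coprod.inl L'.hd * lval ℓ (relabel π L'.tl) = Coprod.inl L'.hd * lval ℓ' L'.tl
    rw [lval_relabel π ℓ' ℓ L'.tl fun p hp => ?_]
    obtain ⟨a, ha⟩ := hlab p.1 (List.mem_map_of_mem hp)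
    rw [← ha]
    rfl

end Vale.Agent.P174
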