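import Vale.Agent.P174.Frei
import Vale.Agent.P174.Expand

/-!
Reduction of the one-equation theorem to countable coefficient groups.
-/

namespace Vale.Agent.P174

open Monoid

variable {G G' : Type} [Group G] [Group G'] {ι : Type}

/-- The homomorphism of free products induced by a homomorphism of the coefficients. -/
abbrev changeCoef (f : G →* G') : FP G ι →* FP G' ι := Coprod.map f (MonoidHom.id (FreeGroup ι))

theorem changeCoef_letter (f : G →* G') (l : Letter ι) :
    changeCoef f (letter l : FP G ι) = letter l := by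
  obtain ⟨t, b⟩ := l
  cases b <;> simp [letter]

/-- The element represented by a reduced form. -/
def nfVal (p : NF G ι) : FP G ι := Coprod.inl p.1.1 * lval id p.1.2

theorem nfVal_push (l : Letter ι) (p : NF G ι) : nfVal (push l p) = letter l * nfVal p := by
  obtain ⟨⟨g, t⟩, h⟩ := p
  cases t with
  | nil => simp [push, nfVal, lval_cons]
  | cons q r =>
    by_cases hc : q.1 = l.rev ∧ g = 1
    · obtain ⟨hq, rfl⟩ := hc
      simp [push, hq, nfVal, lval_cons, letter_rev, mul_assoc]
    · simp [push, hc, nfVal, lval_cons, mul_assoc]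

theorem nfVal_act (x : FP G ι) : ∀ p : NF G ι, nfVal (nfAct x p) = x * nfVal p := by
  induction x using Coprod.induction_on with
  | inl g => intro p; rw [nfAct_inl]; simp [nfVal, mul_assoc]
  | inr u =>
    induction u using FreeGroup.induction_on with
    | C1 => intro p; simp
    | of t =>
      intro p
      have := nfAct_letter (G := G) ((t, true) : Letter ι) p
      rw [letter_true] at this
      show nfVal (nfAct (Coprod.inr (FreeGroup.of t)) p) = _
      rw [this, nfVal_push, letter_true]
    | inv_of t _ =>
      intro p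
      have := nfAct_letter (G := G) ((t, false) : Letter ι) p
      rw [letter_false] at this
      show nfVal (nfAct (Coprod.inr (FreeGroup.of t)⁻¹) p) = _
      rw [map_inv, this, nfVal_push, letter_false]
    | mul u v hu hv =>
      intro p
      rw [map_mul, map_mul, Equiv.Perm.mul_apply, hu, hv, mul_assoc]
  | mul a b ha hb => intro p; rw [map_mul, Equiv.Perm.mul_apply, ha, hb, mul_assoc]

theorem exists_nf (x : FP G ι) : ∃ p : NF G ι, x = Coprod.inl p.1.1 * lval id p.1.2 :=
  ⟨nfAct x ⟨(1, []), trivial⟩, by
    have := nfVal_act x ⟨(1, []), trivial⟩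
    simpa [nfVal] using this.symm⟩

/-- An injective coefficient map induces an injective map of the free products. -/
theorem changeCoef_injective {f : G →* G'} (hf : Function.Injective f) :
    Function.Injective (changeCoef (ι := ι) f) := by
  rw [← MonoidHom.ker_eq_bot_iff, eq_bot_iff]
  intro x hx
  rw [MonoidHom.mem_ker] at hx
  obtain ⟨⟨⟨g, l⟩, hl⟩, rfl⟩ := exists_nf x
  let img : List (Letter ι × G) → List (Letter ι × G') := fun l => l.map fun p => (p.1, f p.2)
  have hval : ∀ l : List (Letter ι × G), changeCoef f (lval id l) = lval id (img l) := by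
    intro l
    induction l with
    | nil => simp [img]
    | cons p r ih =>
      simp only [img, lval_cons, List.map_cons, map_mul, id_eq] at ih ⊢
      rw [changeCoef_letter, ih]
      simp
  have hred : ∀ l : List (Letter ι × G), RedList l → RedList (img l) := by
    intro l
    induction l with
    | nil => exact fun h => h
    | cons p r ih =>
      intro h
      cases r with
      | nil => trivial
      | cons q r =>
        exact ⟨fun h' => h.1 ⟨h'.1, (map_eq_one_iff f hf).1 h'.2⟩, ih h.2⟩
  simp only [map_mul, hval, Coprod.map_apply_inl] at hx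
  have h2 := congrArg (fun z : FP G' ι => nfAct z ⟨(1, []), trivial⟩) hx
  simp only [map_mul, Equiv.Perm.mul_apply, nfAct_lval _ (hred l hl), nfAct_inl, map_one,
    Equiv.Perm.one_apply, mul_one] at h2
  have h3 := congrArg Subtype.val h2
  simp only [img, Prod.mk.injEq, List.map_eq_nil_iff] at h3
  obtain ⟨h4, rfl⟩ := h3
  simp [(map_eq_one_iff f hf).1 h4]

/-- An element of the free product has coefficients in a finitely generated subgroup. -/
theorem exists_support (x : FP G ι) : ∃ S : Finset G, ∀ H : Subgroup G, (S : Set G) ⊆ H →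
    ∃ y : FP H ι, changeCoef H.subtype y = x := by
  classical
  induction x using Coprod.induction_on with
  | inl g =>
    exact ⟨{g}, fun H hH => ⟨Coprod.inl ⟨g, hH (by simp)⟩, by simp⟩⟩
  | inr u => exact ⟨∅, fun H _ => ⟨Coprod.inr u, by simp⟩⟩
  | mul a b ha hb =>
    obtain ⟨S, hS⟩ := ha
    obtain ⟨T, hT⟩ := hb
    refine ⟨S ∪ T, fun H hH => ?_⟩
    rw [Finset.coe_union, Set.union_subset_iff] at hH
    obtain ⟨y, hy⟩ := hS H hH.1
    obtain ⟨z, hz⟩ := hT H hH.2
    exact ⟨y * z, by rw [map_mul, hy, hz]⟩

/-- Membership in the normal closure of one element is witnessed over finitely many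
coefficients. -/
theorem exists_support_normalClosure (w x : FP G ι) (hx : x ∈ Subgroup.normalClosure {w}) :
    ∃ S : Finset G, ∀ H : Subgroup G, (S : Set G) ⊆ H → ∀ w' : FP H ι,
      changeCoef H.subtype w' = w →
        ∃ x', x' ∈ Subgroup.normalClosure {w'} ∧ changeCoef H.subtype x' = x := by
  classical
  induction hx using Subgroup.closure_induction with
  | mem z hz =>
    obtain ⟨a, ha, hc⟩ := Group.mem_conjugatesOfSet_iff.1 hz
    obtain rfl : a = w := ha
    obtain ⟨u, rfl⟩ := isConj_iff.1 hc
    obtain ⟨S, hS⟩ := exists_support u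
    refine ⟨S, fun H hH w' hw' => ?_⟩
    obtain ⟨u', hu'⟩ := hS H hH
    have hw'' : w' ∈ Subgroup.normalClosure {w'} :=
      Subgroup.subset_normalClosure (Set.mem_singleton w')
    have hn : (Subgroup.normalClosure {w'}).Normal := Subgroup.normalClosure_normal
    refine ⟨u' * w' * u'⁻¹, hn.conj_mem w' hw'' u', ?_⟩
    rw [map_mul, map_mul, map_inv, hu', hw']
  | one => exact ⟨∅, fun H _ w' _ => ⟨1, Subgroup.one_mem _, map_one _⟩⟩
  | mul a b _ _ ha hb =>
    obtain ⟨S, hS⟩ := ha
    obtain ⟨T, hT⟩ := hb
    refine ⟨S ∪ T, fun H hH w' hw' => ?_⟩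
    rw [Finset.coe_union, Set.union_subset_iff] at hH
    obtain ⟨a', ha', ea⟩ := hS H hH.1 w' hw'
    obtain ⟨b', hb', eb⟩ := hT H hH.2 w' hw'
    exact ⟨a' * b', Subgroup.mul_mem _ ha' hb', by rw [map_mul, ea, eb]⟩
  | inv a _ ha =>
    obtain ⟨S, hS⟩ := ha
    refine ⟨S, fun H hH w' hw' => ?_⟩
    obtain ⟨a', ha', ea⟩ := hS H hH w' hw'
    exact ⟨a'⁻¹, Subgroup.inv_mem _ ha', by rw [map_inv, ea]⟩

/-- The one-equation theorem for countable coefficient groups gives it for all of them. -/
theorem oneEquation_of_countable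
    (H : ∀ (G : Type) [Group G] [Countable G] [LinearOrder G] [MulLeftStrictMono G] (ι : Type)
      (w : FP G ι), (∀ (u : FP G ι) (g : G), u * w * u⁻¹ ≠ Coprod.inl g) →
        ∀ g : G, g ≠ 1 → Coprod.inl g ∉ Subgroup.normalClosure {w}) :
    OneEquation := by
  classical
  intro G _ _ _ ι w hw g hg hmem
  obtain ⟨S, hS⟩ := exists_support w
  obtain ⟨T, hT⟩ := exists_support_normalClosure w _ hmem
  let K : Subgroup G := Subgroup.closure ((insert g (S ∪ T) : Finset G) : Set G)
  have hsub : ((insert g (S ∪ T) : Finset G) : Set G) ⊆ K := Subgroup.subset_closure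
  simp only [Finset.coe_insert, Finset.coe_union, Set.insert_subset_iff, Set.union_subset_iff]
    at hsub
  obtain ⟨hgK, hSK, hTK⟩ := hsub
  obtain ⟨w', hw'⟩ := hS K hSK
  obtain ⟨x', hx', ex⟩ := hT K hTK w' hw'
  have hx : x' = Coprod.inl (⟨g, hgK⟩ : K) :=
    changeCoef_injective K.subtype_injective (by rw [ex]; simp)
  have : Countable K := by
    let F : Finset G := insert g (S ∪ T)
    have he : (FreeGroup.lift (Subtype.val : F → G)).range = K := by
      rw [FreeGroup.range_lift_eq_closure, Subtype.range_coe_subtype]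
      rfl
    rw [← he]
    exact (MonoidHom.rangeRestrict_surjective _).countable
  have : MulLeftStrictMono K := ⟨fun a b c h => mul_lt_mul_right (show (b : G) < c from h) (a : G)⟩
  refine H K ι w' ?_ ⟨g, hgK⟩ (fun hc => hg (congrArg Subtype.val hc)) (hx ▸ hx')
  intro u k hc
  apply hw (changeCoef K.subtype u) k
  rw [← hw', ← map_inv, ← map_mul, ← map_mul, hc]
  simp

end Vale.Agent.P174
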