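import Vale.Agent.P174.Final
import Vale.Agent.P174.Countable

/-!
Left-orderability is needed only for a subgroup containing the coefficients.
-/

namespace Vale.Agent.P174

open Monoid

variable {G : Type} [Group G]

/-- Solutions over a subgroup give solutions over the whole group, by amalgamation. -/
theorem exists_solution_lift (G₀ : Subgroup G) {m n : ℕ} (w : Fin m → FP G₀ (Fin n))
    (h : ∃ (K : Type) (_ : Group K) (φ : G₀ →* K) (x : Fin n → K),
      Function.Injective φ ∧ ∀ i, Coprod.lift φ (FreeGroup.lift x) (w i) = 1) :
    ∃ (K : Type) (_ : Group K) (φ : G →* K) (x : Fin n → K), Function.Injective φ ∧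
      ∀ i, Coprod.lift φ (FreeGroup.lift x) (changeCoef G₀.subtype (w i)) = 1 := by
  obtain ⟨K, hK, φ, x, hφ, hx⟩ := h
  let D : Bool → Type := fun b => if b then G else K
  let hD : ∀ b, Group (D b) := fun b => match b with
    | true => (inferInstance : Group G)
    | false => hK
  let ψ : ∀ b, G₀ →* D b := fun b => match b with
    | true => G₀.subtype
    | false => φ
  have hψ : ∀ b, Function.Injective (ψ b) := fun b => match b with
    | true => G₀.subtype_injective
    | false => hφ
  refine ⟨PushoutI ψ, inferInstance, PushoutI.of (φ := ψ) true,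
    fun j => PushoutI.of (φ := ψ) false (x j), PushoutI.of_injective hψ true, fun i => ?_⟩
  have heq : (Coprod.lift (PushoutI.of (φ := ψ) true)
      (FreeGroup.lift fun j => PushoutI.of (φ := ψ) false (x j))).comp (changeCoef G₀.subtype) =
      (PushoutI.of (φ := ψ) false).comp (Coprod.lift φ (FreeGroup.lift x)) := by
    refine Coprod.hom_ext ?_ ?_
    · ext a
      have h1 := PushoutI.of_apply_eq_base ψ true a
      have h2 := PushoutI.of_apply_eq_base ψ false a
      simp only [MonoidHom.comp_apply, Coprod.map_apply_inl, Coprod.lift_apply_inl]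
      exact h1.trans h2.symm
    · refine FreeGroup.ext_hom _ _ fun a => ?_
      simp
  have := DFunLike.congr_fun heq (w i)
  simp only [MonoidHom.comp_apply, hx i, map_one] at this
  exact this

/-- A system with private unknowns whose coefficients lie in a left-ordered subgroup of an
arbitrary group has a solution in an overgroup. -/
theorem exists_solution_private_coef (H : OneEquation) (G₀ : Subgroup G) [LinearOrder G₀]
    [MulLeftStrictMono G₀] {m n : ℕ} (w : Fin m → FP G₀ (Fin n))
    (p : Fin m → Fin n) (hp : Function.Injective p)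
    (hw : ∀ i, w i ∈ supported {k | k ∈ Set.range p → k = p i})
    (he : ∀ i, expMatrix w i (p i) ≠ 0) :
    ∃ (K : Type) (_ : Group K) (φ : G →* K) (x : Fin n → K), Function.Injective φ ∧
      ∀ i, Coprod.lift φ (FreeGroup.lift x) (changeCoef G₀.subtype (w i)) = 1 :=
  exists_solution_lift G₀ w (exists_solution_private H w p hp hw he)

/-- The exponent matrix does not depend on the coefficient group. -/
theorem expMatrix_changeCoef (G₀ : Subgroup G) {m n : ℕ} (w : Fin m → FP G₀ (Fin n)) :
    expMatrix (fun i => changeCoef G₀.subtype (w i)) = expMatrix w := by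
  ext i j
  have h : (expVec n).comp (changeCoef G₀.subtype) = (expVec n : FP G₀ (Fin n) →* _) := by
    refine Coprod.hom_ext ?_ ?_
    · ext a; simp [expVec]
    · refine FreeGroup.ext_hom _ _ fun a => ?_
      simp [expVec]
  show Multiplicative.toAdd ((expVec n).comp (changeCoef G₀.subtype) (w i)) j = _
  rw [h]
  rfl

/-- One nonsingular equation with coefficients in a left-ordered subgroup of an arbitrary group
has a solution in an overgroup. -/
theorem exists_solution_rank_one_coef (H : OneEquation) (G₀ : Subgroup G) [LinearOrder G₀]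
    [MulLeftStrictMono G₀] {n : ℕ} (w : Fin 1 → FP G₀ (Fin n))
    (hrank : ((expMatrix fun i => changeCoef G₀.subtype (w i)).map
      (Int.cast : ℤ → ℚ)).rank = 1) :
    ∃ (K : Type) (_ : Group K) (φ : G →* K) (x : Fin n → K), Function.Injective φ ∧
      ∀ i, Coprod.lift φ (FreeGroup.lift x) (changeCoef G₀.subtype (w i)) = 1 := by
  rw [expMatrix_changeCoef] at hrank
  exact exists_solution_lift G₀ w (exists_solution_rank_one H w hrank)

/-- One equation, in any number of unknowns, that is not conjugate to a coefficient has a solution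
in an overgroup, whenever its coefficients lie in a left-ordered subgroup. -/
theorem exists_solution_not_conj_coef (H : OneEquation) (G₀ : Subgroup G) [LinearOrder G₀]
    [MulLeftStrictMono G₀] {n : ℕ} (w : FP G₀ (Fin n))
    (hw : ∀ (u : FP G₀ (Fin n)) (g : G₀), u * w * u⁻¹ ≠ Coprod.inl g) :
    ∃ (K : Type) (_ : Group K) (φ : G →* K) (x : Fin n → K), Function.Injective φ ∧
      Coprod.lift φ (FreeGroup.lift x) (changeCoef G₀.subtype w) = 1 := by
  have hinj : Function.Injective
      ((QuotientGroup.mk' (Subgroup.normalClosure (Set.range fun _ : Fin 1 => w))).comp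
        (Coprod.inl : G₀ →* FP G₀ (Fin n))) := by
    rw [← MonoidHom.ker_eq_bot_iff, eq_bot_iff]
    intro g hg
    rw [MonoidHom.mem_ker, MonoidHom.comp_apply, QuotientGroup.mk'_apply,
      QuotientGroup.eq_one_iff, Set.range_const] at hg
    by_contra hne
    exact H G₀ (Fin n) w hw g hne hg
  obtain ⟨K, hK, φ, x, hφ, hx⟩ :=
    exists_solution_lift G₀ _ (exists_solution_of_injective _ hinj)
  exact ⟨K, hK, φ, x, hφ, hx 0⟩

end Vale.Agent.P174
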