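import Vale.Agent.P174.LineAction

/-!
Scaled families of actions on the line with bounded displacement.
-/

namespace Vale.Agent.P174

noncomputable section

/-- A one-parameter family of actions of `G` on the line, trivial at parameter zero, odd under
point reflection, linear on the free orbit of `0`, and jointly continuous on the finite set `S`. -/
structure ScaledAction (G : Type*) [Group G] (S : Finset G) where
  f : G → ℝ → ℝ → ℝ
  f_one : ∀ s y, f 1 s y = y
  f_mul : ∀ g h s y, f (g * h) s y = f g s (f h s y)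
  mono : ∀ g s, StrictMono (f g s)
  f_zero : ∀ g y, f g 0 y = y
  odd : ∀ g s y, f g (-s) (-y) = -f g s y
  a : G → ℝ
  f_base : ∀ g s, f g s 0 = s * a g
  a_inj : Function.Injective a
  cont : ∀ g ∈ S, Continuous fun p : ℝ × ℝ => f g p.1 p.2

/-- Piecewise linear interpolation of a sequence indexed by the integers. -/
def interp (b : ℤ → ℝ) (x : ℝ) : ℝ :=
  b ⌊x⌋ + Int.fract x * (b (⌊x⌋ + 1) - b ⌊x⌋)

theorem interp_int (b : ℤ → ℝ) (n : ℤ) : interp b (n : ℝ) = b n := by
  simp [interp]

theorem interp_lt_succ (b : ℤ → ℝ) (hb : StrictMono b) (x : ℝ) :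
    interp b x < b (⌊x⌋ + 1) := by
  have h1 : b ⌊x⌋ < b (⌊x⌋ + 1) := hb (lt_add_one _)
  have h2 := Int.fract_lt_one x
  unfold interp
  nlinarith

theorem le_interp (b : ℤ → ℝ) (hb : StrictMono b) (x : ℝ) : b ⌊x⌋ ≤ interp b x := by
  have h1 : b ⌊x⌋ < b (⌊x⌋ + 1) := hb (lt_add_one _)
  have h2 := Int.fract_nonneg x
  unfold interp
  nlinarith

theorem interp_strictMono (b : ℤ → ℝ) (hb : StrictMono b) : StrictMono (interp b) := by
  intro x y hxy
  rcases (Int.floor_mono hxy.le).lt_or_eq with h | h
  · calc interp b x < b (⌊x⌋ + 1) := interp_lt_succ b hb x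
      _ ≤ b ⌊y⌋ := hb.monotone (by omega)
      _ ≤ interp b y := le_interp b hb y
  · have h1 : b ⌊x⌋ < b (⌊x⌋ + 1) := hb (lt_add_one _)
    unfold interp
    rw [← h]
    have hf : Int.fract x < Int.fract y := by
      simp only [Int.fract, ← h]; linarith
    nlinarith

theorem interp_surjective (b : ℤ → ℝ) (hb : StrictMono b) (hgrow : ∀ n, b n + 1 ≤ b (n + 1)) :
    Function.Surjective (interp b) := by
  intro y
  have hup : ∀ k : ℕ, b 0 + k ≤ b k := by
    intro k
    induction k with
    | zero => simp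
    | succ k ih => have := hgrow k; push_cast; linarith
  have hdown : ∀ k : ℕ, b (-(k : ℤ)) ≤ b 0 - k := by
    intro k
    induction k with
    | zero => simp
    | succ k ih =>
      have := hgrow (-((k + 1 : ℕ) : ℤ))
      have e : -((k + 1 : ℕ) : ℤ) + 1 = -(k : ℤ) := by push_cast; ring
      rw [e] at this
      push_cast at this ⊢
      linarith
  have hbd : ∃ M : ℤ, ∀ z : ℤ, b z ≤ y → z ≤ M := by
    obtain ⟨k, hk⟩ := exists_nat_gt (y - b 0)
    refine ⟨k, fun z hz => ?_⟩
    by_contra hcon
    have := hb.monotone (le_of_not_ge hcon)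
    have := hup k
    linarith
  have hne : ∃ z : ℤ, b z ≤ y := by
    obtain ⟨k, hk⟩ := exists_nat_gt (b 0 - y)
    exact ⟨-(k : ℤ), by have := hdown k; linarith⟩
  obtain ⟨n, hn, hmax⟩ := Int.exists_greatest_of_bdd hbd hne
  have hlt : y < b (n + 1) := by
    by_contra hcon
    have := hmax (n + 1) (le_of_not_gt hcon)
    omega
  have hpos : 0 < b (n + 1) - b n := by have := hb (lt_add_one n); linarith
  set θ := (y - b n) / (b (n + 1) - b n) with hθ
  have h0 : 0 ≤ θ := div_nonneg (by linarith) hpos.le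
  have h1 : θ < 1 := (div_lt_one hpos).2 (by linarith)
  refine ⟨(n : ℝ) + θ, ?_⟩
  have hfl : ⌊(n : ℝ) + θ⌋ = n := Int.floor_eq_iff.2 ⟨by linarith, by linarith⟩
  have hfr : Int.fract ((n : ℝ) + θ) = θ := by simp [Int.fract, hfl]
  unfold interp
  rw [hfl, hfr, hθ, div_mul_cancel₀ _ hpos.ne']
  ring

/-- Finitely many order automorphisms of the line have bounded displacement in suitable
coordinates fixing `0`. -/
theorem exists_coords {G : Type*} [Group G] (ρ : G →* (ℝ ≃o ℝ)) (S : Finset G) :
    ∃ h : ℝ ≃o ℝ, h 0 = 0 ∧ ∀ g ∈ S, ∀ y, |h (ρ g (h.symm y)) - y| ≤ 3 := by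
  classical
  let S' : Finset G := insert 1 (S ∪ S.image (·⁻¹))
  have hne : S'.Nonempty := ⟨1, Finset.mem_insert_self _ _⟩
  let φ : ℝ → ℝ := fun y => S'.sup' hne (fun g => ρ g y) + 1
  have hle : ∀ g ∈ S', ∀ y, ρ g y + 1 ≤ φ y := fun g hg y => by
    have := Finset.le_sup' (fun g => ρ g y) hg
    simp only [φ]; linarith
  have hstep : ∀ y, y + 1 ≤ φ y := fun y => by
    simpa using hle 1 (Finset.mem_insert_self _ _) y
  have hmono : StrictMono φ := by
    intro x y hxy
    simp only [φ, add_lt_add_iff_right]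
    rw [Finset.sup'_lt_iff]
    intro g hg
    exact lt_of_lt_of_le ((ρ g).strictMono hxy) (Finset.le_sup' (fun g => ρ g y) hg)
  have hcont : Continuous φ :=
    (Continuous.finset_sup'_apply hne (fun g _ => (ρ g).continuous)).add continuous_const
  have hsurj : Function.Surjective φ := by
    refine hcont.surjective ?_ ?_
    · exact Filter.tendsto_atTop_mono hstep (Filter.tendsto_atTop_add_const_right _ 1 Filter.tendsto_id)
    · refine Filter.tendsto_atBot.2 fun M => ?_
      have : ∀ g ∈ S', ∀ᶠ y in Filter.atBot, ρ g y ≤ M - 1 := fun g _ =>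
        Filter.tendsto_atBot.1 (ρ g).tendsto_atBot (M - 1)
      filter_upwards [(Finset.eventually_all S').2 this] with y hy
      have h2 : S'.sup' hne (fun g => ρ g y) ≤ M - 1 := Finset.sup'_le _ _ hy
      simp only [φ]
      linarith
  let Φ : ℝ ≃o ℝ := hmono.orderIsoOfSurjective φ hsurj
  let b : ℤ → ℝ := fun n => (Φ ^ n) 0
  have hsucc : ∀ n, b (n + 1) = φ (b n) := by
    intro n
    show (Φ ^ (n + 1)) 0 = Φ ((Φ ^ n) 0)
    rw [add_comm, zpow_add, zpow_one]
    rfl
  have hgrow : ∀ n, b n + 1 ≤ b (n + 1) := fun n => by rw [hsucc]; exact hstep _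
  have hb : StrictMono b := strictMono_int_of_lt_succ fun n => by have := hgrow n; linarith
  let k : ℝ ≃o ℝ := (interp_strictMono b hb).orderIsoOfSurjective _ (interp_surjective b hb hgrow)
  have hk : ∀ n : ℤ, k (n : ℝ) = b n := fun n => interp_int b n
  have hb0 : b 0 = 0 := by simp [b]
  refine ⟨k.symm, ?_, ?_⟩
  · rw [OrderIso.symm_apply_eq]
    have := hk 0
    simpa [hb0] using this.symm
  · intro g hg y
    rw [OrderIso.symm_symm]
    have hgS : g ∈ S' := Finset.mem_insert_of_mem (Finset.mem_union_left _ hg)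
    have hgiS : g⁻¹ ∈ S' :=
      Finset.mem_insert_of_mem (Finset.mem_union_right _ (Finset.mem_image_of_mem _ hg))
    set z := k y
    set n : ℤ := ⌊y⌋
    have hzl : b n ≤ z := le_interp b hb y
    have hzu : z < b (n + 1) := interp_lt_succ b hb y
    have hu : ρ g z < b (n + 2) := by
      have h1 := hle g hgS z
      have h2 : φ z < φ (b (n + 1)) := hmono hzu
      rw [← hsucc] at h2
      have e : n + 1 + 1 = n + 2 := by ring
      rw [e] at h2
      linarith
    have hl : b (n - 1) < ρ g z := by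
      have h1 := hle g⁻¹ hgiS (ρ g z)
      have h0 : ρ g⁻¹ (ρ g z) = z := by
        rw [← RelIso.mul_apply, ← map_mul, inv_mul_cancel, map_one]
        rfl
      rw [h0] at h1
      by_contra hcon
      have h2 : φ (ρ g z) ≤ φ (b (n - 1)) := hmono.monotone (le_of_not_gt hcon)
      rw [← hsucc, sub_add_cancel] at h2
      linarith
    have hu' : k.symm (ρ g z) < ((n + 2 : ℤ) : ℝ) := by
      rw [← k.lt_iff_lt, k.apply_symm_apply, hk]
      exact hu
    have hl' : ((n - 1 : ℤ) : ℝ) < k.symm (ρ g z) := by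
      rw [← k.lt_iff_lt, k.apply_symm_apply, hk]
      exact hl
    have f1 : (n : ℝ) ≤ y := Int.floor_le y
    have f2 : y < (n : ℝ) + 1 := Int.lt_floor_add_one y
    push_cast at hu' hl'
    rw [abs_le]
    constructor <;> linarith

/-- Every countable left-ordered group has, for every finite subset, a scaled family of actions. -/
theorem exists_scaledAction (G : Type*) [Group G] [Countable G] [LinearOrder G]
    [MulLeftStrictMono G] (S : Finset G) : Nonempty (ScaledAction G S) := by
  obtain ⟨ρ₀, hfree⟩ := exists_free_real_action G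
  obtain ⟨h, h0, hdisp⟩ := exists_coords ρ₀ S
  let r : G → ℝ → ℝ := fun g y => h (ρ₀ g (h.symm y))
  have rone : ∀ y, r 1 y = y := fun y => by simp [r]
  have rmul : ∀ g g' y, r (g * g') y = r g (r g' y) := fun g g' y => by
    simp [r, RelIso.mul_apply]
  have rmono : ∀ g, StrictMono (r g) := fun g =>
    h.strictMono.comp ((ρ₀ g).strictMono.comp h.symm.strictMono)
  have rcont : ∀ g, Continuous (r g) := fun g =>
    h.continuous.comp ((ρ₀ g).continuous.comp h.symm.continuous)
  have hs0 : h.symm 0 = 0 := by rw [OrderIso.symm_apply_eq, h0]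
  let f : G → ℝ → ℝ → ℝ := fun g s y => if s = 0 then y else s * r g (y / s)
  refine ⟨{ f := f, f_one := ?_, f_mul := ?_, mono := ?_, f_zero := ?_, odd := ?_,
            a := fun g => r g 0, f_base := ?_, a_inj := ?_, cont := ?_ }⟩
  · intro s y
    by_cases hs : s = 0
    · simp [f, hs]
    · simp [f, hs, rone, mul_div_cancel₀]
  · intro g g' s y
    by_cases hs : s = 0
    · simp [f, hs]
    · simp [f, hs, rmul]
  · intro g s x y hxy
    rcases lt_trichotomy s 0 with hs | hs | hs
    · simp only [f, hs.ne, if_false]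
      exact mul_lt_mul_of_neg_left (rmono g ((div_lt_div_right_of_neg hs).2 hxy)) hs
    · simpa [f, hs] using hxy
    · simp only [f, hs.ne', if_false]
      exact mul_lt_mul_of_pos_left (rmono g (div_lt_div_of_pos_right hxy hs)) hs
  · intro g y; simp [f]
  · intro g s y
    by_cases hs : s = 0
    · simp [f, hs]
    · simp [f, hs, neg_div_neg_eq]
  · intro g s
    by_cases hs : s = 0
    · simp [f, hs]
    · simp [f, hs]
  · intro g g' hgg
    have h1 : ρ₀ g 0 = ρ₀ g' 0 := by simpa [r, hs0] using hgg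
    have h2 : ρ₀ (g'⁻¹ * g) 0 = 0 := by
      rw [map_mul, RelIso.mul_apply, h1, ← RelIso.mul_apply, ← map_mul, inv_mul_cancel, map_one]
      rfl
    exact (inv_mul_eq_one.1 (hfree _ h2)).symm
  · intro g hg
    rw [continuous_iff_continuousAt]
    rintro ⟨s, y⟩
    by_cases hs : s = 0
    · subst hs
      show Filter.Tendsto (fun p : ℝ × ℝ => f g p.1 p.2) (nhds (0, y)) (nhds (f g 0 y))
      have hb : ∀ p : ℝ × ℝ, |f g p.1 p.2 - p.2| ≤ 3 * |p.1| := by
        intro p
        by_cases hp : p.1 = 0
        · simp [f, hp]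
        · have := hdisp g hg (p.2 / p.1)
          have e : f g p.1 p.2 - p.2 = p.1 * (r g (p.2 / p.1) - p.2 / p.1) := by
            simp only [f, hp, if_false]
            field_simp
          rw [e, abs_mul, mul_comm (3 : ℝ)]
          exact mul_le_mul_of_nonneg_left this (abs_nonneg _)
      have t0 : Filter.Tendsto (fun p : ℝ × ℝ => f g p.1 p.2 - p.2) (nhds (0, y)) (nhds 0) := by
        refine squeeze_zero_norm (a := fun p : ℝ × ℝ => 3 * |p.1|) (fun p => hb p) ?_
        have hc : Continuous fun p : ℝ × ℝ => 3 * |p.1| := by fun_prop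
        simpa using hc.tendsto (0, y)
      have t1 := t0.add (continuous_snd.tendsto ((0 : ℝ), y))
      simpa [f] using t1
    · have hc : ContinuousAt (fun p : ℝ × ℝ => p.1 * r g (p.2 / p.1)) (s, y) :=
        continuousAt_fst.mul ((rcont g).continuousAt.comp
          (continuousAt_snd.div continuousAt_fst hs))
      refine hc.congr ?_
      filter_upwards [continuousAt_fst.eventually_ne hs] with p hp
      simp [f, hp]

end

end Vale.Agent.P174
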