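import Vale.Agent.P174.Word
import Vale.Agent.P174.Scaled

/-!
Existence of stackings: every reduced cyclic word over a free product of a countable left-ordered
group with a free group has a stacking.

A minimal left-invariant preorder in which the word is equivalent to `1` gives the stacking: if
the word were not stacked, then the walk of the word would carry two independent parameters of a
lexicographic extension by the real line, and the intermediate value theorem would give a strictly
finer such preorder.
-/

namespace Vale.Agent.P174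

open Monoid

noncomputable section

variable {G : Type*} [Group G] {ι : Type*}

/-- A periodic function only depends on the residue. -/
theorem periodic_emod {α : Type*} {f : ℤ → α} {L : ℕ} (h : ∀ i, f (i + L) = f i) (i : ℤ) :
    f i = f (i % L) := by
  have hp : Function.Periodic f (L : ℤ) := h
  conv_lhs => rw [← Int.emod_add_mul_ediv i L, mul_comm (L : ℤ)]
  exact hp.int_mul (i / L) (i % L)

theorem periodic_nat {α : Type*} {f : ℤ → α} {L : ℕ} (hL : 0 < L) (h : ∀ i, f (i + L) = f i)
    (i : ℤ) : ∃ n : ℕ, n < L ∧ f i = f n := by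
  have h0 : 0 ≤ i % (L : ℤ) := Int.emod_nonneg _ (by omega)
  have h1 : i % (L : ℤ) < L := Int.emod_lt_of_pos _ (by omega)
  refine ⟨(i % (L : ℤ)).toNat, by omega, ?_⟩
  rw [Int.toNat_of_nonneg h0]
  exact periodic_emod h i

section Lex

variable {S : Finset G} (Φ : ScaledAction G S) {X : Type*} [LinearOrder X]
  (A : FP G ι →* (X ≃o X))

/-- The orbit relation of `G` on the points. -/
def orbitSetoid : Setoid X where
  r x y := ∃ g : G, A (Coprod.inl g) x = y
  iseqv :=
    { refl := fun x => ⟨1, by simp⟩
      symm := fun {x y} ⟨g, h⟩ => ⟨g⁻¹, by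
        rw [← h, ← RelIso.mul_apply, ← map_mul, ← map_mul, inv_mul_cancel]; simp⟩
      trans := fun {x y z} ⟨g, h⟩ ⟨g', h'⟩ => ⟨g' * g, by
        rw [map_mul, map_mul, RelIso.mul_apply, h, h']⟩ }

/-- The orbits of `G` on the points. -/
abbrev Orbit : Type _ := Quotient (orbitSetoid A)

/-- The orbit of a point. -/
def orb (x : X) : Orbit A := Quotient.mk (orbitSetoid A) x

theorem orb_inl (g : G) (x : X) : orb A (A (Coprod.inl g) x) = orb A x :=
  (Quotient.sound (s := orbitSetoid A) ⟨g, rfl⟩).symm

theorem exists_gam (x : X) :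
    ∃ g : G, A (Coprod.inl g) (Quotient.out (s := orbitSetoid A) (orb A x)) = x :=
  Quotient.mk_out (s := orbitSetoid A) x

/-- A chosen transporter from the representative of the orbit to the point. -/
def gam (x : X) : G := (exists_gam A x).choose

theorem gam_spec (x : X) :
    A (Coprod.inl (gam A x)) (Quotient.out (s := orbitSetoid A) (orb A x)) = x :=
  (exists_gam A x).choose_spec

/-- The anchor height of a point. -/
def anch (s : Orbit A → ℝ) (x : X) : ℝ := s (orb A x) * Φ.a (gam A x)

theorem f_anch (s : Orbit A → ℝ) (g : G) (x : X) :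
    Φ.f g (s (orb A x)) (anch Φ A s x) = s (orb A x) * Φ.a (g * gam A x) := by
  rw [anch, ← Φ.f_base, ← Φ.f_base, ← Φ.f_mul]

/-- The translation attached to an edge. -/
def shift (s : Orbit A → ℝ) (δ : ι × X → ℝ) (t : ι) (x : X) : ℝ :=
  anch Φ A s (A (Coprod.inr (FreeGroup.of t)) x) - anch Φ A s x + δ (t, x)

/-- The action of a coefficient on the lexicographic extension. -/
def lexG (s : Orbit A → ℝ) (g : G) : Lex (X × ℝ) ≃o Lex (X × ℝ) :=
  StrictMono.orderIsoOfRightInverse
    (fun p => toLex (A (Coprod.inl g) (ofLex p).1, Φ.f g (s (orb A (ofLex p).1)) (ofLex p).2))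
    (by
      intro p q hpq
      rw [Prod.Lex.lt_iff] at hpq ⊢
      rcases hpq with h | ⟨h1, h2⟩
      · exact Or.inl (by simpa using (A (Coprod.inl g)).strictMono h)
      · refine Or.inr ⟨by simp [h1], ?_⟩
        simp only [ofLex_toLex, h1]
        exact Φ.mono g _ h2)
    (fun p => toLex (A (Coprod.inl g⁻¹) (ofLex p).1, Φ.f g⁻¹ (s (orb A (ofLex p).1)) (ofLex p).2))
    (fun p => by
      simp only [ofLex_toLex, orb_inl]
      rw [← RelIso.mul_apply, ← map_mul, ← map_mul, ← Φ.f_mul, mul_inv_cancel, Φ.f_one]
      simp)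

theorem lexG_apply (s : Orbit A → ℝ) (g : G) (p : Lex (X × ℝ)) :
    lexG Φ A s g p =
      toLex (A (Coprod.inl g) (ofLex p).1, Φ.f g (s (orb A (ofLex p).1)) (ofLex p).2) := rfl

/-- The action of a free generator on the lexicographic extension. -/
def lexT (s : Orbit A → ℝ) (δ : ι × X → ℝ) (t : ι) : Lex (X × ℝ) ≃o Lex (X × ℝ) :=
  StrictMono.orderIsoOfRightInverse
    (fun p => toLex (A (Coprod.inr (FreeGroup.of t)) (ofLex p).1,
      (ofLex p).2 + shift Φ A s δ t (ofLex p).1))
    (by
      intro p q hpq
      rw [Prod.Lex.lt_iff] at hpq ⊢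
      rcases hpq with h | ⟨h1, h2⟩
      · exact Or.inl (by simpa using (A (Coprod.inr (FreeGroup.of t))).strictMono h)
      · refine Or.inr ⟨by simp [h1], ?_⟩
        simp only [ofLex_toLex, h1]
        linarith)
    (fun p => toLex ((A (Coprod.inr (FreeGroup.of t))).symm (ofLex p).1,
      (ofLex p).2 - shift Φ A s δ t ((A (Coprod.inr (FreeGroup.of t))).symm (ofLex p).1)))
    (fun p => by simp)

theorem lexT_apply (s : Orbit A → ℝ) (δ : ι × X → ℝ) (t : ι) (p : Lex (X × ℝ)) :
    lexT Φ A s δ t p = toLex (A (Coprod.inr (FreeGroup.of t)) (ofLex p).1,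
      (ofLex p).2 + shift Φ A s δ t (ofLex p).1) := rfl

/-- The lexicographic extension of an action. -/
def lexHom (s : Orbit A → ℝ) (δ : ι × X → ℝ) : FP G ι →* (Lex (X × ℝ) ≃o Lex (X × ℝ)) :=
  Coprod.lift
    (MonoidHom.mk' (lexG Φ A s) (fun g h => by
      ext p
      show lexG Φ A s (g * h) p = lexG Φ A s g (lexG Φ A s h p)
      simp only [lexG_apply, ofLex_toLex, orb_inl, Φ.f_mul, map_mul, RelIso.mul_apply]))
    (FreeGroup.lift (lexT Φ A s δ))

theorem lexHom_inl (s : Orbit A → ℝ) (δ : ι × X → ℝ) (g : G) (x : X) (y : ℝ) :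
    lexHom Φ A s δ (Coprod.inl g) (toLex (x, y)) =
      toLex (A (Coprod.inl g) x, Φ.f g (s (orb A x)) y) := by
  simp [lexHom, lexG_apply]

theorem lexHom_gen (s : Orbit A → ℝ) (δ : ι × X → ℝ) (t : ι) (x : X) (y : ℝ) :
    lexHom Φ A s δ (Coprod.inr (FreeGroup.of t)) (toLex (x, y)) =
      toLex (A (Coprod.inr (FreeGroup.of t)) x, y + shift Φ A s δ t x) := by
  simp [lexHom, lexT_apply]

/-- The projection to the points intertwines the actions. -/
theorem lexHom_fst (s : Orbit A → ℝ) (δ : ι × X → ℝ) (q : FP G ι) :
    ∀ p : Lex (X × ℝ), (ofLex (lexHom Φ A s δ q p)).1 = A q (ofLex p).1 := by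
  induction q using Coprod.induction_on with
  | inl g =>
    intro p
    rw [← toLex_ofLex p, ← Prod.mk.eta (p := ofLex p), lexHom_inl]
    rfl
  | inr u =>
    induction u using FreeGroup.induction_on with
    | C1 => intro p; simp
    | of t =>
      intro p
      rw [← toLex_ofLex p, ← Prod.mk.eta (p := ofLex p)]
      rw [lexHom_gen]
      rfl
    | inv_of t ih =>
      intro p
      rw [map_inv, map_inv, map_inv]
      have h := ih ((lexHom Φ A s δ (Coprod.inr (FreeGroup.of t)))⁻¹ p)
      rw [← RelIso.mul_apply, mul_inv_cancel, RelIso.one_apply] at h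
      change (ofLex ((lexHom Φ A s δ (Coprod.inr (FreeGroup.of t)))⁻¹ p)).1 =
        (A (Coprod.inr (FreeGroup.of t)))⁻¹ (ofLex p).1
      rw [h, ← RelIso.mul_apply, inv_mul_cancel, RelIso.one_apply]
    | mul u v hu hv =>
      intro p
      simp only [map_mul, RelIso.mul_apply]
      rw [hu, hv]
  | mul a b ha hb =>
    intro p
    simp only [map_mul, RelIso.mul_apply]
    rw [ha, hb]

theorem lexHom_letter (s : Orbit A → ℝ) (δ : ι × X → ℝ) (l : Letter ι) (x : X) (y : ℝ) :
    lexHom Φ A s δ (letter l) (toLex (x, y)) =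
      toLex (A (letter l) x, y + anch Φ A s (A (letter l) x) - anch Φ A s x +
        (if l.2 then 1 else -1) * δ (l.1, edgePoint l x (A (letter l) x))) := by
  obtain ⟨t, b⟩ := l
  cases b
  · rw [letter_false, map_inv]
    apply (lexHom Φ A s δ (Coprod.inr (FreeGroup.of t))).injective
    rw [← RelIso.mul_apply, mul_inv_cancel, RelIso.one_apply, lexHom_gen]
    have e : A (Coprod.inr (FreeGroup.of t)) (A (Coprod.inr (FreeGroup.of t))⁻¹ x) = x := by
      rw [← RelIso.mul_apply, ← map_mul, mul_inv_cancel, map_one, RelIso.one_apply]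
    rw [e]
    congr 2
    simp only [shift, edgePoint, e, if_false, Bool.false_eq_true]
    ring
  · rw [letter_true, lexHom_gen]
    congr 2
    simp only [shift, edgePoint, if_true]
    ring

end Lex

section Pre

/-- Left-invariant total preorders in which the word is equivalent to `1`. -/
structure IsPre (w : CWord G ι) (R : Set (FP G ι × FP G ι)) : Prop where
  refl : ∀ a, (a, a) ∈ R
  trans : ∀ a b c, (a, b) ∈ R → (b, c) ∈ R → (a, c) ∈ R
  total : ∀ a b, (a, b) ∈ R ∨ (b, a) ∈ R
  left : ∀ q a b, (a, b) ∈ R → (q * a, q * b) ∈ R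
  le_val : (1, w.val) ∈ R
  val_le : (w.val, 1) ∈ R

theorem exists_minimal_pre (w : CWord G ι) : ∃ R, Minimal (IsPre w) R := by
  refine zorn_superset {R | IsPre w R} ?_
  intro C hC hchain
  rcases C.eq_empty_or_nonempty with hCe | hCne
  · refine ⟨Set.univ, ⟨?_, ?_, ?_, ?_, ?_, ?_⟩, ?_⟩ <;> simp [hCe]
  · refine ⟨⋂₀ C, ⟨?_, ?_, ?_, ?_, ?_, ?_⟩, fun R hR => Set.sInter_subset_of_mem hR⟩
    · exact fun a R hR => (hC hR).refl a
    · exact fun a b c h1 h2 R hR => (hC hR).trans a b c (h1 R hR) (h2 R hR)
    · intro a b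
      by_contra hcon
      rw [not_or] at hcon
      simp only [Set.mem_sInter, not_forall] at hcon
      obtain ⟨⟨R1, hR1, h1⟩, R2, hR2, h2⟩ := hcon
      rcases hchain.total hR1 hR2 with h | h
      · rcases (hC hR1).total a b with k | k
        · exact h1 k
        · exact h2 (h k)
      · rcases (hC hR2).total a b with k | k
        · exact h1 (h k)
        · exact h2 k
    · exact fun q a b h R hR => (hC hR).left q a b (h R hR)
    · exact fun R hR => (hC hR).le_val
    · exact fun R hR => (hC hR).val_le

end Pre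

universe u v

variable {G : Type u} [Group G] {ι : Type v}

theorem IsPre.realise {w : CWord G ι} {R : Set (FP G ι × FP G ι)} (h : IsPre w R) :
    ∃ (X : Type (max u v)) (_ : LinearOrder X) (A : FP G ι →* (X ≃o X)) (x0 : X),
      ∀ a b, A a x0 ≤ A b x0 ↔ (a, b) ∈ R := by
  classical
  let : Preorder (FP G ι) :=
    { le := fun a b => (a, b) ∈ R, le_refl := h.refl, le_trans := h.trans }
  let Y := Antisymmetrization (FP G ι) (· ≤ ·)
  let lo : LinearOrder Y :=
    { (inferInstance : PartialOrder Y) with
      le_total := fun a b => Quotient.inductionOn₂ a b fun a b => h.total a b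
      toDecidableLE := Classical.decRel _ }
  let mkY : FP G ι → Y := fun a => toAntisymmetrization (α := FP G ι) (· ≤ ·) a
  have hle : ∀ a b, mkY a ≤ mkY b ↔ (a, b) ∈ R := fun a b => Iff.rfl
  have heq : ∀ a b, mkY a = mkY b ↔ (a, b) ∈ R ∧ (b, a) ∈ R := fun a b => by
    rw [le_antisymm_iff, hle, hle]
  let actF : FP G ι → Y → Y := fun q =>
    Quotient.lift (fun a : FP G ι => mkY (q * a))
      (fun a b hab => (heq _ _).2 ⟨h.left q _ _ hab.1, h.left q _ _ hab.2⟩)
  have hact : ∀ q a, actF q (mkY a) = mkY (q * a) := fun q a => rfl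
  have hsm : ∀ q, StrictMono (actF q) := by
    intro q x y
    refine Quotient.inductionOn₂ x y fun a b hab => ?_
    change mkY a < mkY b at hab
    show mkY _ < mkY _
    rw [lt_iff_le_not_ge, hle, hle] at hab ⊢
    refine ⟨h.left q _ _ hab.1, fun hcon => hab.2 ?_⟩
    simpa using h.left q⁻¹ _ _ hcon
  have hinv : ∀ q y, actF q (actF q⁻¹ y) = y := fun q y =>
    Quotient.inductionOn y fun a => by
      show actF q (actF q⁻¹ (mkY a)) = mkY a
      rw [hact, hact, mul_inv_cancel_left]
  let A : FP G ι →* (Y ≃o Y) := MonoidHom.mk'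
    (fun q => (hsm q).orderIsoOfRightInverse (actF q) (actF q⁻¹) (hinv q))
    (fun q q' => by
      ext y
      refine Quotient.inductionOn y fun a => ?_
      show actF (q * q') (mkY a) = actF q (actF q' (mkY a))
      rw [hact, hact, hact, mul_assoc])
  refine ⟨Y, lo, A, mkY 1, fun a b => ?_⟩
  show actF a (mkY 1) ≤ actF b (mkY 1) ↔ _
  rw [hact, hact, mul_one, mul_one, hle]

/-- Every reduced cyclic word over a countable left-ordered group has a stacking. -/
theorem exists_stacking [Countable G] [LinearOrder G] [MulLeftStrictMono G] (w : CWord G ι)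
    (hred : w.Reduced) : Nonempty (Stacking.{u, v, max u v} w) := by
  classical
  obtain ⟨R, hR, hmin⟩ := exists_minimal_pre w
  obtain ⟨X, lo, A, x0, hAR⟩ := hR.realise
  let L := w.len
  have hL : 0 < L := w.len_pos
  have hclose : A w.val x0 = x0 := by
    have e : A 1 x0 = x0 := by rw [map_one, RelIso.one_apply]
    exact le_antisymm (by simpa [e] using (hAR w.val 1).2 hR.val_le)
      (by simpa [e] using (hAR 1 w.val).2 hR.le_val)
  -- the walk
  let x : ℤ → X := fun i => A (w.part (i % L).toNat) x0
  have x_per : ∀ i, x (i + L) = x i := fun i => by simp [x, Int.add_emod_right]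
  have xnat : ∀ n : ℕ, n ≤ L → x n = A (w.part n) x0 := by
    intro n hn
    rcases hn.lt_or_eq with h | h
    · simp [x, ← Int.natCast_mod, Nat.mod_eq_of_lt h]
    · subst h
      show A (w.part (((L : ℕ) : ℤ) % L).toNat) x0 = A w.val x0
      rw [hclose, Int.emod_self]
      simp [CWord.part]
  let mid : ℤ → X := fun i => A (letter (w.c i)) (x i)
  have x_step : ∀ i, x (i + 1) = A (Coprod.inl (w.g i)) (mid i) := by
    intro i
    obtain ⟨n, hn, he⟩ := periodic_nat hL
      (f := fun i => (x (i + 1), A (Coprod.inl (w.g i)) (mid i)))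
      (fun i => by simp [mid, w.c_per, w.g_per, x_per, L, add_right_comm i (w.len : ℤ) 1]) i
    rw [Prod.mk.injEq] at he
    rw [he.1, he.2]
    have e1 : x ((n : ℤ) + 1) = A (w.part (n + 1)) x0 := by
      have := xnat (n + 1) hn
      push_cast at this
      exact this
    rw [e1]
    simp [mid, xnat n hn.le, CWord.part, RelIso.mul_apply, map_mul]
  let τ : ι → (X ≃o X) := fun t => A (Coprod.inr (FreeGroup.of t))
  -- edges and half edges
  let E : ℤ → ι × X := fun i => ((w.c i).1, edgePoint (w.c i) (x i) (mid i))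
  let pt : (ι × X) × Bool → X := fun h => if h.2 then τ h.1.1 h.1.2 else h.1.2
  let hin : ℤ → (ι × X) × Bool := fun i => (E i, (w.c i).2)
  let hout : ℤ → (ι × X) × Bool := fun i => (E i, !(w.c i).2)
  have pt_hin : ∀ i, pt (hin i) = mid i := by
    intro i
    simp only [pt, hin, E, τ, mid]
    rcases hc : w.c i with ⟨t, b⟩
    cases b <;> simp [edgePoint, letter]
  have pt_hout : ∀ i, pt (hout i) = x i := by
    intro i
    simp only [pt, hout, E, τ, mid]
    rcases hc : w.c i with ⟨t, b⟩
    cases b <;> simp [edgePoint, letter, ← RelIso.mul_apply]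
  have c_hin : ∀ i j, hin i = hin j → w.c i = w.c j := fun i j h => by
    simp only [hin, E, Prod.mk.injEq] at h
    exact Prod.ext h.1.1 h.2
  have rev_hin : ∀ i j, hin i = hout j → w.c j = (w.c i).rev := fun i j h => by
    simp only [hin, hout, E, Prod.mk.injEq] at h
    exact Prod.ext h.1.1.symm (by simp [Letter.rev, h.2])
  have E_per : ∀ i, E (i + L) = E i := fun i => by simp [E, mid, L, w.c_per, x_per]
  have mid_per : ∀ i, mid (i + L) = mid i := fun i => by simp [mid, L, w.c_per, x_per]
  have orb_mid : ∀ i, orb A (x (i + 1)) = orb A (mid i) := fun i => by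
    rw [x_step]; exact orb_inl A _ _
  -- finite sets of orbits and edges
  let V : Finset (Orbit A) := (Finset.range L).image fun n : ℕ => orb A (x n)
  have memV : ∀ i, orb A (x i) ∈ V := fun i => by
    obtain ⟨n, hn, he⟩ := periodic_nat hL (f := fun i => orb A (x i)) (fun i => by simp [x_per]) i
    exact Finset.mem_image.2 ⟨n, Finset.mem_range.2 hn, he.symm⟩
  let Efin : Finset (ι × X) := (Finset.range L).image fun n : ℕ => E n
  have memE : ∀ i, E i ∈ Efin := fun i => by
    obtain ⟨n, hn, he⟩ := periodic_nat hL (f := E) E_per i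
    exact Finset.mem_image.2 ⟨n, Finset.mem_range.2 hn, he.symm⟩
  let disc : Finset ℕ :=
    (Finset.range L).filter fun n => ∀ k ≤ n, orb A (x k) ≠ orb A (x ((n : ℤ) + 1))
  let T : Finset (ι × X) := disc.image fun n : ℕ => E n
  have cardT : T.card + 1 ≤ V.card := by
    have h0 : orb A (x 0) ∈ V := memV 0
    have h1 : disc.card ≤ (V.erase (orb A (x 0))).card := by
      refine Finset.card_le_card_of_injOn (fun n => orb A (x ((n : ℤ) + 1))) ?_ ?_
      · intro n hn
        rw [Finset.mem_coe, Finset.mem_filter] at hn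
        exact Finset.mem_erase.2 ⟨fun h => hn.2 0 (Nat.zero_le _) (by simpa using h.symm), memV _⟩
      · intro n hn m hm hnm
        rw [Finset.mem_coe, Finset.mem_filter] at hn hm
        simp only at hnm
        rcases lt_trichotomy n m with h | h | h
        · exact absurd hnm (by simpa using hm.2 (n + 1) h)
        · exact h
        · exact absurd hnm.symm (by simpa using hn.2 (m + 1) h)
    have h2 : T.card ≤ disc.card := Finset.card_image_le
    have h3 := Finset.card_erase_add_one h0
    omega
  let N : Finset (ι × X) := Efin \ T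
  let Bad : Finset (Orbit A) :=
    V.filter fun o => ∃ n : ℕ, n < L ∧ orb A (mid n) = o ∧
      w.g n * gam A (mid n) ≠ gam A (x ((n : ℤ) + 1))
  have good : ∀ i, orb A (mid i) ∉ Bad → w.g i * gam A (mid i) = gam A (x (i + 1)) := by
    intro i hi
    by_contra hcon
    obtain ⟨n, hn, he⟩ := periodic_nat hL (f := fun i => (mid i, w.g i, x (i + 1)))
      (fun i => by simp [mid_per, L, w.g_per, x_per, add_right_comm i (w.len : ℤ) 1]) i
    simp only [Prod.mk.injEq] at he
    apply hi
    refine Finset.mem_filter.2 ⟨(orb_mid i) ▸ memV _, n, hn, by rw [he.1], ?_⟩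
    rw [← he.1, ← he.2.1, ← he.2.2]
    exact hcon
  -- two parameters give a strictly finer preorder
  have key : Bad.card + N.card ≤ 1 := by
    by_contra hcon
    let P := Bad.disjSum N
    have hP : 1 < P.card := by rw [Finset.card_disjSum]; omega
    obtain ⟨p1, hp1, p2, hp2, hne⟩ := Finset.one_lt_card.1 hP
    let S : Finset G := (Finset.range L).image fun n : ℕ => w.g n
    obtain ⟨Φ⟩ := exists_scaledAction G S
    let val : ℝ × ℝ → Orbit A ⊕ (ι × X) → ℝ := fun z p =>
      if p = p1 then z.1 else if p = p2 then z.2 else 0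
    let sv : ℝ × ℝ → Orbit A → ℝ := fun z o => val z (Sum.inl o)
    let dv : ℝ × ℝ → ι × X → ℝ := fun z e => val z (Sum.inr e)
    have valcont : ∀ p, Continuous fun z => val z p := by
      intro p
      simp only [val]
      split_ifs
      · exact continuous_fst
      · exact continuous_snd
      · exact continuous_const
    have valneg : ∀ z p, val (-z) p = -val z p := by
      intro z p
      simp only [val]
      split_ifs <;> simp
    let base : ℝ × ℝ → Lex (X × ℝ) := fun z => toLex (x0, anch Φ A (sv z) x0)
    let ht : ℝ × ℝ → ℕ → ℝ := fun z =>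
      Nat.rec (anch Φ A (sv z) x0) fun n y =>
        Φ.f (w.g n) (sv z (orb A (mid n)))
          (y + anch Φ A (sv z) (mid n) - anch Φ A (sv z) (x n) +
            (if (w.c n).2 then 1 else -1) * dv z (E n))
    have hwalk : ∀ z, ∀ n ≤ L,
        lexHom Φ A (sv z) (dv z) (w.part n) (base z) = toLex (x n, ht z n) := by
      intro z n
      induction n with
      | zero =>
        intro _
        have e : x ((0 : ℕ) : ℤ) = x0 := by rw [xnat 0 (Nat.zero_le _)]; simp [CWord.part]
        rw [e]
        simp [CWord.part, base, ht]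
      | succ n ih =>
        intro hn
        rw [CWord.part, map_mul, map_mul, RelIso.mul_apply, RelIso.mul_apply, ih (by omega),
          lexHom_letter, lexHom_inl]
        push_cast
        rw [x_step]
    have anchcont : ∀ y : X, Continuous fun z => anch Φ A (sv z) y := fun y =>
      (valcont _).mul continuous_const
    have htcont : ∀ n ≤ L, Continuous fun z => ht z n := by
      intro n
      induction n with
      | zero => intro _; exact anchcont x0
      | succ n ih =>
        intro hn
        have hmem : w.g n ∈ S := Finset.mem_image.2 ⟨n, Finset.mem_range.2 hn, rfl⟩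
        exact (Φ.cont _ hmem).comp ((valcont _).prodMk
          ((((ih (by omega)).add (anchcont _)).sub (anchcont _)).add
            (continuous_const.mul (valcont _))))
    have svneg : ∀ z o, sv (-z) o = -sv z o := fun z o => valneg z _
    have anchneg : ∀ z y, anch Φ A (sv (-z)) y = -anch Φ A (sv z) y := fun z y => by
      simp [anch, svneg]
    have htneg : ∀ z n, ht (-z) n = -ht z n := by
      intro z n
      induction n with
      | zero => exact anchneg z x0
      | succ n ih =>
        show Φ.f _ _ _ = -Φ.f _ _ _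
        rw [← Φ.odd]
        congr 1
        · exact valneg z _
        · have hd : dv (-z) (E n) = -dv z (E n) := valneg z _
          show ht (-z) n + anch Φ A (sv (-z)) (mid n) - anch Φ A (sv (-z)) (x n) +
              (if (w.c n).2 then 1 else -1) * dv (-z) (E n) =
            -(ht z n + anch Φ A (sv z) (mid n) - anch Φ A (sv z) (x n) +
              (if (w.c n).2 then 1 else -1) * dv z (E n))
          rw [anchneg, anchneg, hd, ih]
          ring
    let D : ℝ → ℝ := fun θ =>
      ht (Real.cos θ, Real.sin θ) L - anch Φ A (sv (Real.cos θ, Real.sin θ)) x0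
    have hDc : Continuous D :=
      ((htcont L le_rfl).comp (Real.continuous_cos.prodMk Real.continuous_sin)).sub
        ((anchcont x0).comp (Real.continuous_cos.prodMk Real.continuous_sin))
    have hDpi : D Real.pi = -D 0 := by
      have e : ((Real.cos Real.pi, Real.sin Real.pi) : ℝ × ℝ) = -(Real.cos 0, Real.sin 0) := by
        simp
      simp only [D, e, htneg, anchneg]
      ring
    obtain ⟨θ, hθ⟩ : ∃ θ, D θ = 0 := by
      have h := intermediate_value_uIcc (a := 0) (b := Real.pi) hDc.continuousOn
      have h0 : (0 : ℝ) ∈ Set.uIcc (D 0) (D Real.pi) := by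
        rw [hDpi, Set.mem_uIcc]
        rcases le_total 0 (D 0) with k | k
        · exact Or.inr ⟨by linarith, k⟩
        · exact Or.inl ⟨k, by linarith⟩
      obtain ⟨θ, -, hθ⟩ := h h0
      exact ⟨θ, hθ⟩
    let z : ℝ × ℝ := (Real.cos θ, Real.sin θ)
    let B := lexHom Φ A (sv z) (dv z)
    have Bfst : ∀ q, (ofLex (B q (base z))).1 = A q x0 := fun q =>
      lexHom_fst Φ A (sv z) (dv z) q (base z)
    have Bclose : B w.val (base z) = base z := by
      show lexHom Φ A (sv z) (dv z) (w.part L) (base z) = _
      rw [hwalk z L le_rfl, xnat L le_rfl]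
      show toLex (A w.val x0, _) = toLex (x0, _)
      rw [hclose, sub_eq_zero.1 hθ]
    let R' : Set (FP G ι × FP G ι) := {p | B p.1 (base z) ≤ B p.2 (base z)}
    have hR' : IsPre w R' := by
      refine ⟨fun a => le_refl (B a (base z)), fun a b c h1 h2 => le_trans (α := Lex (X × ℝ)) h1 h2,
        fun a b => le_total (B a (base z)) (B b (base z)), ?_, ?_, ?_⟩
      · intro q a b h
        show B (q * a) _ ≤ B (q * b) _
        rw [map_mul, map_mul, RelIso.mul_apply, RelIso.mul_apply]
        exact (B q).monotone h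
      · show B 1 _ ≤ B w.val _
        rw [Bclose, map_one, RelIso.one_apply]
      · show B w.val _ ≤ B 1 _
        rw [Bclose, map_one, RelIso.one_apply]
    have hsub : R' ⊆ R := by
      rintro ⟨a, b⟩ hab
      rw [← hAR, ← Bfst, ← Bfst]
      exact Prod.Lex.monotone_fst (B a (base z)) (B b (base z)) hab
    have hsame : R ⊆ R' := hmin hR' hsub
    have fine : ∀ a b, A a x0 = A b x0 → B a (base z) = B b (base z) := fun a b h =>
      le_antisymm (hsame ((hAR a b).1 h.le)) (hsame ((hAR b a).1 h.ge))
    have dT : ∀ e ∈ T, dv z e = 0 := by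
      intro e he
      have hn : Sum.inr e ∉ P := by simp [P, N, he]
      simp only [dv, val]
      rw [if_neg (fun h : Sum.inr e = p1 => hn (h ▸ hp1)),
        if_neg (fun h : Sum.inr e = p2 => hn (h ▸ hp2))]
    let Reach : X → Prop := fun y => ∃ q, B q (base z) = toLex (y, anch Φ A (sv z) y)
    have reach_orb : ∀ y y', orb A y = orb A y' → Reach y → Reach y' := by
      rintro y y' ho ⟨q, hq⟩
      refine ⟨Coprod.inl (gam A y' * (gam A y)⁻¹) * q, ?_⟩
      rw [map_mul, RelIso.mul_apply, hq, lexHom_inl]
      congr 2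
      · have e1 := gam_spec A y
        have e2 := gam_spec A y'
        rw [← ho] at e2
        have e3 : A (Coprod.inl (gam A y)⁻¹) y = Quotient.out (s := orbitSetoid A) (orb A y) := by
          rw [map_inv, map_inv]
          exact (A (Coprod.inl (gam A y))).symm_apply_eq.2 e1.symm
        rw [map_mul, map_mul, RelIso.mul_apply, e3]
        exact e2
      · rw [f_anch, inv_mul_cancel_right, anch, ho]
    have reach_x : ∀ n : ℕ, n ≤ L → Reach (x n) := by
      intro n
      induction n using Nat.strong_induction_on with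
      | _ n ih =>
        intro hn
        rcases Nat.eq_zero_or_pos n with h0 | hpos
        · subst h0
          rw [xnat 0 (Nat.zero_le _)]
          refine ⟨1, ?_⟩
          simp [CWord.part, base]
        obtain ⟨m, rfl⟩ : ∃ m, n = m + 1 := ⟨n - 1, by omega⟩
        by_cases hd : ∀ k ≤ m, orb A (x k) ≠ orb A (x ((m : ℤ) + 1))
        · have hmd : m ∈ disc := Finset.mem_filter.2 ⟨Finset.mem_range.2 hn, hd⟩
          have hzero : dv z (E m) = 0 := dT _ (Finset.mem_image.2 ⟨m, hmd, rfl⟩)
          obtain ⟨q, hq⟩ := ih m (by omega) (by omega)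
          have hmid : Reach (mid m) := by
            refine ⟨letter (w.c m) * q, ?_⟩
            rw [map_mul, RelIso.mul_apply, hq, lexHom_letter]
            show toLex (mid m, anch Φ A (sv z) (x m) + anch Φ A (sv z) (mid m) -
              anch Φ A (sv z) (x m) + _ * dv z (E m)) = _
            rw [hzero]
            congr 2
            ring
          refine reach_orb _ _ ?_ hmid
          push_cast
          exact (orb_mid m).symm
        · push Not at hd
          obtain ⟨k, hk, he⟩ := hd
          refine reach_orb _ _ ?_ (ih k (by omega) (by omega))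
          push_cast
          exact he
    have reach_all : ∀ y, orb A y ∈ V → Reach y := by
      intro y hy
      obtain ⟨n, hn, he⟩ := Finset.mem_image.1 hy
      exact reach_orb _ _ he (reach_x n (Finset.mem_range.1 hn).le)
    have reach_mid : ∀ i, Reach (mid i) := fun i => reach_all _ ((orb_mid i) ▸ memV _)
    -- every parameter vanishes
    have vanish : ∀ p ∈ P, val z p = 0 := by
      intro p hp
      rcases p with o | e
      · have ho : o ∈ Bad := by simpa [P] using hp
        obtain ⟨-, n, hn, hmo, hbad⟩ := Finset.mem_filter.1 ho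
        obtain ⟨q, hq⟩ := reach_mid n
        obtain ⟨q', hq'⟩ := reach_all _ (memV ((n : ℤ) + 1))
        have h1 : A (Coprod.inl (w.g n) * q) x0 = A q' x0 := by
          rw [← Bfst, ← Bfst, map_mul, RelIso.mul_apply, hq, hq', lexHom_inl]
          exact (x_step n).symm
        have h2 := fine _ _ h1
        rw [map_mul, RelIso.mul_apply, hq, hq', lexHom_inl] at h2
        have h3 := congrArg (fun p => (ofLex p).2) h2
        simp only [ofLex_toLex, f_anch] at h3
        rw [anch, orb_mid, hmo] at h3
        rcases mul_eq_mul_left_iff.1 h3 with h | h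
        · exact absurd (Φ.a_inj h) hbad
        · exact h
      · have he : e ∈ N := by simpa [P] using hp
        obtain ⟨n, hn, hne⟩ := Finset.mem_image.1 (Finset.mem_sdiff.1 he).1
        obtain ⟨q, hq⟩ := reach_all _ (memV n)
        obtain ⟨q', hq'⟩ := reach_mid n
        have h1 : A (letter (w.c n) * q) x0 = A q' x0 := by
          rw [← Bfst, ← Bfst, map_mul, RelIso.mul_apply, hq, hq', lexHom_letter]
          rfl
        have h2 := fine _ _ h1
        rw [map_mul, RelIso.mul_apply, hq, hq', lexHom_letter] at h2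
        have h3 := congrArg (fun p => (ofLex p).2) h2
        simp only [ofLex_toLex] at h3
        show dv z e = 0
        rw [← hne]
        change anch Φ A (sv z) (x n) + anch Φ A (sv z) (mid n) - anch Φ A (sv z) (x n) +
          _ * dv z (E n) = anch Φ A (sv z) (mid n) at h3
        rcases hb : (w.c n).2 with _ | _ <;> simp only [hb] at h3 <;> simp at h3 <;> linarith
    have v1 : Real.cos θ = 0 := by simpa [val, z] using vanish p1 hp1
    have v2 : Real.sin θ = 0 := by simpa [val, z, hne.symm] using vanish p2 hp2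
    have := Real.sin_sq_add_cos_sq θ
    rw [v1, v2] at this
    norm_num at this
  -- half edges
  let H : Finset ((ι × X) × Bool) := Efin ×ˢ Finset.univ
  have orb_pt : ∀ h ∈ H, orb A (pt h) ∈ V := by
    rintro ⟨e, b⟩ hh
    obtain ⟨n, -, rfl⟩ := Finset.mem_image.1 (Finset.mem_product.1 hh).1
    rcases eq_or_ne b (w.c n).2 with hb | hb
    · subst hb
      rw [show ((E n, (w.c n).2) : (ι × X) × Bool) = hin n from rfl, pt_hin, ← orb_mid]
      exact memV _
    · rw [show b = !(w.c n).2 by revert hb; cases b <;> cases (w.c n).2 <;> simp,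
        show ((E n, !(w.c n).2) : (ι × X) × Bool) = hout n from rfl, pt_hout]
      exact memV _
  let Fib : Orbit A → Finset ((ι × X) × Bool) := fun o => H.filter fun h => orb A (pt h) = o
  have hin_mem : ∀ i, hin i ∈ Fib (orb A (x (i + 1))) := fun i =>
    Finset.mem_filter.2 ⟨Finset.mem_product.2 ⟨memE i, Finset.mem_univ _⟩,
      by rw [pt_hin, orb_mid]⟩
  have hout_mem : ∀ i, hout i ∈ Fib (orb A (x i)) := fun i =>
    Finset.mem_filter.2 ⟨Finset.mem_product.2 ⟨memE i, Finset.mem_univ _⟩, by rw [pt_hout]⟩
  have nobt : ∀ i, orb A (x (i + 1)) ∉ Bad → hin i ≠ hout (i + 1) := by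
    intro i hi h
    have hg := good i (orb_mid i ▸ hi)
    have hp : mid i = x (i + 1) := by rw [← pt_hin, ← pt_hout, h]
    rw [← hp] at hg
    exact hred i ⟨rev_hin _ _ h, mul_eq_right.1 hg⟩
  have card2 : ∀ o ∈ V, o ∉ Bad → 2 ≤ (Fib o).card := by
    intro o ho hob
    obtain ⟨n, hn, rfl⟩ := Finset.mem_image.1 ho
    have h1 : x ((n : ℤ) - 1 + 1) = x n := by rw [sub_add_cancel]
    refine Finset.one_lt_card.2 ⟨hin (n - 1), ?_, hout n, hout_mem n, ?_⟩
    · simpa [sub_add_cancel] using hin_mem ((n : ℤ) - 1)
    · simpa [sub_add_cancel] using nobt ((n : ℤ) - 1) (by rw [h1]; exact hob)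
  have hHcard : H.card = ∑ o ∈ V, (Fib o).card :=
    Finset.card_eq_sum_card_fiberwise orb_pt
  have cardH : H.card ≤ 2 * (N.card + T.card) := by
    rw [Finset.card_product, Finset.card_univ, Fintype.card_bool]
    have := Finset.card_le_card_sdiff_add_card (s := Efin) (t := T)
    simp only [N]
    omega
  have hlow : 2 * V.card ≤ H.card + 2 * Bad.card := by
    rw [hHcard]
    have h1 : 2 * V.card = ∑ o ∈ V, 2 := by rw [Finset.sum_const, smul_eq_mul, mul_comm]
    have h2 : 2 * Bad.card = ∑ o ∈ V, if o ∈ Bad then 2 else 0 := by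
      rw [← Finset.sum_filter, Finset.sum_const, smul_eq_mul, mul_comm,
        Finset.filter_mem_eq_inter, Finset.inter_eq_right.2 (Finset.filter_subset _ _)]
    rw [h1, h2, ← Finset.sum_add_distrib]
    refine Finset.sum_le_sum fun o ho => ?_
    split_ifs with hb
    · omega
    · simpa using card2 o ho hb
  have hBad : Bad = ∅ := by
    rw [← Finset.card_eq_zero]
    by_contra hb
    obtain ⟨o₀, ho₀⟩ := Finset.card_pos.1 (Nat.pos_of_ne_zero hb)
    obtain ⟨hoV, n, hn, hmo, -⟩ := Finset.mem_filter.1 ho₀
    have hone : 1 ≤ (Fib o₀).card :=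
      Finset.card_pos.2 ⟨hin n, by simpa [← orb_mid, ← hmo] using hin_mem n⟩
    have hrest : 2 * (V.erase o₀).card ≤ ∑ o ∈ V.erase o₀, (Fib o).card := by
      rw [mul_comm, ← smul_eq_mul]
      refine Finset.card_nsmul_le_sum _ _ _ fun o ho => ?_
      refine card2 o (Finset.mem_of_mem_erase ho) fun hob => ?_
      have : Bad.card ≤ 1 := by omega
      exact Finset.ne_of_mem_erase ho (Finset.card_le_one.1 this _ hob _ ho₀)
    have hs := Finset.add_sum_erase V (fun o => (Fib o).card) hoV
    have := Finset.card_erase_add_one hoV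
    omega
  have nobad : ∀ o, o ∉ Bad := by simp [hBad]
  have two : ∀ o ∈ V, (Fib o).card = 2 := by
    intro o ho
    have h2 := card2 o ho (nobad o)
    have hrest : 2 * (V.erase o).card ≤ ∑ p ∈ V.erase o, (Fib p).card := by
      rw [mul_comm, ← smul_eq_mul]
      exact Finset.card_nsmul_le_sum _ _ _
        fun p hp => card2 p (Finset.mem_of_mem_erase hp) (nobad p)
    have hs := Finset.add_sum_erase V (fun p => (Fib p).card) ho
    have := Finset.card_erase_add_one ho
    rw [hBad, Finset.card_empty] at key hlow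
    omega
  have other : ∀ o ∈ V, ∀ h a b, h ∈ Fib o → a ∈ Fib o → b ∈ Fib o → a ≠ h → b ≠ h → a = b := by
    intro o ho h a b hh ha hb hah hbh
    have : ((Fib o).erase h).card ≤ 1 := by rw [Finset.card_erase_of_mem hh, two o ho]
    exact Finset.card_le_one.1 this a (Finset.mem_erase.2 ⟨hah, ha⟩) b
      (Finset.mem_erase.2 ⟨hbh, hb⟩)
  have succ_eq : ∀ i j, hin i = hin j → hin (i + 1) = hin (j + 1) ∧ w.g i = w.g j := by
    intro i j h
    have ho : orb A (x (i + 1)) = orb A (x (j + 1)) := by
      rw [orb_mid, orb_mid, ← pt_hin, ← pt_hin, h]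
    have hh : hout (i + 1) = hout (j + 1) :=
      other _ (memV (i + 1)) (hin i) _ _ (hin_mem i) (hout_mem (i + 1)) (ho ▸ hout_mem (j + 1))
        (nobt i (nobad _)).symm (h ▸ (nobt j (nobad _)).symm)
    refine ⟨?_, ?_⟩
    · simp only [hout, Prod.mk.injEq, Bool.not_inj_iff] at hh
      simp only [hin, Prod.mk.injEq]
      exact hh
    · have hm : mid i = mid j := by rw [← pt_hin, ← pt_hin, h]
      have hx : x (i + 1) = x (j + 1) := by rw [← pt_hout, ← pt_hout, hh]
      have g1 := good i (nobad _)
      rw [hm, hx, ← good j (nobad _)] at g1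
      exact mul_right_cancel g1
  have flipin : ∀ i j, hin i = hout j → hout i = hin j := fun i j h => by
    simp only [hin, hout, Prod.mk.injEq] at h ⊢
    exact ⟨h.1, by simp [h.2]⟩
  have opp_step : ∀ i j, hin j = hout i → hin (j - 1) = hout (i + 1) := by
    intro i j h
    have hj : hin i = hout j := (flipin _ _ h).symm
    have ho : orb A (x j) = orb A (x (i + 1)) := by
      rw [orb_mid, ← pt_hout, ← pt_hin, hj]
    refine other _ (memV (i + 1)) (hin i) _ _ (hin_mem i) ?_ (hout_mem (i + 1)) ?_
      (nobt i (nobad _)).symm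
    · simpa [ho] using hin_mem (j - 1)
    · rw [hj]
      simpa using nobt (j - 1) (nobad _)
  refine ⟨{ X := X, act := A, x := x, x_per := x_per, x_step := x_step, sep := ?_ }⟩
  intro i j h1 h2
  have hE : E i = E j := Prod.ext h1 h2
  rcases eq_or_ne (w.c i).2 (w.c j).2 with hb | hb
  · have hnat : ∀ k : ℕ, hin (i + k) = hin (j + k) := by
      intro k
      induction k with
      | zero => simp [hin, hE, hb]
      | succ k ih =>
        have := (succ_eq _ _ ih).1
        push_cast
        rw [← add_assoc, ← add_assoc]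
        exact this
    intro k
    obtain ⟨n, hn, he⟩ := periodic_nat hL
      (f := fun k => (w.c (i + k), w.g (i + k), w.c (j + k), w.g (j + k)))
      (fun k => by simp [← add_assoc, L, w.c_per, w.g_per]) k
    simp only [Prod.mk.injEq] at he
    rw [he.1, he.2.1, he.2.2.1, he.2.2.2]
    exact ⟨c_hin _ _ (hnat n), (succ_eq _ _ (hnat n)).2⟩
  · exfalso
    have h0 : hin j = hout i := by
      simp only [hin, hout, hE, Prod.mk.injEq, true_and]
      revert hb
      cases (w.c i).2 <;> cases (w.c j).2 <;> simp
    -- move to `j ≥ i`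
    obtain ⟨d, hd⟩ : ∃ d : ℕ, hin (i + d) = hout i := by
      obtain ⟨n, hn, he⟩ := periodic_nat hL (f := fun k => hin (i + k))
        (fun k => by simp [hin, ← add_assoc, L, w.c_per, E_per]) (j - i)
      exact ⟨n, by simpa [← he] using h0⟩
    have hiter : ∀ k : ℕ, hin (i + d - k) = hout (i + k) := by
      intro k
      induction k with
      | zero => simpa using hd
      | succ k ih =>
        have := opp_step _ _ ih
        push_cast
        rw [show i + (d : ℤ) - ((k : ℤ) + 1) = i + d - k - 1 by ring, ← add_assoc]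
        exact this
    obtain ⟨k, hk | hk⟩ := Nat.even_or_odd' d
    · have := hiter k
      rw [show i + (d : ℤ) - k = i + k by rw [hk]; push_cast; ring] at this
      simp [hin, hout] at this
    · have := hiter k
      rw [show i + (d : ℤ) - k = i + k + 1 by rw [hk]; push_cast; ring] at this
      exact nobt (i + k) (nobad _) (flipin _ _ this).symm

end

end Vale.Agent.P174
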