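import Vale.Agent.P174.Wire

/-!
The consequences of the one-equation theorem, stated in plain terms: solutions in an overgroup.
-/

namespace Vale.Agent.P174

open Monoid

variable {G : Type} [Group G]

/-- A system is solvable over `G`: some overgroup of `G` contains values of the unknowns at which
every word of the system evaluates to one. -/
theorem exists_solution_of_injective {m n : ℕ} (w : Fin m → FP G (Fin n))
    (h : Function.Injective
      ((QuotientGroup.mk' (Subgroup.normalClosure (Set.range w))).comp
        (Coprod.inl : G →* FP G (Fin n)))) :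
    ∃ (K : Type) (_ : Group K) (φ : G →* K) (x : Fin n → K),
      Function.Injective φ ∧ ∀ i, Coprod.lift φ (FreeGroup.lift x) (w i) = 1 := by
  refine ⟨_, inferInstance, _,
    fun j => QuotientGroup.mk' (Subgroup.normalClosure (Set.range w))
      (Coprod.inr (FreeGroup.of j)), h, fun i => ?_⟩
  have heq : Coprod.lift ((QuotientGroup.mk' (Subgroup.normalClosure (Set.range w))).comp
      (Coprod.inl : G →* FP G (Fin n)))
      (FreeGroup.lift fun j => QuotientGroup.mk' (Subgroup.normalClosure (Set.range w))
        (Coprod.inr (FreeGroup.of j))) =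
      QuotientGroup.mk' (Subgroup.normalClosure (Set.range w)) := by
    refine Coprod.hom_ext ?_ ?_
    · ext g; simp
    · refine FreeGroup.ext_hom _ _ fun a => ?_
      simp
  rw [heq]
  exact (QuotientGroup.eq_one_iff _).2 (Subgroup.subset_normalClosure ⟨i, rfl⟩)

/-- Conversely, a solution in an overgroup makes the coefficient group inject. -/
theorem injective_of_solution {m n : ℕ} (w : Fin m → FP G (Fin n)) {K : Type} [Group K]
    (φ : G →* K) (x : Fin n → K) (hφ : Function.Injective φ)
    (hx : ∀ i, Coprod.lift φ (FreeGroup.lift x) (w i) = 1) :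
    Function.Injective
      ((QuotientGroup.mk' (Subgroup.normalClosure (Set.range w))).comp
        (Coprod.inl : G →* FP G (Fin n))) := by
  have hle : Subgroup.normalClosure (Set.range w) ≤
      (Coprod.lift φ (FreeGroup.lift x)).ker :=
    Subgroup.normalClosure_le_normal fun z hz => by
      obtain ⟨i, rfl⟩ := hz
      exact hx i
  intro a b hab
  apply hφ
  simpa using congrArg (QuotientGroup.lift _ _ hle) hab

/-- The unknowns generate, with the coefficients, the whole free product. -/
theorem supported_univ (n : ℕ) : (supported (G := G) (Set.univ : Set (Fin n))) = ⊤ := by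
  rw [Subgroup.eq_top_iff']
  intro q
  induction q using Coprod.induction_on with
  | inl g => exact Subgroup.subset_closure (Or.inl ⟨g, rfl⟩)
  | inr u =>
    induction u using FreeGroup.induction_on with
    | C1 => rw [map_one]; exact Subgroup.one_mem _
    | of a => exact Subgroup.subset_closure (Or.inr ⟨a, Set.mem_univ _, rfl⟩)
    | inv_of a ih => rw [map_inv]; exact Subgroup.inv_mem _ ih
    | mul u v hu hv => rw [map_mul]; exact Subgroup.mul_mem _ hu hv
  | mul a b ha hb => exact Subgroup.mul_mem _ ha hb

variable [LinearOrder G] [MulLeftStrictMono G]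

/-- Over a left-ordered group, a system in which the `i`-th equation has nonzero exponent sum in an
unknown `p i` occurring in no other equation has a solution in an overgroup. -/
theorem exists_solution_private (H : OneEquation) {m n : ℕ} (w : Fin m → FP G (Fin n))
    (p : Fin m → Fin n) (hp : Function.Injective p)
    (hw : ∀ i, w i ∈ supported {k | k ∈ Set.range p → k = p i})
    (he : ∀ i, expMatrix w i (p i) ≠ 0) :
    ∃ (K : Type) (_ : Group K) (φ : G →* K) (x : Fin n → K),
      Function.Injective φ ∧ ∀ i, Coprod.lift φ (FreeGroup.lift x) (w i) = 1 :=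
  exists_solution_of_injective w (solvable_of_oneEquation H w p hp hw he)

/-- Over a left-ordered group, one equation in any number of unknowns whose exponent vector is
nonzero has a solution in an overgroup. -/
theorem exists_solution_single (H : OneEquation) {n : ℕ} (w : FP G (Fin n))
    (he : expVec n w ≠ 1) :
    ∃ (K : Type) (_ : Group K) (φ : G →* K) (x : Fin n → K),
      Function.Injective φ ∧ Coprod.lift φ (FreeGroup.lift x) w = 1 := by
  obtain ⟨j, hj⟩ : ∃ j, Multiplicative.toAdd (expVec n w) j ≠ 0 := by
    by_contra h
    push Not at h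
    apply he
    apply Multiplicative.toAdd.injective
    funext j
    simpa using h j
  have hs : {k | k ∈ Set.range (fun _ : Fin 1 => j) → k = j} = (Set.univ : Set (Fin n)) := by
    ext k
    simp only [Set.mem_ofPred_eq, Set.mem_univ, iff_true]
    rintro ⟨_, rfl⟩
    rfl
  obtain ⟨K, hK, φ, x, hφ, hx⟩ :=
    exists_solution_private H (fun _ : Fin 1 => w) (fun _ => j)
      (Function.injective_of_subsingleton _)
      (fun _ => by rw [hs, supported_univ]; exact Subgroup.mem_top w) (fun _ => hj)
  exact ⟨K, hK, φ, x, hφ, hx 0⟩

/-- Over a left-ordered group every nonsingular system of one equation has a solution in an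
overgroup. -/
theorem exists_solution_rank_one (H : OneEquation) {n : ℕ} (w : Fin 1 → FP G (Fin n))
    (hrank : ((expMatrix w).map (Int.cast : ℤ → ℚ)).rank = 1) :
    ∃ (K : Type) (_ : Group K) (φ : G →* K) (x : Fin n → K),
      Function.Injective φ ∧ ∀ i, Coprod.lift φ (FreeGroup.lift x) (w i) = 1 := by
  have he : expVec n (w 0) ≠ 1 := by
    intro hc
    have h0 : (expMatrix w).map (Int.cast : ℤ → ℚ) = 0 := by
      ext i j
      rw [Subsingleton.elim i 0]
      simp [expMatrix, hc]
    rw [h0, Matrix.rank_zero] at hrank
    exact Nat.zero_ne_one hrank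
  obtain ⟨K, hK, φ, x, hφ, hx⟩ := exists_solution_single H (w 0) he
  exact ⟨K, hK, φ, x, hφ, fun i => by rw [Subsingleton.elim i 0]; exact hx⟩

end Vale.Agent.P174
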