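import Vale.Agent.P174.Exists

/-!
The free product of a left-ordered group with a countably generated free group is left-orderable.

For a nontrivial element `q`, a stacking of the cyclic word `z⁻¹ q z z'`, with new letters `z`
and `z'`, gives an order-preserving action in which `q` moves a point. An ultrapower of rational
lines removes the countability assumption on the group, and a well-ordering of the points gives
the order.
-/

namespace Vale.Agent.P174.FreeLO

open Monoid Filter

noncomputable section

universe u v

variable {G : Type u} [Group G] {ι : Type v}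

/-- Evaluation of a list of pairs (letter, coefficient) listed in the order of application. -/
def evalR : List (Letter ι × G) → FP G ι
  | [] => 1
  | (l, g) :: r => evalR r * Coprod.inl g * letter l

/-- No subword `l 1 l⁻¹`. -/
def Red : List (Letter ι × G) → Prop
  | [] => True
  | [_] => True
  | a :: b :: r => ¬(b.1 = a.1.rev ∧ a.2 = 1) ∧ Red (b :: r)

theorem Red.tail {a : Letter ι × G} {r : List (Letter ι × G)} (h : Red (a :: r)) : Red r := by
  cases r with
  | nil => trivial
  | cons b s => exact h.2

theorem Red.getElem : ∀ {L : List (Letter ι × G)}, Red L → ∀ (n : ℕ) (h : n + 1 < L.length),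
    ¬(L[n + 1].1 = (L[n]'(by omega)).1.rev ∧ (L[n]'(by omega)).2 = 1)
  | [], _, n, h => by simp at h
  | [_], _, n, h => by simp at h
  | a :: b :: r, hr, 0, _ => hr.1
  | a :: b :: r, hr, n + 1, h => Red.getElem hr.2 n (by simpa using h)

/-- Elements with a reduced form. -/
def HasForm (q : FP G ι) : Prop :=
  ∃ (e : G) (A : List (Letter ι × G)), Red A ∧ q = evalR A * Coprod.inl e

theorem rev_rev (l : Letter ι) : l.rev.rev = l := by simp [Letter.rev]

theorem HasForm.mul_inl {a : FP G ι} (h : HasForm a) (g : G) : HasForm (a * Coprod.inl g) := by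
  obtain ⟨e, A, hA, rfl⟩ := h
  exact ⟨e * g, A, hA, by rw [map_mul, mul_assoc]⟩

theorem HasForm.mul_letter {a : FP G ι} (h : HasForm a) (l : Letter ι) :
    HasForm (a * letter l) := by
  obtain ⟨e, A, hA, rfl⟩ := h
  by_cases hc : e = 1 ∧ ∃ g r, A = (l.rev, g) :: r
  · obtain ⟨rfl, g, r, rfl⟩ := hc
    refine ⟨g, r, hA.tail, ?_⟩
    simp only [evalR, map_one, mul_one, mul_assoc]
    rw [letter_rev, inv_mul_cancel, mul_one]
  · refine ⟨1, (l, e) :: A, ?_, by simp [evalR]⟩
    cases A with
    | nil => trivial
    | cons b r =>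
      refine ⟨fun hb => hc ⟨hb.2, b.2, r, ?_⟩, hA⟩
      simp only at hb
      rw [← hb.1]

theorem hasForm (q : FP G ι) : HasForm q := by
  suffices h : ∀ q a : FP G ι, HasForm a → HasForm (a * q) by
    simpa using h q 1 ⟨1, [], trivial, by simp [evalR]⟩
  intro q
  induction q using Coprod.induction_on with
  | inl g => exact fun a h => h.mul_inl g
  | inr u =>
    induction u using FreeGroup.induction_on with
    | C1 => intro a h; simpa using h
    | of t => intro a h; simpa [letter_true] using h.mul_letter (t, true)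
    | inv_of t _ => intro a h; simpa [letter_false, map_inv] using h.mul_letter (t, false)
    | mul u v hu hv => intro a h; rw [map_mul, ← mul_assoc]; exact hv _ (hu _ h)
  | mul x y hx hy => intro a h; rw [← mul_assoc]; exact hy _ (hx _ h)

theorem countable_FP [Countable G] [Countable ι] : Countable (FP G ι) := by
  refine Function.Surjective.countable
    (f := fun p : G × List (Letter ι × G) => evalR p.2 * Coprod.inl p.1) ?_
  intro q
  obtain ⟨e, A, -, h⟩ := hasForm q
  exact ⟨(e, A), h.symm⟩

/-- A cyclic word read off a list. -/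
def ofList (L : List (Letter ι × G)) (h : 0 < L.length) : CWord G ι where
  len := L.length
  len_pos := h
  c i := (L[(i % (L.length : ℤ)).toNat]'(by
    have := Int.emod_nonneg i (b := (L.length : ℤ)) (by omega)
    have := Int.emod_lt_of_pos i (b := (L.length : ℤ)) (by omega)
    omega)).1
  g i := (L[(i % (L.length : ℤ)).toNat]'(by
    have := Int.emod_nonneg i (b := (L.length : ℤ)) (by omega)
    have := Int.emod_lt_of_pos i (b := (L.length : ℤ)) (by omega)
    omega)).2
  c_per i := by simp
  g_per i := by simp

omit [Group G] in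
theorem ofList_c (L : List (Letter ι × G)) (h : 0 < L.length) (n : ℕ) (hn : n < L.length) :
    (ofList L h).c n = L[n].1 := by
  simp only [ofList]
  congr 2
  rw [Int.emod_eq_of_lt (by omega) (by omega)]
  simp

omit [Group G] in
theorem ofList_g (L : List (Letter ι × G)) (h : 0 < L.length) (n : ℕ) (hn : n < L.length) :
    (ofList L h).g n = L[n].2 := by
  simp only [ofList]
  congr 2
  rw [Int.emod_eq_of_lt (by omega) (by omega)]
  simp

theorem ofList_reduced (L : List (Letter ι × G)) (h : 0 < L.length) (hL : Red L)
    (hwrap : ¬((L[0]).1 = (L[L.length - 1]).1.rev ∧ (L[L.length - 1]).2 = 1)) :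
    (ofList L h).Reduced := by
  intro i
  obtain ⟨n, hn, he⟩ := periodic_nat h
    (f := fun i => ((ofList L h).c (i + 1), (ofList L h).c i, (ofList L h).g i))
    (fun i => by
      have c1 := (ofList L h).c_per (i + 1)
      have c0 := (ofList L h).c_per i
      have g0 := (ofList L h).g_per i
      simp only [show (ofList L h).len = L.length from rfl] at c1 c0 g0
      rw [show i + (L.length : ℤ) + 1 = i + 1 + L.length by ring, c1, c0, g0]) i
  simp only [Prod.mk.injEq] at he
  rw [he.1, he.2.1, he.2.2, ofList_c L h n hn, ofList_g L h n hn]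
  by_cases hlast : n + 1 < L.length
  · have h1 : (ofList L h).c ((n : ℤ) + 1) = L[n + 1].1 := by
      exact_mod_cast ofList_c L h (n + 1) hlast
    rw [h1]
    exact hL.getElem n hlast
  · have hn' : n = L.length - 1 := by omega
    have h1 : (ofList L h).c ((n : ℤ) + 1) = L[0].1 := by
      have := (ofList L h).c_per 0
      simp only [show (ofList L h).len = L.length from rfl, zero_add] at this
      rw [show (n : ℤ) + 1 = (L.length : ℤ) by omega, this]
      exact_mod_cast ofList_c L h 0 h
    rw [h1]
    subst hn'
    exact hwrap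

/-- Add the two auxiliary letters. -/
def up : FP G ι →* FP G (ι ⊕ Bool) :=
  Coprod.map (MonoidHom.id G) (FreeGroup.map Sum.inl)

theorem up_inl (g : G) : up (ι := ι) (Coprod.inl g) = Coprod.inl g := by simp [up]

theorem up_letter (l : Letter ι) :
    up (G := G) (letter l) = letter ((Sum.inl l.1 : ι ⊕ Bool), l.2) := by
  obtain ⟨t, b⟩ := l
  cases b <;> simp [up, letter]

/-- Lifting pairs to the enlarged alphabet. -/
def upList (A : List (Letter ι × G)) : List (Letter (ι ⊕ Bool) × G) :=
  A.map fun p => ((Sum.inl p.1.1, p.1.2), p.2)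

theorem evalR_append (A B : List (Letter ι × G)) : evalR (A ++ B) = evalR B * evalR A := by
  induction A with
  | nil => simp [evalR]
  | cons a A ih => obtain ⟨l, g⟩ := a; simp [evalR, ih, mul_assoc]

theorem up_evalR (A : List (Letter ι × G)) : up (evalR A) = evalR (upList A) := by
  induction A with
  | nil => simp [evalR, upList]
  | cons a A ih =>
    obtain ⟨l, g⟩ := a
    simp [evalR, upList, map_mul, ih, up_inl, up_letter]

/-- The closing pairs. -/
def closing : List (Letter (ι ⊕ Bool) × G) :=
  [((Sum.inr false, true), 1), ((Sum.inr true, true), 1)]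

theorem red_body : ∀ (A : List (Letter ι × G)), Red A → Red (upList A ++ closing)
  | [], _ => ⟨by simp [Letter.rev], trivial⟩
  | [a], _ => by
    refine ⟨by simp [Letter.rev], ?_, trivial⟩
    simp [Letter.rev]
  | a :: b :: r, h => by
    refine ⟨?_, red_body (b :: r) h.2⟩
    intro hc
    refine h.1 ⟨?_, hc.2⟩
    have h1 := hc.1
    simp only [Letter.rev, Prod.mk.injEq, Sum.inl.injEq] at h1
    exact Prod.ext h1.1 h1.2

theorem red_word (e : G) (A : List (Letter ι × G)) (hA : Red A) (hne : e ≠ 1 ∨ A ≠ []) :
    Red (((Sum.inr false, false), e) :: (upList A ++ closing)) := by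
  cases A with
  | nil => exact ⟨fun h => (hne.resolve_right (by simp)) h.2, red_body [] hA⟩
  | cons a r => exact ⟨by simp [Letter.rev], red_body (a :: r) hA⟩

section Countable

variable [LinearOrder G] [MulLeftStrictMono G] [Countable G] [Countable ι]

/-- A countable left-ordered group: every nontrivial element moves a rational number. -/
theorem exists_action (q : FP G ι) (hq : q ≠ 1) :
    ∃ (a : FP G ι →* (ℚ ≃o ℚ)) (y : ℚ), a q y ≠ y := by
  obtain ⟨e, A, hA, rfl⟩ := hasForm q
  have hne : e ≠ 1 ∨ A ≠ [] := by
    by_contra hc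
    simp only [not_or, ne_eq, not_not] at hc
    simp [hc.1, hc.2, evalR] at hq
  set L : List (Letter (ι ⊕ Bool) × G) :=
    ((Sum.inr false, false), e) :: (upList A ++ closing) with hLdef
  have hlen : L.length = A.length + 3 := by simp [hLdef, upList, closing]
  have hpos : 0 < L.length := by omega
  let w := ofList L hpos
  have hred : w.Reduced := by
    refine ofList_reduced L hpos (red_word e A hA hne) ?_
    have h1 : L[L.length - 1] = ((Sum.inr true, true), 1) := by
      simp [hLdef, closing, upList]
    rw [h1]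
    simp [hLdef, Letter.rev]
  obtain ⟨st⟩ := exists_stacking w hred
  have hwalk : ∀ n ≤ L.length, st.x n = st.act (evalR (L.take n)) (st.x 0) := by
    intro n
    induction n with
    | zero => intro _; simp [evalR]
    | succ n ih =>
      intro hn
      have hlt : n < L.length := by omega
      push_cast
      rw [st.x_step, ih (by omega), List.take_succ_eq_append_getElem hlt, evalR_append,
        show w.g n = L[n].2 from ofList_g L hpos n hlt,
        show w.c n = L[n].1 from ofList_c L hpos n hlt]
      simp [evalR, map_mul, RelIso.mul_apply]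
  let p := st.act (letter (Sum.inr false, false)) (st.x 0)
  have hL0 : w.c 0 = (Sum.inr false, false) := by
    have := ofList_c L hpos 0 hpos
    simpa [hLdef] using this
  have hj : A.length + 1 < L.length := by omega
  have hLj : w.c ((A.length + 1 : ℕ) : ℤ) = (Sum.inr false, true) := by
    rw [show w.c ((A.length + 1 : ℕ) : ℤ) = L[A.length + 1].1 from ofList_c L hpos _ hj]
    simp [hLdef, upList, closing]
  have hxj : st.x ((A.length + 1 : ℕ) : ℤ) =
      st.act (up (evalR A * Coprod.inl e)) p := by
    rw [hwalk _ (by omega)]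
    have : L.take (A.length + 1) = ((Sum.inr false, false), e) :: upList A := by
      simp [hLdef, upList]
    rw [this]
    simp only [evalR, map_mul, up_evalR, up_inl, RelIso.mul_apply, p]
  have hmove : st.act (up (evalR A * Coprod.inl e)) p ≠ p := by
    intro hc
    have hsame := st.sep 0 ((A.length + 1 : ℕ) : ℤ) (by rw [hL0, hLj]) (by
      rw [hL0, hLj]
      simp only [edgePoint, if_true, Bool.false_eq_true, if_false]
      rw [hxj, hc])
    have h0 := (hsame 0).1
    rw [add_zero, add_zero, hL0, hLj] at h0
    simp at h0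
  let act' : FP G ι →* (st.X ≃o st.X) := st.act.comp up
  let Y := {z : st.X // ∃ r : FP G ι, act' r p = z}
  have : Countable (FP G ι) := countable_FP
  have : Countable Y := Function.Surjective.countable (f := fun r => (⟨act' r p, r, rfl⟩ : Y))
    (by rintro ⟨z, r, rfl⟩; exact ⟨r, rfl⟩)
  let sh : FP G ι → Lex (Y × ℚ) → Lex (Y × ℚ) := fun r z =>
    toLex (⟨act' r (ofLex z).1.1, by
      obtain ⟨s, hs⟩ := (ofLex z).1.2
      exact ⟨r * s, by rw [map_mul, RelIso.mul_apply, hs]⟩⟩, (ofLex z).2)
  have shmono : ∀ r, StrictMono (sh r) := by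
    intro r a b hab
    rw [Prod.Lex.lt_iff] at hab ⊢
    rcases hab with h | ⟨h1, h2⟩
    · exact Or.inl ((act' r).strictMono h)
    · exact Or.inr ⟨Subtype.ext (by simp [sh, h1]), h2⟩
  have shmul : ∀ r s z, sh (r * s) z = sh r (sh s z) := by
    intro r s z
    simp [sh, map_mul, RelIso.mul_apply]
  have shone : ∀ z, sh 1 z = z := by intro z; simp [sh]
  have : Countable (Lex (Y × ℚ)) := inferInstanceAs (Countable (Y × ℚ))
  have : Nonempty Y := ⟨⟨p, 1, by simp⟩⟩
  have : Nonempty (Lex (Y × ℚ)) := inferInstanceAs (Nonempty (Y × ℚ))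
  obtain ⟨φ⟩ : Nonempty (Lex (Y × ℚ) ≃o ℚ) := Order.iso_of_countable_dense _ _
  let iso : FP G ι → (Lex (Y × ℚ) ≃o Lex (Y × ℚ)) := fun r =>
    (shmono r).orderIsoOfRightInverse _ (sh r⁻¹) (fun z => by rw [← shmul, mul_inv_cancel, shone])
  refine ⟨MonoidHom.mk' (fun r => (φ.symm.trans (iso r)).trans φ) (fun r s => ?_),
    φ (toLex (⟨p, 1, by simp⟩, 0)), ?_⟩
  · ext z
    simp [iso, RelIso.mul_apply, shmul]
  · intro hc
    have h1 := φ.injective (by simpa [iso] using hc)
    have h2 := congrArg (fun z => ((ofLex z).1 : st.X)) h1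
    exact hmove (by simpa [sh, act'] using h2)

end Countable

section General

variable [LinearOrder G] [MulLeftStrictMono G] [Countable ι]

/-- The action of a germ of order automorphisms on germs of rationals. -/
def germAct {J : Type*} (U : Ultrafilter J) :
    (U : Filter J).Germ (ℚ ≃o ℚ) →
      (U : Filter J).Germ ℚ → (U : Filter J).Germ ℚ :=
  Germ.map₂ fun e y => e y

theorem exists_germ_action (U : Ultrafilter (Finset G)) (hU : (U : Filter (Finset G)) ≤ atTop)
    (q : FP G ι) (hq : q ≠ 1) :
    ∃ (a : FP G ι →* (U : Filter (Finset G)).Germ (ℚ ≃o ℚ))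
      (y : (U : Filter (Finset G)).Germ ℚ), germAct U (a q) y ≠ y := by
  classical
  obtain ⟨e, A, -, rfl⟩ := hasForm q
  let C : Finset G := insert e (A.map Prod.snd).toFinset
  let K : Finset G → Subgroup G := fun S => Subgroup.closure (S : Set G)
  have memK : ∀ {S : Finset G} {g : G}, g ∈ S → g ∈ K S := fun h => Subgroup.subset_closure h
  have cK : ∀ S, Countable (K S) := fun S => by
    have : Countable (FreeGroup S) := Function.Surjective.countable
      (f := FreeGroup.mk (α := S)) Quot.mk_surjective
    refine Function.Surjective.countable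
      (f := fun u : FreeGroup S => (⟨FreeGroup.lift (fun s : S => (s : G)) u, ?_⟩ : K S)) ?_
    · refine FreeGroup.range_lift_le ?_ ⟨u, rfl⟩
      rintro _ ⟨s, rfl⟩
      exact memK s.2
    · rintro ⟨g, hg⟩
      have : g ∈ (FreeGroup.lift (fun s : S => (s : G))).range := by
        rw [FreeGroup.range_lift_eq_closure]
        simpa [K] using hg
      obtain ⟨u, hu⟩ := this
      exact ⟨u, Subtype.ext hu⟩
  let down : ∀ S, FP (K S) ι →* FP G ι := fun S =>
    Coprod.map (K S).subtype (MonoidHom.id (FreeGroup ι))
  let q' : ∀ S, C ⊆ S → FP (K S) ι := fun S hS =>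
    evalR (A.attach.map fun p => (p.1.1, (⟨p.1.2, memK (hS (Finset.mem_insert_of_mem
      (List.mem_toFinset.2 (List.mem_map_of_mem p.2))))⟩ : K S))) *
      Coprod.inl ⟨e, memK (hS (Finset.mem_insert_self _ _))⟩
  have down_letter : ∀ S l, down S (letter l) = letter l := by
    intro S l
    obtain ⟨t, b⟩ := l
    cases b <;> simp [down, letter]
  have down_eval : ∀ S (B : List (Letter ι × K S)),
      down S (evalR B) = evalR (B.map fun p => (p.1, (p.2 : G))) := by
    intro S B
    induction B with
    | nil => simp [evalR]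
    | cons b B ih =>
      obtain ⟨l, g⟩ := b
      simp only [evalR, map_mul, ih, down_letter, List.map_cons]
      simp [down]
  have down_q : ∀ S hS, down S (q' S hS) = evalR A * Coprod.inl e := by
    intro S hS
    simp only [q', map_mul, down_eval, List.map_map]
    congr 1
    · congr 1
      exact List.attach_map_subtype_val A
  have ex : ∀ S, ∃ (a : FP (K S) ι →* (ℚ ≃o ℚ)) (y : ℚ),
      ∀ hS : C ⊆ S, a (q' S hS) y ≠ y := by
    intro S
    by_cases hS : C ⊆ S
    · have := cK S
      have : MulLeftStrictMono (K S) := ⟨fun c u v h => by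
        show (c : G) * (u : G) < (c : G) * (v : G)
        exact mul_lt_mul_right (show (u : G) < (v : G) from h) _⟩
      obtain ⟨a, y, h⟩ := exists_action (q' S hS) (fun h1 => by
        have := down_q S hS
        rw [h1, map_one] at this
        exact hq this.symm)
      exact ⟨a, y, fun _ => h⟩
    · exact ⟨1, 0, fun h => absurd h hS⟩
  choose a y hy using ex
  let aG : G → Finset G → (ℚ ≃o ℚ) := fun g S =>
    if h : g ∈ K S then a S (Coprod.inl ⟨g, h⟩) else 1
  have aG_mul : ∀ g h, (↑(aG (g * h)) : (U : Filter (Finset G)).Germ (ℚ ≃o ℚ)) =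
      ↑(aG g) * ↑(aG h) := by
    intro g h
    rw [← Germ.coe_mul]
    refine Germ.coe_eq.2 ?_
    filter_upwards [hU (eventually_ge_atTop ({g, h} : Finset G))] with S hS
    have hg : g ∈ K S := memK (hS (by simp))
    have hh : h ∈ K S := memK (hS (by simp))
    simp only [Pi.mul_apply, aG, dif_pos hg, dif_pos hh, dif_pos (mul_mem hg hh), ← map_mul]
    rfl
  let hom : FP G ι →* (U : Filter (Finset G)).Germ (ℚ ≃o ℚ) :=
    Coprod.lift (MonoidHom.mk' (fun g => (↑(aG g) : (U : Filter (Finset G)).Germ (ℚ ≃o ℚ))) aG_mul)
      (FreeGroup.lift fun t => ↑(fun S => a S (Coprod.inr (FreeGroup.of t))))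
  refine ⟨hom, ↑y, ?_⟩
  have hletter : ∀ l : Letter ι, hom (letter l) = ↑(fun S => a S (letter l)) := by
    intro l
    obtain ⟨t, b⟩ := l
    cases b
    · simp only [letter_false, map_inv, hom, Coprod.lift_apply_inr, FreeGroup.lift_apply_of]
      rfl
    · simp [letter_true, hom]
  have key : ∀ B : List (Letter ι × G),
      hom (evalR B) = ↑(fun S => if h : ∀ p ∈ B, p.2 ∈ K S then
        a S (evalR (B.attach.map fun p => (p.1.1, (⟨p.1.2, h p.1 p.2⟩ : K S)))) else 1) := by
    intro B
    induction B with
    | nil => simp only [evalR, map_one]; rw [← Germ.coe_one]; congr 1; ext S; simp [evalR]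
    | cons b B ih =>
      obtain ⟨l, g⟩ := b
      simp only [evalR, map_mul, ih, hletter]
      rw [show hom (Coprod.inl g) = ↑(aG g) by simp [hom], ← Germ.coe_mul, ← Germ.coe_mul]
      refine Germ.coe_eq.2 ?_
      filter_upwards [hU (eventually_ge_atTop (insert g (B.map Prod.snd).toFinset))] with S hS
      have hB : ∀ p ∈ B, p.2 ∈ K S := fun p hp =>
        memK (hS (Finset.mem_insert_of_mem (List.mem_toFinset.2 (List.mem_map_of_mem hp))))
      have hg : g ∈ K S := memK (hS (Finset.mem_insert_self _ _))
      have hall : ∀ p ∈ (l, g) :: B, p.2 ∈ K S := by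
        intro p hp
        rcases List.mem_cons.1 hp with rfl | hp
        · exact hg
        · exact hB p hp
      simp only [Pi.mul_apply, aG, dif_pos hB, dif_pos hg, dif_pos hall, List.attach_cons,
        List.map_cons, evalR, map_mul, List.map_map]
      rfl
  rw [map_mul, key, show hom (Coprod.inl e) = ↑(aG e) by simp [hom], ← Germ.coe_mul]
  simp only [germAct, Germ.map₂_coe]
  intro hc
  obtain ⟨S, hS, hSC⟩ := ((Germ.coe_eq.1 hc).and (hU (eventually_ge_atTop C))).exists
  have hall : ∀ p ∈ A, p.2 ∈ K S := fun p hp =>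
    memK (hSC (Finset.mem_insert_of_mem (List.mem_toFinset.2 (List.mem_map_of_mem hp))))
  refine hy S hSC ?_
  simp only [Pi.mul_apply, RelIso.mul_apply, aG, dif_pos hall,
    dif_pos (memK (hSC (Finset.mem_insert_self e _)))] at hS
  simp only [q', map_mul, RelIso.mul_apply]
  exact hS

/-- The free product of a left-ordered group with a countably generated free group is
left-orderable. -/
theorem exists_order (G : Type u) [Group G] [LinearOrder G] [MulLeftStrictMono G] (ι : Type v)
    [Countable ι] : ∃ lo : LinearOrder (FP G ι),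
      letI := lo
      MulLeftStrictMono (FP G ι) := by
  classical
  let U : Ultrafilter (Finset G) := Ultrafilter.of atTop
  have hU : (U : Filter (Finset G)) ≤ atTop := Ultrafilter.of_le _
  let Y := (U : Filter (Finset G)).Germ ℚ
  have ex : ∀ q : FP G ι, ∃ a : FP G ι →* (U : Filter (Finset G)).Germ (ℚ ≃o ℚ),
      q ≠ 1 → ∃ y : Y, germAct U (a q) y ≠ y := by
    intro q
    by_cases h : q = 1
    · exact ⟨1, fun h' => absurd h h'⟩
    · obtain ⟨a, y, hy⟩ := exists_germ_action U hU q h
      exact ⟨a, fun _ => ⟨y, hy⟩⟩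
  choose a ha using ex
  let P := FP G ι × Y
  let : LinearOrder P := linearOrderOfSTO WellOrderingRel
  have : IsWellOrder P (· < ·) := inferInstanceAs (IsWellOrder P WellOrderingRel)
  let f : FP G ι → Lex (P → Y) := fun r => toLex fun p => germAct U (a p.1 r) p.2
  have act_mul : ∀ (e e' : (U : Filter (Finset G)).Germ (ℚ ≃o ℚ)) (y : Y),
      germAct U (e * e') y = germAct U e (germAct U e' y) := by
    intro e e' y
    refine Germ.inductionOn₃ e e' y fun f g h => ?_
    simp only [← Germ.coe_mul, germAct, Germ.map₂_coe, Pi.mul_apply, RelIso.mul_apply]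
  have act_one : ∀ y : Y, germAct U 1 y = y := by
    intro y
    refine Germ.inductionOn y fun h => ?_
    rw [← Germ.coe_one]
    simp only [germAct, Germ.map₂_coe, Pi.one_apply, RelIso.one_apply]
  have act_mono : ∀ e : (U : Filter (Finset G)).Germ (ℚ ≃o ℚ), StrictMono (germAct U e) := by
    intro e y y'
    refine Germ.inductionOn₃ e y y' fun f g h hlt => ?_
    simp only [germAct, Germ.map₂_coe]
    rw [Germ.coe_lt] at hlt ⊢
    filter_upwards [hlt] with S hS using (f S).strictMono hS
  have hf : Function.Injective f := by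
    intro r s hrs
    by_contra hne
    obtain ⟨y, hy⟩ := ha (s⁻¹ * r) (by rw [ne_eq, inv_mul_eq_one]; exact Ne.symm hne)
    apply hy
    have h := congrFun (congrArg ofLex hrs) (s⁻¹ * r, y)
    simp only [f, ofLex_toLex] at h
    rw [map_mul, act_mul, h, ← act_mul, ← map_mul, inv_mul_cancel, map_one, act_one]
  have hlt : ∀ x y : FP G ι, (LinearOrder.lift' f hf).lt x y ↔ f x < f y := fun x y => Iff.rfl
  refine ⟨LinearOrder.lift' f hf, ?_⟩
  let _ := LinearOrder.lift' f hf
  refine ⟨fun c r s h => ?_⟩
  replace h := (hlt r s).1 h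
  refine (hlt (c * r) (c * s)).2 ?_
  obtain ⟨i, hi, hlt⟩ := h
  refine ⟨i, fun j hj => ?_, ?_⟩
  · have h1 : germAct U (a j.1 r) j.2 = germAct U (a j.1 s) j.2 := hi j hj
    show germAct U (a j.1 (c * r)) j.2 = germAct U (a j.1 (c * s)) j.2
    rw [map_mul, map_mul, act_mul, act_mul, h1]
  · have h1 : germAct U (a i.1 r) i.2 < germAct U (a i.1 s) i.2 := hlt
    show germAct U (a i.1 (c * r)) i.2 < germAct U (a i.1 (c * s)) i.2
    rw [map_mul, map_mul, act_mul, act_mul]
    exact act_mono _ h1

end General

end

end Vale.Agent.P174.FreeLO
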