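import Vale.Agent.P174.Private
import Vale.Agent.P174.FreeLO

/-!
From injectivity for one equation over a left-ordered group to the Freiheitssatz and to systems
in which every equation has a private unknown.
-/

namespace Vale.Agent.P174

open Monoid Vale.P174.Private

/-- The one-equation theorem, as a proposition to be supplied. -/
def OneEquation : Prop :=
  ∀ (G : Type) [Group G] [LinearOrder G] [MulLeftStrictMono G] (ι : Type) (w : FP G ι),
    (∀ (u : FP G ι) (g : G), u * w * u⁻¹ ≠ Coprod.inl g) → ∀ g : G, g ≠ 1 →
      Coprod.inl g ∉ Subgroup.normalClosure {w}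

variable {G : Type} [Group G] {α ι : Type}

/-- Collect the shared unknowns into the coefficient group. -/
def collect : FP G (α ⊕ Unit) →* FP (FP G α) Unit :=
  Coprod.lift ((Coprod.inl : FP G α →* FP (FP G α) Unit).comp Coprod.inl)
    (FreeGroup.lift (Sum.elim (fun a => Coprod.inl (Coprod.inr (FreeGroup.of a)))
      (fun u => Coprod.inr (FreeGroup.of u))))

/-- The inverse of `collect`. -/
def spread : FP (FP G α) Unit →* FP G (α ⊕ Unit) :=
  Coprod.lift shared (FreeGroup.lift fun u => Coprod.inr (FreeGroup.of (Sum.inr u)))

theorem collect_shared (s : FP G α) : collect (shared s) = Coprod.inl s := by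
  suffices h : (collect : FP G (α ⊕ Unit) →* _).comp shared = Coprod.inl from
    DFunLike.congr_fun h s
  refine Coprod.hom_ext ?_ ?_
  · ext g; simp [collect, shared]
  · refine FreeGroup.ext_hom _ _ fun a => ?_
    simp [collect, shared]

theorem spread_collect (q : FP G (α ⊕ Unit)) : spread (collect q) = q := by
  suffices h : (spread (G := G) (α := α)).comp collect = MonoidHom.id _ from DFunLike.congr_fun h q
  refine Coprod.hom_ext ?_ ?_
  · ext g; simp [collect, spread, shared]
  · refine FreeGroup.ext_hom _ _ fun a => ?_
    cases a <;> simp [collect, spread, shared]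

/-- The total exponent of the private unknown. -/
def privExp : FP G (α ⊕ Unit) →* Multiplicative ℤ :=
  Coprod.lift 1 (FreeGroup.lift (Sum.elim (fun _ => 1) fun _ => Multiplicative.ofAdd 1))

theorem privExp_shared (s : FP G α) : privExp (shared s) = 1 := by
  suffices h : (privExp (G := G) (α := α)).comp shared = 1 from DFunLike.congr_fun h s
  refine Coprod.hom_ext ?_ ?_
  · ext g; simp [privExp, shared]
  · refine FreeGroup.ext_hom _ _ fun a => ?_
    simp [privExp, shared]

theorem not_conj_of_privExp {r : FP G (α ⊕ Unit)} (h : privExp r ≠ 1) (u : FP G (α ⊕ Unit))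
    (s : FP G α) : u * r * u⁻¹ ≠ shared s := by
  intro hc
  apply h
  have := congrArg privExp hc
  rw [map_mul, map_mul, map_inv, privExp_shared, mul_comm (privExp u), mul_inv_cancel_right] at this
  exact this

variable [LinearOrder G] [MulLeftStrictMono G] [Countable α]

/-- The Freiheitssatz for one equation over a left-ordered group: unknowns other than a private
one, together with the coefficients, embed. -/
theorem frei_of_oneEquation (H : OneEquation) (r : FP G (α ⊕ Unit))
    (hr : ∀ u s, u * r * u⁻¹ ≠ shared s) : Frei r := by
  obtain ⟨lo, hlo⟩ := FreeLO.exists_order G α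
  intro x y hxy
  by_contra hne
  have hmem : shared (x⁻¹ * y) ∈ Subgroup.normalClosure {r} := by
    rw [map_mul, map_inv]
    exact (QuotientGroup.eq (s := Subgroup.normalClosure {r})).1 hxy
  have hle : Subgroup.normalClosure {r} ≤
      (Subgroup.normalClosure {collect r}).comap collect :=
    Subgroup.normalClosure_le_normal fun z hz => by
      rw [Set.mem_singleton_iff.1 hz]
      exact Subgroup.subset_normalClosure rfl
  have h2 := hle hmem
  rw [Subgroup.mem_comap, collect_shared] at h2
  refine @H (FP G α) _ lo hlo Unit (collect r) ?_ (x⁻¹ * y) ?_ h2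
  · intro u s hc
    refine hr (spread u) s ?_
    have := congrArg spread hc
    rw [map_mul, map_mul, map_inv, spread_collect] at this
    simpa [spread] using this
  · rw [ne_eq, inv_mul_eq_one]
    exact hne

/-- Systems in which the `i`-th equation involves, up to conjugacy, a private unknown `i` besides
the shared unknowns are solvable over every left-ordered group. -/
theorem system_of_oneEquation (H : OneEquation) (r : ι → FP G (α ⊕ Unit))
    (hr : ∀ i u s, u * r i * u⁻¹ ≠ shared s) :
    Function.Injective
      ((QuotientGroup.mk' (Subgroup.normalClosure (Set.range fun i => piece i (r i)))).comp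
        (Coprod.inl : G →* FP G (α ⊕ ι))) :=
  system_injective' r fun i => frei_of_oneEquation H (r i) (hr i)

/-- In particular when the private exponent sums do not vanish. -/
theorem system_of_privExp (H : OneEquation) (r : ι → FP G (α ⊕ Unit))
    (hr : ∀ i, privExp (r i) ≠ 1) :
    Function.Injective
      ((QuotientGroup.mk' (Subgroup.normalClosure (Set.range fun i => piece i (r i)))).comp
        (Coprod.inl : G →* FP G (α ⊕ ι))) :=
  system_of_oneEquation H r fun i => not_conj_of_privExp (hr i)

end Vale.Agent.P174
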