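import Mathlib

/-!
A countable left-ordered group acts on the real line by order automorphisms such that the orbit
of `0` is free and a prescribed finite set of elements has bounded displacement.
-/

namespace Vale.Agent.P174

open Set

noncomputable section

/-- Extension of an order automorphism of `ℚ` to `ℝ`. -/
def extFun (e : ℚ ≃o ℚ) (x : ℝ) : ℝ :=
  sSup ((fun q : ℚ => (e q : ℝ)) '' {q : ℚ | (q : ℝ) ≤ x})

theorem extFun_nonempty (e : ℚ ≃o ℚ) (x : ℝ) :
    ((fun q : ℚ => (e q : ℝ)) '' {q : ℚ | (q : ℝ) ≤ x}).Nonempty := by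
  obtain ⟨q, hq⟩ := exists_rat_lt x
  exact ⟨_, q, hq.le, rfl⟩

theorem extFun_bdd (e : ℚ ≃o ℚ) (x : ℝ) :
    BddAbove ((fun q : ℚ => (e q : ℝ)) '' {q : ℚ | (q : ℝ) ≤ x}) := by
  obtain ⟨r, hr⟩ := exists_rat_gt x
  refine ⟨(e r : ℝ), ?_⟩
  rintro _ ⟨q, hq, rfl⟩
  show (e q : ℝ) ≤ (e r : ℝ)
  exact_mod_cast e.monotone (by exact_mod_cast (hq.trans hr.le) : q ≤ r)

theorem le_extFun (e : ℚ ≃o ℚ) {x : ℝ} {q : ℚ} (h : (q : ℝ) ≤ x) :
    (e q : ℝ) ≤ extFun e x :=
  le_csSup (extFun_bdd e x) ⟨q, h, rfl⟩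

theorem extFun_le (e : ℚ ≃o ℚ) {x : ℝ} {q : ℚ} (h : x ≤ (q : ℝ)) :
    extFun e x ≤ (e q : ℝ) := by
  refine csSup_le (extFun_nonempty e x) ?_
  rintro _ ⟨p, hp, rfl⟩
  show (e p : ℝ) ≤ (e q : ℝ)
  exact_mod_cast e.monotone (by exact_mod_cast (hp.trans h) : p ≤ q)

theorem extFun_rat (e : ℚ ≃o ℚ) (q : ℚ) : extFun e (q : ℝ) = (e q : ℝ) :=
  le_antisymm (extFun_le e le_rfl) (le_extFun e le_rfl)

theorem extFun_strictMono (e : ℚ ≃o ℚ) : StrictMono (extFun e) := by
  intro x y hxy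
  obtain ⟨p, hxp, hpy⟩ := exists_rat_btwn hxy
  obtain ⟨q, hpq, hqy⟩ := exists_rat_btwn hpy
  calc extFun e x ≤ (e p : ℝ) := extFun_le e hxp.le
    _ < (e q : ℝ) := by exact_mod_cast e.strictMono (by exact_mod_cast hpq : p < q)
    _ ≤ extFun e y := le_extFun e hqy.le

theorem extFun_symm (e : ℚ ≃o ℚ) (x : ℝ) : extFun e (extFun e.symm x) = x := by
  refine le_antisymm ?_ ?_
  · refine le_of_forall_gt_imp_ge_of_dense fun z hz => ?_
    obtain ⟨q, hxq, hqz⟩ := exists_rat_btwn hz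
    have h1 : extFun e.symm x ≤ (e.symm q : ℝ) := extFun_le e.symm hxq.le
    have h2 := extFun_le e h1
    rw [e.apply_symm_apply] at h2
    linarith
  · refine le_of_forall_lt_imp_le_of_dense fun z hz => ?_
    obtain ⟨q, hzq, hqx⟩ := exists_rat_btwn hz
    have h1 : (e.symm q : ℝ) ≤ extFun e.symm x := le_extFun e.symm hqx.le
    have h2 := le_extFun e h1
    rw [e.apply_symm_apply] at h2
    linarith

/-- Extension of an order automorphism of `ℚ` to `ℝ`, as an automorphism. -/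
def extIso (e : ℚ ≃o ℚ) : ℝ ≃o ℝ :=
  (extFun_strictMono e).orderIsoOfRightInverse (extFun e) (extFun e.symm) (extFun_symm e)

theorem extIso_apply (e : ℚ ≃o ℚ) (x : ℝ) : extIso e x = extFun e x := rfl

theorem extIso_rat (e : ℚ ≃o ℚ) (q : ℚ) : extIso e (q : ℝ) = (e q : ℝ) := extFun_rat e q

theorem extFun_comp (e f : ℚ ≃o ℚ) (x : ℝ) :
    extFun (f.trans e) x = extFun e (extFun f x) := by
  have hc : Continuous fun x => extFun e (extFun f x) :=
    (extIso e).continuous.comp (extIso f).continuous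
  have hd : Continuous (extFun (f.trans e)) := (extIso (f.trans e)).continuous
  have hext := Continuous.ext_on Rat.denseRange_cast hd hc ?_
  · exact congrFun hext x
  · rintro _ ⟨q, rfl⟩
    simp [extFun_rat]

variable (G : Type*) [Group G] [Countable G] [LinearOrder G] [MulLeftStrictMono G]

/-- Left translation on `G ×ₗ ℚ`. -/
def lexTranslate {G : Type*} [Group G] [LinearOrder G] [MulLeftStrictMono G] (g : G) :
    Lex (G × ℚ) ≃o Lex (G × ℚ) :=
  StrictMono.orderIsoOfRightInverse (fun p => toLex (g * (ofLex p).1, (ofLex p).2))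
    (by
      intro p q hpq
      rw [Prod.Lex.lt_iff] at hpq ⊢
      rcases hpq with h | ⟨h1, h2⟩
      · exact Or.inl (by simpa using mul_lt_mul_right h g)
      · exact Or.inr ⟨by simp [h1], by simpa using h2⟩)
    (fun p => toLex (g⁻¹ * (ofLex p).1, (ofLex p).2))
    (fun p => by simp)

theorem lexTranslate_apply {G : Type*} [Group G] [LinearOrder G] [MulLeftStrictMono G] (g : G)
    (p : Lex (G × ℚ)) : lexTranslate g p = toLex (g * (ofLex p).1, (ofLex p).2) := rfl

theorem exists_free_rat_action :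
    ∃ a : G → (ℚ ≃o ℚ), (∀ g h : G, a (g * h) = (a h).trans (a g)) ∧
      (∀ g : G, a g 0 = 0 → g = 1) := by
  have : Countable (Lex (G × ℚ)) := inferInstanceAs (Countable (G × ℚ))
  obtain ⟨φ⟩ : Nonempty ((Lex (G × ℚ)) ≃o ℚ) := Order.iso_of_countable_dense _ _
  refine ⟨fun g => (φ.symm.trans (lexTranslate g)).trans φ, ?_, ?_⟩
  · intro g h
    ext q
    simp [lexTranslate_apply, mul_assoc]
  · intro g hg
    have h1 : lexTranslate g (φ.symm 0) = φ.symm 0 := by
      have := congrArg φ.symm hg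
      simpa using this
    rw [lexTranslate_apply] at h1
    have h2 := congrArg (fun p => (ofLex p).1) h1
    simpa using h2

/-- A countable left-ordered group acts on `ℝ` with the orbit of `0` free. -/
theorem exists_free_real_action :
    ∃ ρ : G →* (ℝ ≃o ℝ), ∀ g : G, ρ g 0 = 0 → g = 1 := by
  obtain ⟨a, hmul, hfree⟩ := exists_free_rat_action G
  refine ⟨MonoidHom.mk' (fun g => extIso (a g)) ?_, ?_⟩
  · intro g h
    ext x
    show extIso (a (g * h)) x = extIso (a g) (extIso (a h) x)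
    simp [extIso_apply, hmul, extFun_comp]
  · intro g hg
    apply hfree
    have h : extIso (a g) ((0 : ℚ) : ℝ) = ((0 : ℚ) : ℝ) := by simpa using hg
    rw [extIso_rat] at h
    exact_mod_cast h

end

end Vale.Agent.P174
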