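import Vale.Agent.P174.Potential
import Vale.Agent.P174.FreeLO

/-!
Reducing a counted state to the empty sphere, the cyclic word of an element, and the passage to
countable coefficient groups.
-/

namespace Vale.Agent.P174

open Monoid

noncomputable section

variable {G : Type*} [Group G] {ι : Type*}

theorem coprod_inl_injective : Function.Injective (Coprod.inl : G →* FP G ι) :=
  Function.LeftInverse.injective (g := Coprod.fst) fun g => by simp

theorem adjLast_pair {α : Type*} (p r : α × G) (g : G) :
    adjLast [p, r] g = [p, (r.1, r.2 * g)] := by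
  rw [adjLast_cons (by simp), adjLast_single]

theorem Raw.mul_pair {α : Type*} (P : Raw G α) (a b : α) (Q : Raw G α) :
    P * Raw.lt a * Raw.lt b * Q = ⟨P.hd, P.tl ++ (a, 1) :: (b, Q.hd) :: Q.tl⟩ := by
  obtain ⟨p, tP⟩ := P
  by_cases h : tP = []
  · subst h; simp [Raw.lt, Raw.mul_of_nil, Raw.mul_of_ne, adjLast_pair]
  · simp [Raw.lt, Raw.mul_of_ne, h, adjLast_append, adjLast_pair]

theorem lval_rot_conj {α : Type*} (ℓ : α → Letter ι) (A B : List (α × G)) :
    lval ℓ (B ++ A) = (lval ℓ A)⁻¹ * lval ℓ (A ++ B) * ((lval ℓ A)⁻¹)⁻¹ := by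
  simp only [lval_append]
  group

variable {w : CWord G ι} {S : Stacking w}

theorem mirror_of_ev {x y : Lab} (hxy : w.lab x = (w.lab y).rev) (h : S.ev y.1 = S.ev x.1) :
    x.2 ≠ y.2 ∧ w.rest x = (w.rest y)⁻¹ := by
  obtain ⟨i, σ⟩ := x
  obtain ⟨j, τ⟩ := y
  have hl : (w.c j).1 = (w.c i).1 := by
    have := congrArg Prod.fst hxy
    cases σ <;> cases τ <;> simpa [CWord.lab, Letter.rev] using this.symm
  have hs := S.sep j i hl h
  have hc : w.c j = w.c i := by simpa using (hs 0).1
  have hne : σ ≠ τ := by
    rintro rfl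
    rcases hci : w.c i with ⟨t, b⟩
    cases σ <;> cases b <;> simp [CWord.lab, hc, hci, Letter.rev] at hxy
  refine ⟨hne, ?_⟩
  have hpr := CWord.pr_congr hs w.len
  cases σ <;> cases τ
  · exact absurd rfl hne
  · rw [CWord.rest_neg, CWord.rest_pos, hc, hpr]; group
  · rw [CWord.rest_neg, CWord.rest_pos, hc, hpr]; group
  · exact absurd rfl hne

/-- Glueing a mirror pair gives a product of fewer conjugates. -/
theorem glue_mirror {i j : ℕ} (hi : 1 ≤ i) (hj : 1 ≤ j) {U V : List (Lab × G)} {y x : Lab}
    {h₁ h₂ : G} (hU0 : U ≠ []) (hV0 : V ≠ []) (hU : Place w i ((y, h₁) :: U))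
    (hV : Place w j ((x, h₂) :: V)) (hrest : w.rest x = (w.rest y)⁻¹) :
    InProd w.val (i + j - 1) (lval w.lab (adjLast U h₂ ++ adjLast V h₁)) := by
  have h := (hU.one y h₁ U (List.IsRotated.refl _)).mul (hV.one x h₂ V (List.IsRotated.refl _))
  rw [hrest, mul_inv_cancel] at h
  have h' := h.symm
  rw [Cong.inProd_iff] at h'
  have h2 := InProd.comm (x := Coprod.inl h₁) (y := lval w.lab U * (Coprod.inl h₂ * lval w.lab V))
    (by simpa [mul_assoc] using h')
  refine InProd.mono ?_ (show i - 1 + (j - 1) ≤ i + j - 1 by omega)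
  rw [lval_append, lval_adjLast _ hU0, lval_adjLast _ hV0]
  simpa [mul_assoc] using h2

/-- A counted state whose word is a nontrivial coefficient does not exist for minimal `k`. -/
theorem no_state (M : Marks S) {k : ℕ}
    (hmin : ∀ j < k, ∀ g : G, g ≠ 1 → ¬ InProd w.val j (Coprod.inl g)) :
    ∀ (l : List (Lab × G)) (q : ℕ) (c : G), Place w k l → Pot M k q l → c ≠ 1 →
      lval w.lab l = Coprod.inl c → False := by
  intro l
  induction hn : l.length using Nat.strong_induction_on generalizing l with
  | _ n ih =>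
    intro q c hP hPot hc hv
    have hne : l ≠ [] := by
      rintro rfl
      exact hc (coprod_inl_injective (by rw [← hv, lval_nil, map_one]))
    obtain ⟨P, a, b, Q, e, hab⟩ := Raw.exists_cancel w.lab (Raw.lst l) c
      (by simpa [Raw.nlet, Raw.lst] using hne) (by simpa using hv)
    rw [Raw.mul_pair] at e
    obtain ⟨A, B, hb, rfl⟩ : ∃ A B hb, l = A ++ (a, 1) :: (b, hb) :: B :=
      ⟨P.tl, Q.tl, Q.hd, congrArg Raw.tl e⟩
    have hrot : A ++ (a, 1) :: (b, hb) :: B ~r (a, 1) :: (b, hb) :: (B ++ A) := by
      simpa using rot_split A ((a, (1 : G)) :: (b, hb) :: B)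
    have hP' := hP.rot hrot.symm
    have hPot' := hPot.rot hrot.symm
    have hval : lval w.lab A * Coprod.inl hb * lval w.lab B = Coprod.inl c := by
      rw [← hv]
      simp [lval_append, lval_cons, hab, letter_rev, mul_assoc]
    rcases eq_or_ne (S.ev a.1) (S.ev b.1) with hev | hev
    · obtain ⟨hσ, hrest⟩ := mirror_of_ev hab hev
      obtain ⟨hk, h⟩ := hP'.two a 1 [] b hb (B ++ A) (List.IsRotated.refl _) hσ.symm
      rw [map_one, lval_nil, mul_one, inv_one, mul_one, hrest, inv_mul_cancel] at h
      have h' := h.symm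
      rw [Cong.inProd_iff] at h'
      refine hmin (k - 2) (by omega) c hc ?_
      rw [← hval, mul_assoc]
      exact InProd.comm (by simpa [lval_append, mul_assoc] using h')
    rcases eq_or_ne (B ++ A) [] with hBA | hBA
    · obtain ⟨rfl, rfl⟩ := List.append_eq_nil_iff.1 hBA
      exact Pot.not_final hab hev hPot'
    have hP2 := place_cancel hab hP'
    have hPot2 := hPot'.cancel hBA hab hev
    rcases eq_or_ne A [] with hA | hA
    · subst hA
      rw [List.append_nil] at hP2 hPot2 hBA
      refine ih (adjLast B hb).length (by subst hn; simp) _ rfl (q + 1) (hb⁻¹ * c * hb) hP2 hPot2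
        (fun h => hc ?_) ?_
      · calc c = hb * (hb⁻¹ * c * hb) * hb⁻¹ := by group
          _ = 1 := by rw [h]; group
      · rw [lval_adjLast _ hBA, map_mul, map_mul, map_inv, ← hval]
        simp [mul_assoc]
    · have hrot2 : adjLast A hb ++ B ~r adjLast (B ++ A) hb := by
        rw [adjLast_append B hA]; exact rot_split _ _
      refine ih (adjLast A hb ++ B).length (by subst hn; simp) _ rfl (q + 1) c
        (hP2.rot hrot2) (hPot2.rot hrot2) hc ?_
      rw [lval_append, lval_adjLast _ hA, hval]

section Faces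

theorem faceList_add : ∀ (m n : ℕ) (a : Lab),
    faceList w a (m + n) = faceList w a m ++ faceList w (stepLab a m) n := by
  intro m
  induction m with
  | zero =>
    intro n a
    obtain ⟨i, σ⟩ := a
    cases σ <;> simp [faceList, stepLab]
  | succ m ih =>
    intro n a
    rw [show m + 1 + n = m + n + 1 by omega, faceList, faceList, ih, stepLab_next,
      List.cons_append]
    push_cast
    rw [add_comm (1 : ℤ)]

/-- A list with labels replaced by their letters. -/
def letters (w : CWord G ι) (l : List (Lab × G)) : List (Letter ι × G) :=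
  l.map fun p => (w.lab p.1, p.2)

theorem letters_faceList_per (n : ℕ) (a : Lab) :
    letters w (faceList w (stepLab a w.len) n) = letters w (faceList w a n) := by
  induction n generalizing a with
  | zero => rfl
  | succ n ih =>
    have hcomm : nextLab (stepLab a w.len) = stepLab (nextLab a) w.len := by
      rw [nextLab_stepLab, stepLab_next, add_comm]
    have h := ih (nextLab a)
    unfold letters at h ⊢
    rw [faceList, faceList, List.map_cons, List.map_cons, hcomm, h]
    congr 1
    obtain ⟨i, σ⟩ := a
    cases σ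
    · simp [stepLab, CWord.lab, CWord.cor, w.c_per, w.g_per]
    · have hc : w.c (i - w.len) = w.c i := by rw [← w.c_per (i - w.len), sub_add_cancel]
      have hg : w.g (i - w.len - 1) = w.g (i - 1) := by
        rw [← w.g_per (i - w.len - 1)]; congr 1; ring
      simp [stepLab, CWord.lab, CWord.cor, hc, hg]

theorem redList_face (hred : w.Reduced) : ∀ (n : ℕ) (a : Lab),
    RedList (letters w (faceList w a n)) := by
  intro n
  induction n with
  | zero => intro a; trivial
  | succ n ih =>
    intro a
    cases n with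
    | zero => trivial
    | succ n =>
      refine ⟨?_, ih (nextLab a)⟩
      rintro ⟨h1, h2⟩
      obtain ⟨i, σ⟩ := a
      cases σ
      · refine hred i ⟨?_, ?_⟩
        · simp only [CWord.lab, nextLab, Bool.false_eq_true, if_false] at h1
          have h3 := congrArg Letter.rev h1
          rwa [Letter.rev_rev, Letter.rev_rev] at h3
        · simpa [CWord.cor] using h2
      · refine hred (i - 1) ⟨?_, ?_⟩
        · simp only [CWord.lab, nextLab, if_true] at h1
          rw [sub_add_cancel, h1, Letter.rev_rev]
        · simpa [CWord.cor] using h2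

/-- The blocks consisting of one face. -/
def OneFace (w : CWord G ι) (j : ℕ) (l : List (Lab × G)) : Prop :=
  j = 1 ∧ Place w 1 l ∧ ∃ a, letters w l = letters w (faceList w a w.len)

theorem OneFace.length {j : ℕ} {l : List (Lab × G)} (h : OneFace w j l) : l.length = w.len := by
  obtain ⟨-, -, a, ha⟩ := h
  simpa [letters, faceList_length] using congrArg List.length ha

theorem OneFace.rot {j : ℕ} {A B : List (Lab × G)} (h : OneFace w j (A ++ B)) :
    OneFace w j (B ++ A) := by
  have hlen := h.length
  obtain ⟨hj, hP, a, ha⟩ := h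
  refine ⟨hj, hP.rot (rot_split B A), stepLab a A.length, ?_⟩
  rw [List.length_append] at hlen
  rw [← hlen, faceList_add] at ha
  simp only [letters, List.map_append] at ha
  obtain ⟨hA, hB⟩ := List.append_inj ha (by simp [faceList_length])
  have hper := letters_faceList_per (w := w) A.length a
  rw [show w.len = B.length + A.length by omega, faceList_add]
  simp only [letters, List.map_append] at hper ⊢
  rw [hA, hB, ← hper]
  congr 3
  obtain ⟨i, σ⟩ := a
  cases σ <;> simp [stepLab] <;> omega

theorem no_oneFace (hred : w.Reduced) {l : List (Lab × G)} (h : OneFace w 1 l) (c : G) :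
    lval w.lab l ≠ Coprod.inl c := by
  intro hv
  have hlen := h.length
  obtain ⟨-, -, a, ha⟩ := h
  have hr : RedList (letters w l) := ha ▸ redList_face hred _ _
  have h2 := nfAct_lval _ hr
  rw [show lval id (letters w l) = lval w.lab l from lval_map w.lab l, hv, nfAct_inl] at h2
  simp only [Subtype.mk.injEq, Prod.mk.injEq] at h2
  have := congrArg List.length h2.2
  simp [letters, hlen] at this
  have := w.len_pos
  omega

end Faces

section CWordOf

open FreeLO

theorem val_ofList (A : List (Letter ι × G)) (h : 0 < A.length) :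
    (ofList A h).val = evalR A := by
  suffices H : ∀ n, n ≤ A.length → (ofList A h).part n = evalR (A.take n) by
    simpa [CWord.val, ofList] using H A.length le_rfl
  intro n
  induction n with
  | zero => simp [CWord.part, evalR]
  | succ n ih =>
    intro hn
    rw [CWord.part, ih (by omega), ofList_c A h n (by omega), ofList_g A h n (by omega),
      List.take_succ_eq_append_getElem (by omega), evalR_append]
    simp [evalR, mul_assoc]

theorem red_append_changeLast : ∀ (A : List (Letter ι × G)) (l : Letter ι) (g g' : G),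
    FreeLO.Red (A ++ [(l, g)]) → FreeLO.Red (A ++ [(l, g')])
  | [], _, _, _, _ => trivial
  | [a], _, _, _, h => ⟨h.1, trivial⟩
  | a :: b :: r, l, g, g', h => ⟨h.1, red_append_changeLast (b :: r) l g g' h.2⟩

theorem red_prefix : ∀ (A B : List (Letter ι × G)), FreeLO.Red (A ++ B) → FreeLO.Red A
  | [], _, _ => trivial
  | [_], _, _ => trivial
  | a :: b :: r, B, h => ⟨h.1, red_prefix (b :: r) B h.2⟩

/-- An element that is not conjugate into `G` is conjugate to a reduced cyclic word. -/
theorem exists_cword (v : FP G ι) (hv : ∀ u g, u * v * u⁻¹ ≠ Coprod.inl g) :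
    ∃ W : CWord G ι, W.Reduced ∧ ∃ c, W.val = c * v * c⁻¹ := by
  classical
  have hex : ∃ n, ∃ (u : FP G ι) (e : G) (A : List (Letter ι × G)),
      FreeLO.Red A ∧ A.length = n ∧ u * v * u⁻¹ = evalR A * Coprod.inl e := by
    obtain ⟨e, A, hA, h⟩ := hasForm v
    exact ⟨A.length, 1, e, A, hA, rfl, by simpa using h⟩
  obtain ⟨u, e, A, hA, hlen, hu⟩ := Nat.find_spec hex
  have hpos : A ≠ [] := by
    rintro rfl
    exact hv u e (by simpa [evalR] using hu)
  obtain ⟨A0, ⟨l, g⟩, rfl⟩ : ∃ r p, A = r ++ [p] :=
    ⟨_, _, (List.dropLast_concat_getLast hpos).symm⟩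
  have hA' : FreeLO.Red (A0 ++ [(l, e * g)]) := red_append_changeLast A0 l g (e * g) hA
  have hlen0 : 0 < (A0 ++ [(l, e * g)]).length := by simp
  have hconj : evalR (A0 ++ [(l, e * g)]) = (Coprod.inl e * u) * v * (Coprod.inl e * u)⁻¹ := by
    have : evalR (A0 ++ [(l, e * g)]) =
        Coprod.inl e * (evalR (A0 ++ [(l, g)]) * Coprod.inl e) * (Coprod.inl e)⁻¹ := by
      simp [evalR_append, evalR, mul_assoc]
    rw [this, ← hu]
    group
  refine ⟨ofList (A0 ++ [(l, e * g)]) hlen0, ofList_reduced _ hlen0 hA' ?_,
    Coprod.inl e * u, by rw [val_ofList, hconj]⟩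
  rintro ⟨h1, h2⟩
  cases A0 with
  | nil =>
    obtain ⟨t, b⟩ := l
    cases b <;> simp [Letter.rev] at h1
  | cons p B =>
    obtain ⟨l0, g0⟩ := p
    simp only [List.cons_append, List.getElem_cons_zero, List.length_cons, List.length_append,
      List.length_nil, Nat.add_sub_cancel, List.getElem_cons_succ] at h1 h2
    simp at h1 h2
    have hB : FreeLO.Red B := red_prefix B [(l, g)] hA.tail
    refine Nat.find_min hex (m := B.length) (by rw [← hlen]; simp)
      ⟨letter l0 * (Coprod.inl e * u), g0, B, hB, rfl, ?_⟩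
    have h3 : letter l0 * (Coprod.inl e * u) * v * (letter l0 * (Coprod.inl e * u))⁻¹ =
        letter l0 * evalR ((l0, g0) :: B ++ [(l, e * g)]) * (letter l0)⁻¹ := by
      rw [hconj]; group
    rw [h3, evalR_append]
    simp [evalR, h1, h2, letter_rev, mul_assoc]

end CWordOf

section Countability

theorem raw_value_nfAct (q : FP G ι) : ∀ p : NF G ι,
    Coprod.inl (nfAct q p).1.1 * lval id (nfAct q p).1.2 =
      q * (Coprod.inl p.1.1 * lval id p.1.2) := by
  have hl : ∀ (l : Letter ι) (p : NF G ι),
      Coprod.inl (push l p).1.1 * lval id (push l p).1.2 =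
        letter l * (Coprod.inl p.1.1 * lval id p.1.2) := by
    rintro l ⟨⟨g, t⟩, h⟩
    cases t with
    | nil => simp [push, lval_cons, mul_assoc]
    | cons r t =>
      by_cases hc : r.1 = l.rev ∧ g = 1
      · simp [push, hc, lval_cons, letter_rev, mul_assoc]
      · simp [push, hc, lval_cons, mul_assoc]
  induction q using Coprod.induction_on with
  | inl g => intro p; simp [nfAct_inl, mul_assoc]
  | inr u =>
    induction u using FreeGroup.induction_on with
    | C1 => intro p; simp
    | of t =>
      intro p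
      have := hl (t, true) p
      rw [← nfAct_letter, letter_true] at this
      exact this
    | inv_of t _ =>
      intro p
      have := hl (t, false) p
      rw [← nfAct_letter, letter_false] at this
      rw [map_inv (Coprod.inr : FreeGroup ι →* FP G ι)]
      exact this
    | mul x y hx hy =>
      intro p
      rw [map_mul (Coprod.inr : FreeGroup ι →* FP G ι), map_mul nfAct, Equiv.Perm.mul_apply, hx, hy, mul_assoc]
  | mul x y hx hy =>
    intro p
    rw [map_mul, Equiv.Perm.mul_apply, hx, hy, mul_assoc]

/-- An injective homomorphism of coefficient groups stays injective on the free products. -/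
theorem map_injective {K : Type*} [Group K] (φ : K →* G) (hφ : Function.Injective φ) :
    Function.Injective (Coprod.map φ (MonoidHom.id (FreeGroup ι)) : FP K ι →* FP G ι) := by
  have hred : ∀ t : List (Letter ι × K), RedList t → RedList (t.map fun p => (p.1, φ p.2)) := by
    intro t
    induction t with
    | nil => intro h; trivial
    | cons p r ih =>
      intro h
      cases r with
      | nil => trivial
      | cons q r =>
        refine ⟨fun hc => h.1 ⟨hc.1, hφ (hc.2.trans (map_one φ).symm)⟩, ih h.2⟩
  have hmap : ∀ t : List (Letter ι × K),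
      Coprod.map φ (MonoidHom.id (FreeGroup ι)) (lval id t) =
        lval id (t.map fun p => (p.1, φ p.2)) := by
    intro t
    induction t with
    | nil => simp
    | cons p r ih =>
      obtain ⟨⟨s, b⟩, k⟩ := p
      cases b <;> simp [lval_cons, ih, letter]
  rw [injective_iff_map_eq_one]
  intro q hq
  have hval := raw_value_nfAct q (⟨(1, []), trivial⟩ : NF K ι)
  simp only [map_one, lval_nil, mul_one] at hval
  obtain ⟨⟨k, t⟩, ht⟩ : NF K ι := nfAct q ⟨(1, []), trivial⟩
  revert hval
  generalize nfAct q (⟨(1, []), trivial⟩ : NF K ι) = p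
  intro hval
  obtain ⟨⟨k, t⟩, ht⟩ := p
  rw [← hval, map_mul, hmap, Coprod.map_apply_inl] at hq
  have h := congrArg (fun r => nfAct r (⟨(1, []), trivial⟩ : NF G ι)) hq
  simp only [map_mul, Equiv.Perm.mul_apply, map_one, Equiv.Perm.one_apply,
    nfAct_lval _ (hred t ht), nfAct_inl, mul_one] at h
  have h' := congrArg Subtype.val h
  simp only [Prod.mk.injEq] at h'
  obtain rfl : t = [] := List.map_eq_nil_iff.1 h'.2
  have hk1 : k = 1 := hφ (h'.1.trans (map_one φ).symm)
  rw [← hval, hk1]
  simp

theorem exists_finset_range (q : FP G ι) :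
    ∃ C : Finset G, ∀ K : Subgroup G, (C : Set G) ⊆ K →
      ∃ q' : FP K ι, Coprod.map K.subtype (MonoidHom.id (FreeGroup ι)) q' = q := by
  classical
  induction q using Coprod.induction_on with
  | inl g => exact ⟨{g}, fun K hK => ⟨Coprod.inl ⟨g, hK (by simp)⟩, by simp⟩⟩
  | inr u => exact ⟨∅, fun K _ => ⟨Coprod.inr u, by simp⟩⟩
  | mul x y hx hy =>
    obtain ⟨C, hC⟩ := hx
    obtain ⟨D, hD⟩ := hy
    refine ⟨C ∪ D, fun K hK => ?_⟩
    obtain ⟨a, ha⟩ := hC K (fun g hg => hK (by simp [hg]))
    obtain ⟨b, hb⟩ := hD K (fun g hg => hK (by simp [hg]))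
    exact ⟨a * b, by rw [map_mul, ha, hb]⟩

theorem exists_finset_inProd {v x : FP G ι} {k : ℕ} (h : InProd v k x) :
    ∃ C : Finset G, ∀ K : Subgroup G, (C : Set G) ⊆ K → ∀ v' : FP K ι,
      Coprod.map K.subtype (MonoidHom.id (FreeGroup ι)) v' = v →
      ∃ x', Coprod.map K.subtype (MonoidHom.id (FreeGroup ι)) x' = x ∧ InProd v' k x' := by
  classical
  induction h with
  | one n => exact ⟨∅, fun K _ v' _ => ⟨1, map_one _, InProd.one _⟩⟩
  | @pos n x u _ ih =>
    obtain ⟨C, hC⟩ := ih
    obtain ⟨D, hD⟩ := exists_finset_range u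
    refine ⟨C ∪ D, fun K hK v' hv' => ?_⟩
    obtain ⟨x', hx', hp⟩ := hC K (fun g hg => hK (by simp [hg])) v' hv'
    obtain ⟨u', hu'⟩ := hD K (fun g hg => hK (by simp [hg]))
    exact ⟨_, by simp [hx', hu', hv'], hp.pos u'⟩
  | @neg n x u _ ih =>
    obtain ⟨C, hC⟩ := ih
    obtain ⟨D, hD⟩ := exists_finset_range u
    refine ⟨C ∪ D, fun K hK v' hv' => ?_⟩
    obtain ⟨x', hx', hp⟩ := hC K (fun g hg => hK (by simp [hg])) v' hv'
    obtain ⟨u', hu'⟩ := hD K (fun g hg => hK (by simp [hg]))
    exact ⟨_, by simp [hx', hu', hv'], hp.neg u'⟩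

theorem countable_closure (C : Finset G) : Countable (Subgroup.closure (C : Set G)) := by
  have : Countable (FreeGroup C) := Function.Surjective.countable
    (f := FreeGroup.mk (α := C)) Quot.mk_surjective
  refine Function.Surjective.countable
    (f := fun u : FreeGroup C =>
      (⟨FreeGroup.lift (fun s : C => (s : G)) u, ?_⟩ : Subgroup.closure (C : Set G))) ?_
  · refine FreeGroup.range_lift_le ?_ ⟨u, rfl⟩
    rintro _ ⟨s, rfl⟩
    exact Subgroup.subset_closure s.2
  · rintro ⟨g, hg⟩
    have : g ∈ (FreeGroup.lift (fun s : C => (s : G))).range := by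
      rw [FreeGroup.range_lift_eq_closure]
      simpa using hg
    obtain ⟨u, hu⟩ := this
    exact ⟨u, Subtype.ext hu⟩

end Countability

end

end Vale.Agent.P174
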