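import Vale.Agent.P174.Expand

/-!
Merging nested blocks: in a minimal expression a coefficient is conjugate to the value of a single
block.
-/

namespace Vale.Agent.P174

open Monoid

variable {G : Type*} [Group G] {ι : Type*} {α : Type*} {ℓ : α → Letter ι}
  {T : ℕ → List (α × G) → Prop} {v : FP G ι}

theorem InBlock.inProd (hval : ∀ j l, T j l → InProd v j (lval ℓ l)) {j : ℕ} {R : Raw G α}
    (h : InBlock T j R) : InProd v j (Raw.val ℓ R) := by
  obtain ⟨q, l, hl, rfl⟩ := h
  simpa [map_inv] using (hval j l hl).conj (Coprod.inl q)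

theorem inProd_insert {n i : ℕ} {W A R B : FP G ι} (h : InProd v n (W⁻¹ * (A * B)))
    (hR : InProd v i R) : InProd v (n + i) (W⁻¹ * (A * R * B)) := by
  have := h.mul (hR.conj B⁻¹)
  convert this using 1
  group

theorem Ext.inProd (hval : ∀ j l, T j l → InProd v j (lval ℓ l)) {k : ℕ} {W L : Raw G α}
    (h : Ext T k W L) : InProd v k ((Raw.val ℓ W)⁻¹ * Raw.val ℓ L) := by
  induction h with
  | refl W => rw [inv_mul_cancel]; exact InProd.one _
  | @ins k j W A B R _ hR ih =>
    rw [map_mul] at ih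
    rw [map_mul, map_mul]
    exact inProd_insert ih (hR.inProd hval)

theorem InBlock.cons_form (hne : ∀ j l, T j l → l ≠ []) {j : ℕ} {y : α} {U : Raw G α}
    (h : InBlock T j (Raw.lt y * U)) : T j ((y, U.hd) :: U.tl) := by
  obtain ⟨q, l, hl, e⟩ := h
  have e1 : (Raw.lt y : Raw G α) * U = ⟨1, (y, U.hd) :: U.tl⟩ := by
    simp [Raw.lt, Raw.mul_of_ne]
  have e2 : (Raw.co q : Raw G α) * Raw.lst l * Raw.co q⁻¹ = ⟨q, adjLast l q⁻¹⟩ := by
    simp [Raw.co, Raw.lst, Raw.mul_of_nil, Raw.mul_of_ne, hne j l hl]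
  rw [e1, e2] at e
  simp only [Raw.mk.injEq] at e
  obtain ⟨rfl, e⟩ := e
  rw [inv_one, adjLast_one] at e
  rwa [e]

theorem glue_block (hlen : ∀ j l, T j l → 1 ≤ j ∧ 2 ≤ l.length)
    (hglue : ∀ i j (y x : α) (h₁ h₂ : G) U V, T i ((y, h₁) :: U) → T j ((x, h₂) :: V) →
      ℓ x = (ℓ y).rev → T (i + j) (adjLast U h₂ ++ adjLast V h₁) ∨
        InProd v (i + j - 1) (lval ℓ (adjLast U h₂ ++ adjLast V h₁)))
    {i j : ℕ} {y x : α} {U M : Raw G α} (hU : InBlock T i (Raw.lt y * U))
    (hM : InBlock T j (Raw.lt x * M)) (hxy : ℓ x = (ℓ y).rev) :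
    InBlock T (i + j) (U * M) ∨ InProd v (i + j - 1) (Raw.val ℓ (U * M)) := by
  have hne : ∀ j l, T j l → l ≠ [] := fun j l h e => by
    have := (hlen j l h).2
    simp [e] at this
  have hU' := hU.cons_form hne
  have hM' := hM.cons_form hne
  have hUne : U.tl ≠ [] := fun e => by
    have := (hlen _ _ hU').2
    simp [e] at this
  have hMne : M.tl ≠ [] := fun e => by
    have := (hlen _ _ hM').2
    simp [e] at this
  have e : U * M = Raw.co U.hd * Raw.lst (adjLast U.tl M.hd ++ adjLast M.tl U.hd) *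
      Raw.co U.hd⁻¹ := by
    rw [Raw.lst_append, Raw.lst_adjLast hUne, Raw.lst_adjLast hMne]
    conv_lhs => rw [Raw.eq_co_mul_lst U, Raw.eq_co_mul_lst M]
    simp [mul_assoc]
  rcases hglue i j y x _ _ _ _ hU' hM' hxy with h | h
  · exact Or.inl ⟨_, _, h, e⟩
  · refine Or.inr ?_
    rw [e]
    simpa [map_inv] using h.conj (Coprod.inl U.hd)

/-- A letter of a nested word may be replaced by a glued block. -/
theorem Ext.subst (hlen : ∀ j l, T j l → 1 ≤ j ∧ 2 ≤ l.length)
    (hrot : ∀ j l₁ l₂, T j (l₁ ++ l₂) → T j (l₂ ++ l₁))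
    (hval : ∀ j l, T j l → InProd v j (lval ℓ l))
    (hglue : ∀ i j (y x : α) (h₁ h₂ : G) U V, T i ((y, h₁) :: U) → T j ((x, h₂) :: V) →
      ℓ x = (ℓ y).rev → T (i + j) (adjLast U h₂ ++ adjLast V h₁) ∨
        InProd v (i + j - 1) (lval ℓ (adjLast U h₂ ++ adjLast V h₁)))
    {k j : ℕ} {W P Q M : Raw G α} {x y : α} (h : Ext T k W (P * Raw.lt y * Q))
    (hW : W.nlet = 0) (hM : InBlock T j (Raw.lt x * M)) (hxy : ℓ x = (ℓ y).rev) :
    Ext T (k + j) W (P * M * Q) ∨
      ∃ n < k + j, InProd v n ((Raw.val ℓ W)⁻¹ * Raw.val ℓ (P * M * Q)) := by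
  generalize hL : P * Raw.lt y * Q = L at h
  induction h generalizing P Q with
  | refl W =>
    exfalso
    rw [← hL] at hW
    simp at hW
  | @ins k i W A B R hprev hR ih =>
    rw [mul_assoc A] at hL
    rcases Raw.split_letter _ _ _ _ _ hL.symm with ⟨N, rfl, rfl⟩ | ⟨N, hN, rfl⟩
    · rcases ih (P := P) (Q := N * B) hW (by simp [mul_assoc]) with h | ⟨n, hn, h⟩
      · rw [show P * M * (N * B) = P * M * N * B by simp [mul_assoc]] at h
        refine Or.inl ?_
        rw [add_right_comm]
        simpa [mul_assoc] using Ext.ins h hR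
      · refine Or.inr ⟨n + i, by omega, ?_⟩
        rw [show P * M * (N * B) = P * M * N * B by simp [mul_assoc], map_mul] at h
        simpa [mul_assoc] using inProd_insert h (hR.inProd hval)
    · rcases Raw.split_letter _ _ _ _ _ hN with ⟨N', rfl, rfl⟩ | ⟨N', rfl, rfl⟩
      · -- the letter lies in the last block
        rw [mul_assoc N] at hR
        have hU : InBlock T i (Raw.lt y * (N' * N)) := by
          have := InBlock.rotate hrot hR
          simpa [mul_assoc] using this
        rcases glue_block hlen hglue hU hM hxy with h | h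
        · refine Or.inl ?_
          rw [mul_assoc N'] at h
          have := Ext.ins hprev (InBlock.rotate hrot h)
          simpa [mul_assoc, add_assoc] using this
        · obtain ⟨hi, -⟩ := hlen _ _ hR.choose_spec.choose_spec.1
          refine Or.inr ⟨k + (i + j - 1), by omega, ?_⟩
          rw [mul_assoc N', map_mul] at h
          have h' : InProd v (i + j - 1) (Raw.val ℓ (N * M * N')) := by
            rw [map_mul]
            exact InProd.comm h
          have h0 := hprev.inProd hval
          rw [map_mul] at h0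
          simpa [mul_assoc] using inProd_insert h0 h'
      · rcases ih (P := A * N') (Q := Q) hW (by simp [mul_assoc]) with h | ⟨n, hn, h⟩
        · rw [show A * N' * M * Q = A * (N' * M * Q) by simp [mul_assoc]] at h
          refine Or.inl ?_
          rw [add_right_comm]
          simpa [mul_assoc] using Ext.ins h hR
        · refine Or.inr ⟨n + i, by omega, ?_⟩
          rw [show A * N' * M * Q = A * (N' * M * Q) by simp [mul_assoc], map_mul] at h
          simpa [mul_assoc] using inProd_insert h (hR.inProd hval)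

theorem Ext.eq_of_zero (hlen : ∀ j l, T j l → 1 ≤ j ∧ 2 ≤ l.length) {W L : Raw G α}
    (h : Ext T 0 W L) : L = W := by
  generalize hk : 0 = k at h
  cases h with
  | refl => rfl
  | @ins k₁ j₁ W' A' B' R' _ hR' =>
    obtain ⟨q', l', hl', -⟩ := hR'
    have := (hlen _ _ hl').1
    omega

/-- If a word of value one contains a part whose value is not a coefficient, some letter of the
part has its partner outside. -/
theorem Raw.exists_outer (ℓ : α → Letter ι) (A B R : Raw G α)
    (h : Raw.val ℓ (A * R * B) = 1) (hR : ∀ c, Raw.val ℓ R ≠ Coprod.inl c) :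
    ∃ R₁ x R₂, R = R₁ * Raw.lt x * R₂ ∧
      ((∃ A₀ y A₁, A = A₀ * Raw.lt y * A₁ ∧ Raw.val ℓ (A₁ * R₁) = 1 ∧ ℓ x = (ℓ y).rev) ∨
       (∃ B₁ y B₀, B = B₁ * Raw.lt y * B₀ ∧ Raw.val ℓ (R₂ * B₁) = 1 ∧ ℓ y = (ℓ x).rev)) := by
  induction hn : R.nlet using Nat.strong_induction_on generalizing R with
  | _ n ih =>
    have h0 : R.nlet ≠ 0 := fun e => hR R.hd (by rw [Raw.eq_co_of_nlet e, Raw.val_co]; rfl)
    obtain ⟨c, x, R₂, rfl⟩ := Raw.exists_first h0
    have h' : Raw.val ℓ ((A * Raw.co c) * Raw.lt x * (R₂ * B)) = 1 := by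
      rw [← h]; simp [mul_assoc]
    rcases Raw.exists_partner ℓ _ _ x h' with ⟨A₀, r, A₁, hA, hA₁, hr⟩ | ⟨B₁, r, B₀, hB, hB₁, hr⟩
    · rcases Raw.split_letter _ _ _ _ _ hA with ⟨N, rfl, rfl⟩ | ⟨N, hN, -⟩
      · exact ⟨_, x, R₂, rfl, Or.inl ⟨A₀, r, N, rfl, hA₁, hr⟩⟩
      · have := congrArg Raw.nlet hN
        simp at this
        omega
    · rcases Raw.split_letter _ _ _ _ _ hB with ⟨M, rfl, -⟩ | ⟨N, rfl, rfl⟩
      · have hval : Raw.val ℓ (Raw.co c * Raw.lt x * (B₁ * Raw.lt r * M)) =
            Raw.val ℓ (Raw.co c * M) := by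
          simp [hB₁, hr, letter_rev, mul_assoc]
        obtain ⟨R₁', x', R₂', e, hp⟩ := ih (Raw.co c * M).nlet (by rw [← hn]; simp; omega)
          (Raw.co c * M) (by rw [← h]; simp only [map_mul] at hval ⊢; rw [hval])
          (fun d => hval ▸ hR d) rfl
        rcases Raw.split_letter _ _ _ _ _ e with ⟨N, hN, -⟩ | ⟨N, rfl, rfl⟩
        · have := congrArg Raw.nlet hN
          simp at this
          omega
        · refine ⟨Raw.co c * Raw.lt x * (B₁ * Raw.lt r * N), x', R₂', by simp [mul_assoc], ?_⟩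
          rcases hp with ⟨A₀, y, A₁, hA, hv, hy⟩ | hp
          · refine Or.inl ⟨A₀, y, A₁, hA, ?_, hy⟩
            rw [← hv]
            simp [hB₁, hr, letter_rev, mul_assoc]
          · exact Or.inr hp
      · exact ⟨Raw.co c, x, R₂, rfl, Or.inr ⟨N, r, B₀, rfl, hB₁, hr⟩⟩

/-- In a minimal expression, some block has value a nontrivial coefficient. -/
theorem exists_single_block {G ι α : Type*} [Group G] (ℓ : α → Letter ι)
    (T : ℕ → List (α × G) → Prop) (v : FP G ι)
    (hlen : ∀ j l, T j l → 1 ≤ j ∧ 2 ≤ l.length)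
    (hrot : ∀ j l₁ l₂, T j (l₁ ++ l₂) → T j (l₂ ++ l₁))
    (hval : ∀ j l, T j l → InProd v j (lval ℓ l))
    (hglue : ∀ i j (y x : α) (h₁ h₂ : G) U V, T i ((y, h₁) :: U) → T j ((x, h₂) :: V) →
      ℓ x = (ℓ y).rev → T (i + j) (adjLast U h₂ ++ adjLast V h₁) ∨
        InProd v (i + j - 1) (lval ℓ (adjLast U h₂ ++ adjLast V h₁)))
    {k : ℕ} (hmin : ∀ j < k, ∀ g : G, g ≠ 1 → ¬ InProd v j (Coprod.inl g))
    {g : G} (hg : g ≠ 1) {j : ℕ} {L : Raw G α} (hj : j ≤ k)
    (hL : Ext T j (Raw.co g⁻¹) L) (hv : Raw.val ℓ L = 1) :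
    ∃ l c, T k l ∧ c ≠ 1 ∧ lval ℓ l = Coprod.inl c := by
  have low : ∀ i L', Ext T i (Raw.co g⁻¹) L' → Raw.val ℓ L' = 1 → ¬ i < k := by
    intro i L' hE hv' hi
    have h := hE.inProd hval
    rw [hv', Raw.val_co, mul_one, ← map_inv, inv_inv] at h
    exact hmin i hi g hg h
  obtain rfl : j = k := le_antisymm hj (not_lt.1 (low j L hL hv))
  induction hn : L.nlet using Nat.strong_induction_on generalizing L with
  | _ n ih =>
    generalize hW : (Raw.co g⁻¹ : Raw G α) = W at hL
    cases hL with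
    | refl W =>
      rw [← hW, Raw.val_co] at hv
      exfalso
      exact hg (by simpa using congrArg (Coprod.fst : FP G ι →* G) hv)
    | @ins k₀ j₀ W A B R hprev hR =>
      obtain ⟨q, l, hl, hRe⟩ := hR
      by_cases hk₀ : k₀ = 0
      · subst hk₀
        obtain rfl := Ext.eq_of_zero hlen hprev
        · have hAB := congrArg Raw.nlet hW
          rw [Raw.nlet_co, Raw.nlet_mul] at hAB
          obtain ⟨a, rfl⟩ : ∃ a, A = Raw.co a := ⟨_, Raw.eq_co_of_nlet (by omega)⟩
          obtain ⟨b, rfl⟩ : ∃ b, B = Raw.co b := ⟨_, Raw.eq_co_of_nlet (by omega)⟩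
          rw [Raw.co_mul_co] at hW
          have hab : g⁻¹ = a * b := congrArg Raw.hd hW
          refine ⟨l, q⁻¹ * a⁻¹ * b⁻¹ * q, by simpa using hl, ?_, ?_⟩
          · intro hc
            apply hg
            have : a⁻¹ * b⁻¹ = 1 := by
              have := congrArg (fun z => q * z * q⁻¹) hc
              simpa [mul_assoc] using this
            rw [← inv_inv g, hab, mul_inv_rev]
            rw [← mul_inv_rev, inv_eq_one] at this
            rw [mul_eq_one_comm] at this
            rw [← mul_inv_rev, this, inv_one]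
          · rw [hRe, map_mul, map_mul, map_mul, map_mul] at hv
            simp only [Raw.val_co, Raw.val_lst, map_inv] at hv
            simp only [map_mul, map_inv]
            calc lval ℓ l
                = (Coprod.inl q)⁻¹ * (Coprod.inl a)⁻¹ * (Coprod.inl a *
                    (Coprod.inl q * lval ℓ l * (Coprod.inl q)⁻¹) * Coprod.inl b) *
                    (Coprod.inl b)⁻¹ * Coprod.inl q := by group
              _ = _ := by rw [hv]; group
      · subst hW
        have hRblock : InBlock T j₀ R := ⟨q, l, hl, hRe⟩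
        have hj₀ := (hlen _ _ hl).1
        have hnc : ∀ c, Raw.val ℓ R ≠ Coprod.inl c := by
          intro c hc
          by_cases hc1 : c = 1
          · refine low k₀ _ hprev ?_ (by omega)
            rw [← hv, map_mul, map_mul, map_mul, hc, hc1, map_one, mul_one]
          · have h := hRblock.inProd hval
            rw [hc] at h
            exact hmin j₀ (by omega) c hc1 h
        obtain ⟨R₁, x, R₂, rfl, hp⟩ := Raw.exists_outer ℓ A B R hv hnc
        rw [mul_assoc R₁] at hRblock
        have hM : InBlock T j₀ (Raw.lt x * (R₂ * R₁)) := by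
          simpa [mul_assoc] using InBlock.rotate hrot hRblock
        rcases hp with ⟨A₀, y, A₁, rfl, hA₁, hxy⟩ | ⟨B₁, y, B₀, rfl, hB₁, hyx⟩
        · have hpre : Ext T k₀ (Raw.co g⁻¹) (A₀ * Raw.lt y * (A₁ * B)) := by
            simpa [mul_assoc] using hprev
          have hv' : Raw.val ℓ (A₀ * (R₂ * R₁) * (A₁ * B)) = 1 := by
            rw [← hv]
            simp only [map_mul, Raw.val_lt, hxy, letter_rev] at hA₁ ⊢
            rw [eq_inv_of_mul_eq_one_left hA₁]
            group
          rcases Ext.subst hlen hrot hval hglue hpre (Raw.nlet_co _) hM hxy with h | ⟨i, hi, h⟩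
          · exact ih _ (by rw [← hn]; simp; omega) (L := _) h hv' rfl
          · rw [hv', Raw.val_co, mul_one, ← map_inv, inv_inv] at h
            exact absurd h (hmin i hi g hg)
        · have hpre : Ext T k₀ (Raw.co g⁻¹) (A * B₁ * Raw.lt y * B₀) := by
            simpa [mul_assoc] using hprev
          have hxy : ℓ x = (ℓ y).rev := by rw [hyx, Letter.rev_rev]
          have hv' : Raw.val ℓ (A * B₁ * (R₂ * R₁) * B₀) = 1 := by
            rw [← hv]
            simp only [map_mul, Raw.val_lt, hyx, letter_rev] at hB₁ ⊢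
            rw [eq_inv_of_mul_eq_one_left hB₁]
            group
          rcases Ext.subst hlen hrot hval hglue hpre (Raw.nlet_co _) hM hxy with h | ⟨i, hi, h⟩
          · exact ih _ (by rw [← hn]; simp; omega) (L := _) h hv' rfl
          · rw [hv', Raw.val_co, mul_one, ← map_inv, inv_inv] at h
            exact absurd h (hmin i hi g hg)

end Vale.Agent.P174
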