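import Vale.Agent.P174.Loop
import Vale.Agent.P174.Expand
import Vale.Agent.P174.Merge

/-!
The one-equation theorem: over a left-ordered group an equation that is not conjugate to a
coefficient is solvable.
-/

namespace Vale.Agent.P174

open Monoid

noncomputable section

variable {G : Type*} [Group G] {ι : Type*}

theorem map_eq_one_of_inProd {Q H : Type*} [Group Q] [Group H] {v x : Q} {k : ℕ} (φ : Q →* H)
    (hv : φ v = 1) (h : InProd v k x) : φ x = 1 := by
  induction h with
  | one n => exact map_one φ
  | pos u _ ih => simp [ih, hv]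
  | neg u _ ih => simp [ih, hv]

theorem lval_faceList_zero_pos (w : CWord G ι) :
    lval w.lab (faceList w (0, true) w.len) = letter (w.c 0) * w.val * (letter (w.c 0))⁻¹ := by
  rw [lval_faceList_full, CWord.rest_pos, CWord.pr_eq_part, mul_assoc]
  simp [CWord.lab, CWord.val]

theorem lval_faceList_zero_neg (w : CWord G ι) :
    lval w.lab (faceList w (0, false) w.len) = w.val⁻¹ := by
  rw [lval_faceList_full, CWord.rest_neg, CWord.pr_eq_part]
  simp [CWord.lab, CWord.val, letter_rev]

theorem place_val {w : CWord G ι} {k : ℕ} {l : List (Lab × G)} (hk : 1 ≤ k) (hne : l ≠ [])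
    (h : Place w k l) : InProd w.val k (lval w.lab l) := by
  obtain ⟨⟨a, g⟩, B, rfl⟩ := List.exists_cons_of_ne_nil hne
  exact h.val_inProd hk

/-- No product of conjugates of a reduced cyclic word and its inverse is a nontrivial coefficient,
over a countable left-ordered group. -/
theorem not_inProd_of_countable [Countable G] [LinearOrder G] [MulLeftStrictMono G]
    (w : CWord G ι) (hred : w.Reduced) :
    ∀ k, ∀ g : G, g ≠ 1 → ¬ InProd w.val k (Coprod.inl g) := by
  classical
  intro k
  induction k using Nat.strong_induction_on with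
  | _ k hmin =>
    intro g hg hP
    rcases (show w.len = 1 ∨ 2 ≤ w.len by have := w.len_pos; omega) with hL | hL
    · -- a single letter: retract onto the coefficients
      let φ : FP G ι →* G := Coprod.lift (MonoidHom.id G) (FreeGroup.lift fun t =>
        if t = (w.c 0).1 then (if (w.c 0).2 then (w.g 0)⁻¹ else w.g 0) else 1)
      have hv : φ w.val = 1 := by
        rw [CWord.val, hL]
        simp only [CWord.part, Nat.cast_zero, mul_one, map_mul]
        rcases hc : w.c 0 with ⟨t, b⟩
        cases b <;> simp [φ, letter, hc]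
      apply hg
      have := map_eq_one_of_inProd φ hv hP
      simpa [φ] using this
    obtain ⟨S⟩ := exists_stacking w hred
    have hexp : ∀ T : ℕ → List (Lab × G) → Prop, (∀ j l, T j l → 1 ≤ j ∧ 2 ≤ l.length) →
        (∀ j A B, T j (A ++ B) → T j (B ++ A)) →
        (∀ a, T 1 (faceList w a w.len)) →
        (∀ j l, T j l → InProd w.val j (lval w.lab l)) →
        (∀ i j (y x : Lab) (h₁ h₂ : G) U V, T i ((y, h₁) :: U) → T j ((x, h₂) :: V) →
          w.lab x = (w.lab y).rev → T (i + j) (adjLast U h₂ ++ adjLast V h₁) ∨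
            InProd w.val (i + j - 1) (lval w.lab (adjLast U h₂ ++ adjLast V h₁))) →
        ∃ l c, T k l ∧ c ≠ 1 ∧ lval w.lab l = Coprod.inl c := by
      intro T hlen hrot hface hval hglue
      obtain ⟨j, L, hj, hE, hV⟩ := exists_ext w.lab T w.val
        (fun j l h hl => by subst hl; simpa using (hlen j [] h).2) hrot
        ⟨_, _, hface (0, true), lval_faceList_zero_pos w⟩
        ⟨_, 1, hface (0, false), by rw [lval_faceList_zero_neg]; simp⟩ hP
      exact exists_single_block w.lab T w.val hlen hrot hval hglue hmin hg hj hE hV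
    have hper2 : Function.Periodic (fun i => (w.c i, S.ev i)) (w.len : ℤ) :=
      fun i => by simp [w.c_per, S.ev_per]
    by_cases hdist : ∃ i j, (w.c i).1 = (w.c j).1 ∧ S.ev i ≠ S.ev j
    · obtain ⟨i, j, hij, hne⟩ := hdist
      let F : Finset ℕ := (Finset.range w.len).filter fun n => (w.c (n : ℤ)).1 = (w.c i).1
      have mem : ∀ m : ℤ, (w.c m).1 = (w.c i).1 → ∃ n ∈ F, S.ev m = S.ev (n : ℤ) := by
        intro m hm
        obtain ⟨n, hn, he⟩ := periodic_nat w.len_pos (f := fun i => (w.c i, S.ev i)) hper2 m
        simp only [Prod.mk.injEq] at he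
        exact ⟨n, Finset.mem_filter.2 ⟨Finset.mem_range.2 hn, he.1 ▸ hm⟩, he.2⟩
      have hFne : F.Nonempty := let ⟨n, hn, _⟩ := mem i rfl; ⟨n, hn⟩
      obtain ⟨nt, hnt, htop⟩ := F.exists_max_image (fun n : ℕ => S.ev (n : ℤ)) hFne
      obtain ⟨nb, hnb, hbot⟩ := F.exists_min_image (fun n : ℕ => S.ev (n : ℤ)) hFne
      have top' : ∀ m, (w.c m).1 = (w.c i).1 → S.ev m ≤ S.ev (nt : ℤ) := fun m hm => by
        obtain ⟨n, hn, he⟩ := mem m hm; rw [he]; exact htop n hn
      have bot' : ∀ m, (w.c m).1 = (w.c i).1 → S.ev (nb : ℤ) ≤ S.ev m := fun m hm => by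
        obtain ⟨n, hn, he⟩ := mem m hm; rw [he]; exact hbot n hn
      have hlt : S.ev (nb : ℤ) < S.ev (nt : ℤ) := by
        rcases hne.lt_or_gt with h | h
        · exact lt_of_le_of_lt (bot' i rfl) (lt_of_lt_of_le h (top' j hij.symm))
        · exact lt_of_le_of_lt (bot' j hij.symm) (lt_of_lt_of_le h (top' i rfl))
      let M : Marks S :=
        { i₀ := nt, j₀ := nb, t := (w.c i).1, ht₀ := (Finset.mem_filter.1 hnt).2,
          htj := (Finset.mem_filter.1 hnb).2, top := top', bottom := bot', lt := hlt }
      let T : ℕ → List (Lab × G) → Prop := fun j l => 1 ≤ j ∧ Place w j l ∧ Pot M j 0 l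
      have hlen : ∀ j l, T j l → 1 ≤ j ∧ 2 ≤ l.length := by
        rintro j l ⟨hj, -, hp⟩
        refine ⟨hj, ?_⟩
        have h1 := hp.len
        have h2 : j * 2 ≤ j * w.len := Nat.mul_le_mul_left j hL
        omega
      obtain ⟨l, c, ⟨-, hPl, hPot⟩, hc, hv⟩ := hexp T hlen
        (fun j A B h => ⟨h.1, h.2.1.rot (rot_split B A), h.2.2.rot (rot_split B A)⟩)
        (fun a => ⟨le_rfl, place_face a, pot_face a⟩)
        (fun j l h => place_val h.1 (fun hl => by subst hl; simpa using (hlen _ _ h).2) h.2.1)
        (by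
          intro i' j' y x h₁ h₂ U V hU hV hxy
          have hU0 : U ≠ [] := fun h => by subst h; simpa using (hlen _ _ hU).2
          have hV0 : V ≠ [] := fun h => by subst h; simpa using (hlen _ _ hV).2
          rcases eq_or_ne (S.ev y.1) (S.ev x.1) with he | he
          · exact Or.inr (glue_mirror hU.1 hV.1 hU0 hV0 hU.2.1 hV.2.1 (mirror_of_ev hxy he).2)
          · exact Or.inl ⟨le_add_right hU.1,
              place_glue hU.1 hV.1 hU0 hV0 hU.2.1 hV.2.1 hxy,
              hU.2.2.glue hU0 hV0 hV.2.2 hxy he⟩)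
      exact no_state M hmin l 0 c hPl hPot hc hv
    · push Not at hdist
      have hlen : ∀ j l, OneFace w j l → 1 ≤ j ∧ 2 ≤ l.length := fun j l h =>
        ⟨h.1.ge, by rw [h.length]; exact hL⟩
      obtain ⟨l, c, hl, hc, hv⟩ := hexp (OneFace w) hlen (fun j A B h => h.rot)
        (fun a => ⟨rfl, place_face a, a, rfl⟩)
        (fun j l h => h.1 ▸ place_val le_rfl (fun hl => by subst hl; simpa using (hlen _ _ h).2) h.2.1)
        (by
          intro i' j' y x h₁ h₂ U V hU hV hxy
          have hU0 : U ≠ [] := fun h => by subst h; simpa using (hlen _ _ hU).2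
          have hV0 : V ≠ [] := fun h => by subst h; simpa using (hlen _ _ hV).2
          have hlet : (w.c y.1).1 = (w.c x.1).1 := by
            obtain ⟨i, σ⟩ := x
            obtain ⟨j, τ⟩ := y
            have := congrArg Prod.fst hxy
            cases σ <;> cases τ <;> simpa [CWord.lab, Letter.rev] using this.symm
          obtain ⟨rfl, hPU, -⟩ := hU
          obtain ⟨rfl, hPV, -⟩ := hV
          exact Or.inr (glue_mirror le_rfl le_rfl hU0 hV0 hPU hPV
            (mirror_of_ev hxy (hdist _ _ hlet)).2))
      obtain rfl : k = 1 := hl.1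
      exact no_oneFace hred hl c hv

/-- **One-equation theorem.** Over a left-ordered group, an element of `G * F(ι)` that is not
conjugate to a coefficient normally generates a subgroup meeting `G` trivially. -/
theorem not_mem_normalClosure [LinearOrder G] [MulLeftStrictMono G] (w : FP G ι)
    (hw : ∀ u g, u * w * u⁻¹ ≠ Coprod.inl g) (g : G) (hg : g ≠ 1) :
    Coprod.inl g ∉ Subgroup.normalClosure {w} := by
  classical
  intro hmem
  obtain ⟨k, hk⟩ := InProd.exists_of_mem hmem
  obtain ⟨C, hC⟩ := exists_finset_inProd hk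
  obtain ⟨D, hD⟩ := exists_finset_range w
  let K : Subgroup G := Subgroup.closure ((C ∪ D ∪ {g} : Finset G) : Set G)
  have hsub : ∀ s, s ∈ C ∪ D ∪ {g} → s ∈ K := fun s hs => Subgroup.subset_closure hs
  have : Countable K := countable_closure _
  have : MulLeftStrictMono K := ⟨fun c a b h => by
    show (c : G) * (a : G) < (c : G) * (b : G)
    exact mul_lt_mul_right (show (a : G) < (b : G) from h) _⟩
  let down : FP K ι →* FP G ι := Coprod.map K.subtype (MonoidHom.id (FreeGroup ι))
  have hinj : Function.Injective down := map_injective K.subtype Subtype.val_injective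
  obtain ⟨w', hw'⟩ := hD K (fun s hs => hsub s (by
    simp only [Finset.mem_coe] at hs; simp [hs]))
  obtain ⟨x', hx', hp⟩ := hC K (fun s hs => hsub s (by
    simp only [Finset.mem_coe] at hs; simp [hs])) w' hw'
  have hgK : g ∈ K := hsub g (by simp)
  obtain rfl : x' = Coprod.inl ⟨g, hgK⟩ := hinj (by
    show Coprod.map K.subtype (MonoidHom.id (FreeGroup ι)) x' = _
    rw [hx']; simp [down])
  have hw2 : ∀ u (h : K), u * w' * u⁻¹ ≠ Coprod.inl h := fun u h he => hw (down u) (h : G) (by
    rw [← hw']
    show down u * down w' * (down u)⁻¹ = _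
    rw [← map_inv, ← map_mul, ← map_mul, he]
    simp [down])
  obtain ⟨W, hWred, c, hWv⟩ := exists_cword w' hw2
  have hconv : ∀ {n : ℕ} {x : FP K ι}, InProd w' n x → InProd W.val n x := by
    intro n x h
    have hv' : w' = c⁻¹ * W.val * c := by rw [hWv]; group
    induction h with
    | one n => exact InProd.one _
    | @pos n x u _ ih =>
      have := ih.pos (u * c⁻¹)
      convert this using 1
      rw [hv']; group
    | @neg n x u _ ih =>
      have := ih.neg (u * c⁻¹)
      convert this using 1
      rw [hv']; group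
  exact not_inProd_of_countable W hWred k ⟨g, hgK⟩ (fun h => hg (Subtype.ext_iff.1 h)) (hconv hp)

end

end Vale.Agent.P174
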