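import Vale.Agent.P174.Coef

/-!
The notions used in the statement about equations over groups.
-/

namespace Vale.Agent.P174

open Monoid

/-- `w` is conjugate in `G * F(ι)` to an element of `G`. -/
def ConjToCoeff {G ι : Type} [Group G] (w : Coprod G (FreeGroup ι)) : Prop :=
  ∃ (u : Coprod G (FreeGroup ι)) (g : G), u * w * u⁻¹ = Coprod.inl g

/-- `G` embeds in the quotient of `G * F(ι)` by the normal closure of `w`. -/
def EmbedsModulo {G ι : Type} [Group G] (w : Coprod G (FreeGroup ι)) : Prop :=
  Function.Injective
    ((QuotientGroup.mk' (Subgroup.normalClosure {w})).comp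
      (Coprod.inl : G →* Coprod G (FreeGroup ι)))

/-- The system `w` is solvable over `G`: some overgroup has values of the unknowns at which every
word evaluates to `1`. -/
def SolvableOver {G : Type} [Group G] {m n : ℕ} (w : Fin m → Coprod G (FreeGroup (Fin n))) :
    Prop :=
  ∃ (K : Type) (_ : Group K) (φ : G →* K) (x : Fin n → K),
    Function.Injective φ ∧ ∀ i, Coprod.lift φ (FreeGroup.lift x) (w i) = 1

/-- The exponent-sum matrix has rank `m` over the rationals. -/
def Nonsingular {G : Type} [Group G] {m n : ℕ} (w : Fin m → Coprod G (FreeGroup (Fin n))) :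
    Prop :=
  ((expMatrix w).map (Int.cast : ℤ → ℚ)).rank = m

/-- Every equation `w i` has nonzero exponent sum in an unknown `x (p i)` which occurs in no other
equation: the words are written in `G` and the unknowns that are private to no other equation. -/
def PrivateUnknowns {G : Type} [Group G] {m n : ℕ} (w : Fin m → Coprod G (FreeGroup (Fin n))) :
    Prop :=
  ∃ p : Fin m → Fin n, Function.Injective p ∧
    (∀ i, w i ∈ supported {k | k ∈ Set.range p → k = p i}) ∧
    ∀ i, expMatrix w i (p i) ≠ 0

/-- The system over `G` with the same words as a system over the subgroup `G₀`. -/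
def overGroup {G : Type} [Group G] (G₀ : Subgroup G) {m n : ℕ}
    (w : Fin m → Coprod G₀ (FreeGroup (Fin n))) : Fin m → Coprod G (FreeGroup (Fin n)) :=
  fun i => Coprod.map G₀.subtype (MonoidHom.id (FreeGroup (Fin n))) (w i)

end Vale.Agent.P174
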