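import Vale.Agent.P174.States

/-!
The index count.

Every open edge of a state carries an unknown sign (the neighbour lies higher or lower), every
corner a lower bound `ν` for its sign changes. Closing a vertex costs two changes, as monotone maps
cannot push all positions the same way around a relation, and every face costs two changes between
its bottom and its top edge. This contradicts the Euler count of a sphere.
-/

namespace Vale.Agent.P174

open Monoid

noncomputable section

variable {G : Type*} [Group G] {ι : Type*} {w : CWord G ι} (S : Stacking w)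

namespace Stacking

/-- The point reached after the letter of index `i`. -/
def mid (i : ℤ) : S.X := S.act (letter (w.c i)) (S.x i)

/-- The edge point of index `i`. -/
def ev (i : ℤ) : S.X := edgePoint (w.c i) (S.x i) (S.mid i)

/-- The point to the right of a label. -/
def rp (a : Lab) : S.X := if a.2 then S.x a.1 else S.mid a.1

/-- The point to the left of a label. -/
def lp (a : Lab) : S.X := if a.2 then S.mid a.1 else S.x a.1

theorem mid_per (i : ℤ) : S.mid (i + w.len) = S.mid i := by simp [mid, w.c_per, S.x_per]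

theorem ev_per (i : ℤ) : S.ev (i + w.len) = S.ev i := by simp [ev, mid_per, w.c_per, S.x_per]

/-- The coefficient to the right of a label carries the next left point to the right point. -/
theorem act_cor (a : Lab) : S.act (Coprod.inl (w.cor a)) (S.lp (nextLab a)) = S.rp a := by
  obtain ⟨i, σ⟩ := a
  cases σ
  · simp only [CWord.cor, nextLab, lp, rp, Bool.false_eq_true, if_false, S.x_step, mid]
    rw [← RelIso.mul_apply, ← map_mul, ← map_mul, inv_mul_cancel, map_one, map_one,
      RelIso.one_apply]
  · have := S.x_step (i - 1)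
    rw [sub_add_cancel] at this
    simp only [CWord.cor, nextLab, lp, rp, if_true, mid]
    exact this.symm

theorem lp_eq (a : Lab) : S.act (letter (w.lab a)) (S.rp a) = S.lp a := by
  obtain ⟨i, σ⟩ := a
  cases σ
  · simp only [CWord.lab, lp, rp, mid, Bool.false_eq_true, if_false, letter_rev]
    rw [← RelIso.mul_apply, ← map_mul, inv_mul_cancel, map_one, RelIso.one_apply]
  · simp [CWord.lab, lp, rp, mid]

theorem ev_eq (a : Lab) : S.ev a.1 = edgePoint (w.lab a) (S.rp a) (S.lp a) := by
  obtain ⟨i, σ⟩ := a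
  rcases hi : w.c i with ⟨t, e⟩
  cases σ <;> cases e <;> simp [CWord.lab, Letter.rev, lp, rp, ev, edgePoint, hi]

theorem strict_of_ev {a b : Lab} (hab : w.lab b = (w.lab a).rev) (h : S.ev a.1 < S.ev b.1) :
    S.lp a < S.rp b ∧ S.rp a < S.lp b := by
  have ha := S.lp_eq a
  have hb := S.lp_eq b
  rw [S.ev_eq a, S.ev_eq b, hab] at h
  rw [hab] at hb
  rcases hl : w.lab a with ⟨t, e⟩
  rw [hl] at ha hb h
  cases e
  · simp only [Letter.rev, edgePoint, Bool.not_false, Bool.false_eq_true, if_false, if_true] at h hb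
    refine ⟨h, ?_⟩
    have h2 := (S.act (letter ((t, true) : Letter ι))).strictMono h
    rw [hb] at h2
    refine lt_of_eq_of_lt ?_ h2
    rw [← ha, ← RelIso.mul_apply, ← map_mul, letter_true, letter_false, mul_inv_cancel, map_one,
      RelIso.one_apply]
  · simp only [Letter.rev, edgePoint, Bool.not_true, Bool.false_eq_true, if_false, if_true] at h hb
    refine ⟨?_, h⟩
    have h2 := (S.act (letter ((t, true) : Letter ι))).strictMono h
    rw [ha] at h2
    refine lt_of_lt_of_eq h2 ?_
    rw [← hb, ← RelIso.mul_apply, ← map_mul, letter_true, letter_false, mul_inv_cancel, map_one,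
      RelIso.one_apply]

end Stacking

/-- The chosen top and bottom occurrences of a letter. -/
structure Marks where
  i₀ : ℤ
  j₀ : ℤ
  t : ι
  ht₀ : (w.c i₀).1 = t
  htj : (w.c j₀).1 = t
  top : ∀ i, (w.c i).1 = t → S.ev i ≤ S.ev i₀
  bottom : ∀ i, (w.c i).1 = t → S.ev j₀ ≤ S.ev i
  lt : S.ev j₀ < S.ev i₀

variable {S} (M : Marks S)

namespace Marks

/-- The bottom occurrence, up to periods. -/
def IsBot (i : ℤ) : Prop := (i - M.j₀) % (w.len : ℤ) = 0

instance (i : ℤ) : Decidable (M.IsBot i) := inferInstanceAs (Decidable (_ = _))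

/-- The arc indicator at a coefficient. -/
def kap (n : ℤ) : ℤ :=
  if (n - M.i₀) % (w.len : ℤ) < (M.j₀ - M.i₀) % (w.len : ℤ) then 1 else -1

/-- The weight of an index. -/
def coef (i : ℤ) : ℤ := M.kap (i - 1) - M.kap i

/-- The weight of a signed label. -/
def wt (a : Lab) (s : Bool) : ℤ :=
  (if s then M.coef a.1 else 0) - if M.IsBot a.1 then 2 else 0

theorem same_of_emod {i j : ℤ} (h : (i - j) % (w.len : ℤ) = 0) :
    w.c i = w.c j ∧ S.ev i = S.ev j := by
  have hp : Function.Periodic (fun i => (w.c i, S.ev i)) (w.len : ℤ) :=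
    fun i => by simp [w.c_per, S.ev_per]
  obtain ⟨k, hk⟩ := Int.dvd_of_emod_eq_zero h
  have : (w.c (j + k * (w.len : ℤ)), S.ev (j + k * (w.len : ℤ))) = (w.c j, S.ev j) :=
    hp.int_mul k j
  rw [show j + k * (w.len : ℤ) = i by rw [← mul_comm (w.len : ℤ) k, ← hk]; ring] at this
  exact Prod.mk.inj this

theorem coef_cases (i : ℤ) :
    (M.IsBot i ∧ M.coef i = 2) ∨
      (¬ M.IsBot i ∧ (i - M.i₀) % (w.len : ℤ) = 0 ∧ M.coef i = -2) ∨
      (¬ M.IsBot i ∧ M.coef i = 0) := by
  have hL : (0 : ℤ) < w.len := by exact_mod_cast w.len_pos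
  have hd : (M.j₀ - M.i₀) % (w.len : ℤ) ≠ 0 := fun h => M.lt.ne (same_of_emod h).2
  have hd0 := Int.emod_nonneg (M.j₀ - M.i₀) hL.ne'
  have hd1 := Int.emod_lt_of_pos (M.j₀ - M.i₀) hL
  have hp0 := Int.emod_nonneg (i - M.i₀) hL.ne'
  have hp1 := Int.emod_lt_of_pos (i - M.i₀) hL
  have hbot : M.IsBot i ↔ (i - M.i₀) % (w.len : ℤ) = (M.j₀ - M.i₀) % (w.len : ℤ) := by
    rw [Int.emod_eq_emod_iff_emod_sub_eq_zero, IsBot, sub_sub_sub_cancel_right]
  have hprev : (i - 1 - M.i₀) % (w.len : ℤ) =
      if (i - M.i₀) % (w.len : ℤ) = 0 then (w.len : ℤ) - 1 else (i - M.i₀) % (w.len : ℤ) - 1 := by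
    rw [show i - 1 - M.i₀ = i - M.i₀ - 1 by ring, ← Int.emod_sub_emod]
    split_ifs with h
    · rw [h, zero_sub, ← Int.add_emod_right]
      exact Int.emod_eq_of_lt (by omega) (by omega) |>.trans (by ring)
    · exact Int.emod_eq_of_lt (by omega) (by omega)
  simp only [coef, kap, hbot]
  by_cases h0 : (i - M.i₀) % (w.len : ℤ) = 0
  · rw [if_pos h0] at hprev
    simp only [hprev]
    split_ifs <;> omega
  · rw [if_neg h0] at hprev
    simp only [hprev]
    split_ifs <;> omega

theorem wt_glue {a b : Lab} (hab : w.lab b = (w.lab a).rev) (hne : S.ev a.1 ≠ S.ev b.1) :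
    M.wt a (decide (S.ev a.1 < S.ev b.1)) = 0 := by
  have hl : (w.c b.1).1 = (w.c a.1).1 := by
    obtain ⟨i, σ⟩ := a
    obtain ⟨j, τ⟩ := b
    have := congrArg Prod.fst hab
    cases σ <;> cases τ <;> simpa [CWord.lab, Letter.rev] using this
  rcases M.coef_cases a.1 with ⟨hb, hc⟩ | ⟨hb, h0, hc⟩ | ⟨hb, hc⟩
  · obtain ⟨hcc, he⟩ := same_of_emod (S := S) hb
    have hle : S.ev a.1 ≤ S.ev b.1 := by
      rw [he]; exact M.bottom _ (by rw [hl, hcc, M.htj])
    simp [wt, hb, hc, lt_of_le_of_ne hle hne]
  · obtain ⟨hcc, he⟩ := same_of_emod (S := S) h0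
    have hle : S.ev b.1 ≤ S.ev a.1 := by
      rw [he]; exact M.top _ (by rw [hl, hcc, M.ht₀])
    simp [wt, hb, not_lt.2 hle]
  · simp [wt, hb, hc]

/-- The arc indicator to the right of a label in its face. -/
def kr (a : Lab) : ℤ := if a.2 then M.kap (a.1 - 1) else -M.kap a.1

/-- The arc indicator to the left of a label in its face. -/
def kl (a : Lab) : ℤ := if a.2 then M.kap a.1 else -M.kap (a.1 - 1)

theorem kl_next (a : Lab) : M.kl (nextLab a) = M.kr a := by
  obtain ⟨i, σ⟩ := a
  cases σ <;> simp [kl, kr, nextLab]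

theorem coef_eq (a : Lab) : M.coef a.1 = M.kr a - M.kl a := by
  obtain ⟨i, σ⟩ := a
  cases σ <;> simp [coef, kr, kl] <;> ring

theorem kap_cases (n : ℤ) : M.kap n = 1 ∨ M.kap n = -1 := by
  unfold kap; split_ifs <;> simp

theorem kr_cases (a : Lab) : M.kr a = 1 ∨ M.kr a = -1 := by
  unfold kr; rcases M.kap_cases (a.1 - 1) with h | h <;> rcases M.kap_cases a.1 with h' | h' <;>
    split_ifs <;> simp [*]

end Marks

/-- The sign bound of a corner: few changes force a monotone transport in the signed direction. -/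
def CornerOK (a : Lab) (h : G) (b : Lab) (ν : Bool → Bool → ℤ) : Prop :=
  ∀ sa sb, 0 ≤ ν sa sb ∧ (sa = sb → 1 ≤ ν sa sb) ∧
    (sa ≠ sb → ν sa sb ≤ 1 →
      if sa then S.act (Coprod.inl h) (S.lp b) ≤ S.rp a
      else S.rp a ≤ S.act (Coprod.inl h) (S.lp b))

omit M in
/-- Two corners joined at a glued edge. -/
theorem CornerOK.merge {a y x b : Lab} {h h' : G} {ν ν' : Bool → Bool → ℤ}
    (h1 : CornerOK (S := S) a h y ν) (h2 : CornerOK (S := S) x h' b ν')
    (hxy : w.lab x = (w.lab y).rev) (hne : S.ev y.1 ≠ S.ev x.1) :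
    CornerOK (S := S) a (h * h') b
      (fun s q => ν s (decide (S.ev y.1 < S.ev x.1)) + ν' (!decide (S.ev y.1 < S.ev x.1)) q) := by
  intro sa sb
  have hyx : w.lab y = (w.lab x).rev := by rw [hxy, Letter.rev_rev]
  obtain ⟨p0, p1, p2⟩ := h1 sa (decide (S.ev y.1 < S.ev x.1))
  obtain ⟨q0, q1, q2⟩ := h2 (!decide (S.ev y.1 < S.ev x.1)) sb
  beta_reduce
  refine ⟨by omega, ?_, ?_⟩
  · rintro rfl
    generalize decide (S.ev y.1 < S.ev x.1) = sy at p0 p1 q0 q1 ⊢
    cases sa <;> cases sy <;> simp only [Bool.not_true, Bool.not_false, reduceCtorEq,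
      false_implies, true_implies] at p1 q1 p0 q0 ⊢ <;> omega
  · intro hsab hν
    have hact : ∀ p, S.act (Coprod.inl (h * h')) p =
        S.act (Coprod.inl h) (S.act (Coprod.inl h') p) :=
      fun p => by rw [map_mul, map_mul, RelIso.mul_apply]
    rcases hne.lt_or_gt with hlt | hgt
    · have hs := (S.strict_of_ev hxy hlt).1
      rw [decide_eq_true hlt] at p0 p1 p2 q0 q1 q2 hν
      cases sa <;> cases sb <;> simp only [reduceCtorEq, if_true, if_false, Bool.false_eq_true,
        Bool.not_true, ne_eq, not_false_eq_true, not_true, false_implies, true_implies] at *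
      · have e1 := p2 (by omega)
        have e2 := q2 (by omega)
        rw [hact]
        exact e1.trans ((S.act (Coprod.inl h)).monotone (hs.le.trans e2))
      · omega
    · have hs := (S.strict_of_ev hyx hgt).2
      rw [decide_eq_false (not_lt.2 hgt.le)] at p0 p1 p2 q0 q1 q2 hν
      cases sa <;> cases sb <;> simp only [reduceCtorEq, if_true, if_false, Bool.false_eq_true,
        Bool.not_false, ne_eq, not_false_eq_true, not_true, false_implies, true_implies] at *
      · omega
      · have e1 := p2 (by omega)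
        have e2 := q2 (by omega)
        rw [hact]
        exact ((S.act (Coprod.inl h)).monotone (e2.trans hs.le)).trans e1

omit M in
/-- A vertex with trivial product has at least two sign changes. -/
theorem CornerOK.closed {a b : Lab} {ν : Bool → Bool → ℤ}
    (h : CornerOK (S := S) a 1 b ν) (hab : w.lab b = (w.lab a).rev) (hne : S.ev a.1 ≠ S.ev b.1) :
    2 ≤ ν (decide (S.ev a.1 < S.ev b.1)) (!decide (S.ev a.1 < S.ev b.1)) := by
  by_contra hcon
  obtain ⟨-, -, p2⟩ := h (decide (S.ev a.1 < S.ev b.1)) (!decide (S.ev a.1 < S.ev b.1))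
  have := p2 (by simp) (by omega)
  rw [map_one, map_one, RelIso.one_apply] at this
  rcases hne.lt_or_gt with hlt | hgt
  · rw [decide_eq_true hlt, if_pos rfl] at this
    exact absurd this (not_le.2 (S.strict_of_ev hab hlt).2)
  · rw [decide_eq_false (not_lt.2 hgt.le), if_neg (by simp)] at this
    have hba : w.lab a = (w.lab b).rev := by rw [hab, Letter.rev_rev]
    exact absurd this (not_le.2 (S.strict_of_ev hba hgt).1)

/-- The first value of a list, or a default. -/
def fb {α β : Type*} (f : α → β) : List α → β → β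
  | [], d => d
  | p :: _, _ => f p

@[simp] theorem fb_nil {α β : Type*} (f : α → β) (d : β) : fb f [] d = d := rfl

@[simp] theorem fb_cons {α β : Type*} (f : α → β) (p : α) (r : List α) (d : β) :
    fb f (p :: r) d = f p := rfl

theorem fb_append {α β : Type*} (f : α → β) (l l' : List α) (d : β) :
    fb f (l ++ l') d = fb f l (fb f l' d) := by
  cases l <;> rfl

theorem fb_map {α β γ : Type*} (f : β → γ) (g : α → β) (l : List α) (d : γ) :
    fb f (l.map g) d = fb (fun p => f (g p)) l d := by
  cases l <;> rfl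

theorem fb_of_ne {α β : Type*} (f : α → β) {l : List α} (h : l ≠ []) (d d' : β) :
    fb f l d = fb f l d' := by
  cases l with
  | nil => exact absurd rfl h
  | cons p r => rfl

/-- The label of an item. -/
def itemLab (p : Item G) : Lab := p.1.1

/-- Every corner of a list satisfies its bound, the last one towards `d`. -/
def Linked (S : Stacking w) : List (Item G) → Lab → Prop
  | [], _ => True
  | p :: r, d => CornerOK (S := S) p.1.1 p.1.2 (fb itemLab r d) p.2 ∧ Linked S r d

theorem linked_append {l l' : List (Item G)} {d : Lab} :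
    Linked S (l ++ l') d ↔ Linked S l (fb itemLab l' d) ∧ Linked S l' d := by
  induction l with
  | nil => simp [Linked]
  | cons p r ih => simp [Linked, ih, fb_append, and_assoc]

/-- The linear weight of signed items, the last one towards the sign `d`. -/
def wl : List (Item G × Bool) → Bool → ℤ
  | [], _ => 0
  | p :: r, d => p.1.2 p.2 (fb Prod.snd r d) + M.wt p.1.1.1 p.2 + wl r d

theorem wl_append (l l' : List (Item G × Bool)) (d : Bool) :
    wl M (l ++ l') d = wl M l (fb Prod.snd l' d) + wl M l' d := by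
  induction l with
  | nil => simp [wl]
  | cons p r ih =>
    simp only [List.cons_append, wl, ih, fb_append]
    ring

/-- The index count of a state with `k` faces and `q` closed vertices. -/
structure Pot (k q : ℕ) (l : List (Lab × G)) : Prop where
  len : l.length + 2 * k + 2 * q = k * w.len + 2
  count : ∃ (K : ℤ) (e : List (Item G)), e.map Prod.fst = l ∧ 2 * (q : ℤ) ≤ K ∧
    Linked S e (fb itemLab e (0, true)) ∧
    ∀ es : List (Item G × Bool), es.map Prod.fst = e →
      K + wl M es (fb Prod.snd es true) + 2 * k = k * w.len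

variable {M}

theorem Pot.rot {k q : ℕ} {l l' : List (Lab × G)} (h : Pot M k q l) (hl : l' ~r l) :
    Pot M k q l' := by
  obtain ⟨n, hn, rfl⟩ := List.isRotated_iff_mod.1 hl.symm
  refine ⟨by simpa using h.len, ?_⟩
  obtain ⟨K, e, he, hK, hlink, hsum⟩ := h.count
  have hn' : n ≤ e.length := by rw [← he] at hn; simpa using hn
  refine ⟨K, e.rotate n, by rw [List.map_rotate, he], hK, ?_, ?_⟩
  · rw [List.rotate_eq_drop_append_take hn']
    rw [← List.take_append_drop n e] at hlink
    rcases eq_or_ne (e.take n) [] with h1 | h1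
    · simpa [h1] using hlink
    rcases eq_or_ne (e.drop n) [] with h2 | h2
    · simpa [h2] using hlink
    rw [linked_append] at hlink ⊢
    simp only [fb_append] at hlink ⊢
    rw [fb_of_ne _ h1 _ (0, true)] at hlink
    rw [fb_of_ne _ h2 (fb itemLab (e.take n) (0, true)) (0, true)]
    rw [fb_of_ne _ h1 (fb itemLab (e.drop n) (0, true)) (0, true)]
    rw [fb_of_ne _ h2 (fb itemLab (e.take n) (0, true)) (0, true)] at hlink
    exact ⟨hlink.2, hlink.1⟩
  · intro es hes
    rw [List.rotate_eq_drop_append_take hn', List.map_eq_append_iff] at hes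
    obtain ⟨es1, es2, rfl, h1, h2⟩ := hes
    have := hsum (es2 ++ es1) (by rw [List.map_append, h1, h2, List.take_append_drop])
    rw [wl_append] at this ⊢
    rcases eq_or_ne es1 [] with ha | ha
    · simpa [ha, wl] using this
    rcases eq_or_ne es2 [] with hb | hb
    · simpa [hb, wl] using this
    simp only [fb_append] at this ⊢
    rw [fb_of_ne _ ha (fb Prod.snd es2 true) true]
    rw [fb_of_ne _ hb (fb Prod.snd es1 true) true] at this
    rw [fb_of_ne _ hb (fb Prod.snd es1 true) true]
    rw [fb_of_ne _ ha (fb Prod.snd es2 true) true] at this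
    linarith

/-- The items of a face. -/
def faceItems (M : Marks S) : Lab → ℕ → List (Item G)
  | _, 0 => []
  | a, n + 1 =>
    ((a, w.cor a), fun s q => 1 - M.kr a * ((if s then 1 else 0) - (if q then 1 else 0))) ::
      faceItems M (nextLab a) n

theorem faceItems_map (a : Lab) (n : ℕ) : (faceItems M a n).map Prod.fst = faceList w a n := by
  induction n generalizing a with
  | zero => rfl
  | succ n ih => simp [faceItems, faceList, ih]

theorem fb_faceItems (a : Lab) (n : ℕ) (d : Lab) :
    fb itemLab (faceItems M a n) d = if n = 0 then d else a := by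
  cases n <;> simp [faceItems, itemLab]

theorem kap_per (i : ℤ) : M.kap (i + w.len) = M.kap i := by
  simp [Marks.kap, show i + (w.len : ℤ) - M.i₀ = i - M.i₀ + w.len by ring]

/-- A full face satisfies the count. -/
theorem pot_face (a : Lab) : Pot M 1 0 (faceList w a w.len) := by
  refine ⟨by simp [faceList_length], 0, faceItems M a w.len, faceItems_map a _, by simp,
    ?_, ?_⟩
  · have hgen : ∀ (n : ℕ) (a : Lab) (d : Lab), S.lp d = S.lp (stepLab a n) →
        Linked S (faceItems M a n) d := by
      intro n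
      induction n with
      | zero => intros; trivial
      | succ n ih =>
        intro a d hd
        refine ⟨?_, ih _ _ (by rw [hd, stepLab_next]; push_cast; rw [add_comm])⟩
        have hnext : S.lp (fb itemLab (faceItems M (nextLab a) n) d) = S.lp (nextLab a) := by
          rw [fb_faceItems]
          split_ifs with h
          · subst h
            rw [hd]
            obtain ⟨i, σ⟩ := a
            cases σ <;> simp [stepLab, nextLab]
          · rfl
        intro sa sb
        have hk := M.kr_cases a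
        refine ⟨?_, ?_, ?_⟩
        · rcases hk with h | h <;> cases sa <;> cases sb <;> simp [h]
        · rintro rfl; simp
        · intro _ _
          show if sa then S.act (Coprod.inl (w.cor a)) (S.lp _) ≤ S.rp a
            else S.rp a ≤ S.act (Coprod.inl (w.cor a)) (S.lp _)
          rw [hnext, S.act_cor]
          split_ifs <;> exact le_rfl
    refine hgen _ a _ ?_
    rw [fb_faceItems, if_neg w.len_pos.ne']
    obtain ⟨i, σ⟩ := a
    have h2 : ∀ i, S.mid (i - w.len) = S.mid i := fun i => by
      rw [← S.mid_per (i - w.len), sub_add_cancel]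
    cases σ <;> simp [stepLab, Stacking.lp, S.x_per, h2]
  · intro es hes
    have hgen : ∀ (n : ℕ) (a : Lab) (es : List (Item G × Bool)) (d : Bool),
        es.map Prod.fst = faceItems M a n →
        wl M es d + 2 * (((Finset.range n).filter fun m : ℕ =>
            M.IsBot (stepLab a m).1).card : ℤ) =
          n - M.kl a * (if fb Prod.snd es d then 1 else 0) +
            M.kl (stepLab a n) * (if d then 1 else 0) := by
      intro n
      induction n with
      | zero =>
        intro a es d hes
        obtain rfl : es = [] := by simpa [faceItems] using hes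
        obtain ⟨i, σ⟩ := a
        cases σ <;> cases d <;> simp [wl, stepLab]
      | succ n ih =>
        intro a es d hes
        obtain ⟨⟨p, s⟩, es', rfl, hp, hes'⟩ : ∃ p es', es = p :: es' ∧ _ ∧ _ :=
          List.map_eq_cons_iff.1 hes
        simp only at hp
        subst hp
        have h := ih (nextLab a) es' d hes'
        have hcard : (((Finset.range (n + 1)).filter fun m : ℕ =>
              M.IsBot (stepLab a m).1).card : ℤ) =
            (if M.IsBot a.1 then 1 else 0) + (((Finset.range n).filter fun m : ℕ =>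
              M.IsBot (stepLab (nextLab a) m).1).card : ℤ) := by
          rw [Finset.card_filter, Finset.card_filter, Finset.sum_range_succ']
          push_cast
          have h0 : (stepLab a 0).1 = a.1 := by
            obtain ⟨i, σ⟩ := a; cases σ <;> simp [stepLab]
          simp only [h0, stepLab_next]
          rw [add_comm]
          congr 1
          refine Finset.sum_congr rfl fun m _ => ?_
          rw [add_comm (m : ℤ) 1]
        have hst : stepLab a ((n + 1 : ℕ) : ℤ) = stepLab (nextLab a) n := by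
          rw [stepLab_next]; push_cast; rw [add_comm]
        rw [M.kl_next] at h
        rw [hcard, hst]
        simp only [wl, fb_cons, Marks.wt, M.coef_eq]
        push_cast
        cases s <;> simp only [Bool.false_eq_true, if_false, if_true] <;> split_ifs at h ⊢ <;>
          linarith
    have h := hgen w.len a es (fb Prod.snd es true) hes
    have hne : es ≠ [] := by
      rintro rfl
      have := congrArg List.length hes
      have hlen := congrArg List.length (faceItems_map (M := M) a w.len)
      simp [faceList_length] at this hlen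
      have := w.len_pos
      omega
    rw [fb_of_ne _ hne (fb Prod.snd es true) true] at h
    have hone : ((Finset.range w.len).filter fun m : ℕ => M.IsBot (stepLab a m).1).card = 1 := by
      have hL : (0 : ℤ) < w.len := by exact_mod_cast w.len_pos
      obtain ⟨i, σ⟩ := a
      let m0 : ℤ := if σ then (i - M.j₀) % (w.len : ℤ) else (M.j₀ - i) % (w.len : ℤ)
      have h0 : 0 ≤ m0 := by
        simp only [m0]; split_ifs <;> exact Int.emod_nonneg _ hL.ne'
      have h1 : m0 < w.len := by
        simp only [m0]; split_ifs <;> exact Int.emod_lt_of_pos _ hL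
      have hiff : ∀ m : ℕ, m < w.len → (M.IsBot (stepLab (i, σ) m).1 ↔ (m : ℤ) = m0) := by
        intro m hm
        have hmm : (m : ℤ) % (w.len : ℤ) = m :=
          Int.emod_eq_of_lt (by omega) (by omega)
        cases σ
        · simp only [m0, Bool.false_eq_true, if_false]
          conv_rhs => rw [← hmm, Int.emod_eq_emod_iff_emod_sub_eq_zero]
          simp [Marks.IsBot, stepLab, show i + (m : ℤ) - M.j₀ = m - (M.j₀ - i) by ring]
        · simp only [m0, if_true]
          conv_rhs => rw [← hmm, eq_comm, Int.emod_eq_emod_iff_emod_sub_eq_zero]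
          simp [Marks.IsBot, stepLab, show i - (m : ℤ) - M.j₀ = i - M.j₀ - m by ring]
      refine Finset.card_eq_one.2 ⟨m0.toNat, ?_⟩
      ext m
      simp only [Finset.mem_filter, Finset.mem_range, Finset.mem_singleton]
      constructor
      · rintro ⟨hm, hb⟩
        have := (hiff m hm).1 hb
        omega
      · rintro rfl
        exact ⟨by omega, (hiff _ (by omega)).2 (by omega)⟩
    have hk : M.kl (stepLab a w.len) = M.kl a := by
      obtain ⟨i, σ⟩ := a
      have h2 : ∀ i, M.kap (i - w.len) = M.kap i := fun i => by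
        rw [← kap_per (M := M) (i - w.len), sub_add_cancel]
      cases σ
      · simp [stepLab, Marks.kl, show i + (w.len : ℤ) - 1 = i - 1 + w.len by ring, kap_per]
      · simp [stepLab, Marks.kl, h2]
    rw [hone, hk] at h
    push_cast at h ⊢
    linarith

/-- Glueing two counted states along an edge. -/
theorem Pot.glue {i j p q : ℕ} {U V : List (Lab × G)} {y x : Lab} {h₁ h₂ : G}
    (hU0 : U ≠ []) (hV0 : V ≠ []) (hU : Pot M i p ((y, h₁) :: U)) (hV : Pot M j q ((x, h₂) :: V))
    (hxy : w.lab x = (w.lab y).rev) (hne : S.ev y.1 ≠ S.ev x.1) :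
    Pot M (i + j) (p + q) (adjLast U h₂ ++ adjLast V h₁) := by
  have hyx : w.lab y = (w.lab x).rev := by rw [hxy, Letter.rev_rev]
  refine ⟨?_, ?_⟩
  · have e1 := hU.len
    have e2 := hV.len
    simp only [List.length_cons, List.length_append, length_adjLast] at e1 e2 ⊢
    rw [add_mul]
    omega
  obtain ⟨K, e, he, hK, hlink, hsum⟩ := hU.count
  obtain ⟨K', e', he', hK', hlink', hsum'⟩ := hV.count
  obtain ⟨ey, eU, rfl, hey, heU⟩ := List.map_eq_cons_iff.1 he
  obtain ⟨ex, eV, rfl, hex, heV⟩ := List.map_eq_cons_iff.1 he'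
  obtain ⟨eU0, u, rfl⟩ : ∃ r p, eU = r ++ [p] :=
    ⟨_, _, (List.dropLast_concat_getLast (by rintro rfl; exact hU0 (by simpa using heU.symm))).symm⟩
  obtain ⟨eV0, v, rfl⟩ : ∃ r p, eV = r ++ [p] :=
    ⟨_, _, (List.dropLast_concat_getLast (by rintro rfl; exact hV0 (by simpa using heV.symm))).symm⟩
  obtain ⟨sy, hsy⟩ : ∃ s, s = decide (S.ev y.1 < S.ev x.1) := ⟨_, rfl⟩
  let u' : Item G := ((u.1.1, u.1.2 * h₂), fun s r => u.2 s sy + ex.2 (!sy) r)
  let v' : Item G := ((v.1.1, v.1.2 * h₁), fun s r => v.2 s (!sy) + ey.2 sy r)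
  have sx : decide (S.ev x.1 < S.ev y.1) = !sy := by
    rcases hne.lt_or_gt with h | h <;> simp [hsy, h, not_lt.2 h.le]
  refine ⟨K + K', (eU0 ++ [u']) ++ (eV0 ++ [v']), ?_, by push_cast; linarith, ?_, ?_⟩
  · rw [← heU, ← heV]
    simp [adjLast_concat, u', v']
  · simp only [linked_append, Linked, fb_cons, fb_nil, fb_append, and_true, itemLab] at hlink hlink' ⊢
    rw [hey] at hlink
    rw [hex] at hlink'
    obtain ⟨hy, hU1, hu⟩ := hlink
    obtain ⟨hx, hV1, hv⟩ := hlink'
    have m1 := hu.merge hx hxy hne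
    rw [← hsy] at m1
    have m2 := hv.merge hy hyx hne.symm
    rw [sx, Bool.not_not] at m2
    exact ⟨⟨hU1, m1⟩, hV1, m2⟩
  · intro es hes
    rw [List.map_eq_append_iff] at hes
    obtain ⟨esU, esV, rfl, hesU, hesV⟩ := hes
    rw [List.map_eq_append_iff] at hesU hesV
    obtain ⟨esU0, su, rfl, hesU0, hsu⟩ := hesU
    obtain ⟨esV0, sv, rfl, hesV0, hsv⟩ := hesV
    obtain ⟨⟨_, s⟩, _, rfl, rfl, hnil⟩ := List.map_eq_cons_iff.1 hsu
    obtain rfl := List.map_eq_nil_iff.1 hnil
    obtain ⟨⟨_, t⟩, _, rfl, rfl, hnil⟩ := List.map_eq_cons_iff.1 hsv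
    obtain rfl := List.map_eq_nil_iff.1 hnil
    have h1 := hsum ((ey, sy) :: (esU0 ++ [(u, s)])) (by simp [hesU0])
    have h2 := hsum' ((ex, !sy) :: (esV0 ++ [(v, t)])) (by simp [hesV0])
    simp only [wl, wl_append, fb_cons, fb_nil, fb_append] at h1 h2 ⊢
    rw [hey] at h1
    rw [hex] at h2
    have w1 := M.wt_glue hxy hne
    have w2 := M.wt_glue hyx hne.symm
    rw [sx] at w2
    rw [← hsy] at w1
    simp only at h1 h2
    show K + K' + (wl M esU0 s + (u.2 s sy + ex.2 (!sy) (fb Prod.snd esV0 t) + M.wt u.1.1 s + 0) +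
      (wl M esV0 t + (v.2 t (!sy) + ey.2 sy (fb Prod.snd esU0 s) + M.wt v.1.1 t + 0))) +
      2 * ((i + j : ℕ) : ℤ) = ((i + j : ℕ) : ℤ) * w.len
    push_cast
    linarith

/-- Cancelling an edge inside a counted state. -/
theorem Pot.cancel {k q : ℕ} {a b : Lab} {hb : G} {l : List (Lab × G)} (hl : l ≠ [])
    (hP : Pot M k q ((a, 1) :: (b, hb) :: l)) (hab : w.lab b = (w.lab a).rev)
    (hne : S.ev a.1 ≠ S.ev b.1) : Pot M k (q + 1) (adjLast l hb) := by
  have hba : w.lab a = (w.lab b).rev := by rw [hab, Letter.rev_rev]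
  refine ⟨?_, ?_⟩
  · have e1 := hP.len
    simp only [List.length_cons, length_adjLast] at e1 ⊢
    omega
  obtain ⟨K, e, he, hK, hlink, hsum⟩ := hP.count
  obtain ⟨ea, e1, rfl, hea, he1⟩ := List.map_eq_cons_iff.1 he
  obtain ⟨eb, er, rfl, heb, her⟩ := List.map_eq_cons_iff.1 he1
  obtain ⟨er0, r, rfl⟩ : ∃ r p, er = r ++ [p] :=
    ⟨_, _, (List.dropLast_concat_getLast (by rintro rfl; exact hl (by simpa using her.symm))).symm⟩
  obtain ⟨sa, hsa⟩ : ∃ s, s = decide (S.ev a.1 < S.ev b.1) := ⟨_, rfl⟩
  let r' : Item G := ((r.1.1, r.1.2 * hb), fun s p => r.2 s sa + eb.2 (!sa) p)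
  simp only [linked_append, Linked, fb_cons, fb_nil, fb_append, and_true, itemLab] at hlink
  rw [hea, heb] at hlink
  obtain ⟨hA, hB, hR0, hR⟩ := hlink
  have m := hR.merge hB hab hne
  have hclosed := hA.closed hab hne
  rw [← hsa] at m hclosed
  refine ⟨K + ea.2 sa (!sa), er0 ++ [r'], ?_, by push_cast; linarith, ?_, ?_⟩
  · rw [← her]
    simp [adjLast_concat, r']
  · simp only [linked_append, Linked, fb_cons, fb_nil, fb_append, and_true]
    exact ⟨hR0, m⟩
  · intro es hes
    rw [List.map_eq_append_iff] at hes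
    obtain ⟨es0, sr, rfl, hes0, hsr⟩ := hes
    obtain ⟨⟨_, s⟩, _, rfl, rfl, hnil⟩ := List.map_eq_cons_iff.1 hsr
    obtain rfl := List.map_eq_nil_iff.1 hnil
    have h1 := hsum ((ea, sa) :: (eb, !sa) :: (es0 ++ [(r, s)])) (by simp [hes0])
    simp only [wl, wl_append, fb_cons, fb_nil, fb_append] at h1 ⊢
    rw [hea, heb] at h1
    have sb : decide (S.ev b.1 < S.ev a.1) = !sa := by
      rcases hne.lt_or_gt with h | h <;> simp [hsa, h, not_lt.2 h.le]
    have w1 := M.wt_glue hab hne
    have w2 := M.wt_glue hba hne.symm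
    rw [sb] at w2
    rw [← hsa] at w1
    simp only at h1
    show K + ea.2 sa (!sa) + (wl M es0 s + (r.2 s sa + eb.2 (!sa) (fb Prod.snd es0 s) +
      M.wt r.1.1 s + 0)) + 2 * (k : ℤ) = k * w.len
    linarith

/-- A counted sphere is impossible. -/
theorem Pot.not_final {k q : ℕ} {a b : Lab} {h' : G} (hab : w.lab b = (w.lab a).rev)
    (hne : S.ev a.1 ≠ S.ev b.1) (hP : Pot M k q [(a, 1), (b, h')]) : False := by
  have hba : w.lab a = (w.lab b).rev := by rw [hab, Letter.rev_rev]
  obtain ⟨K, e, he, hK, hlink, hsum⟩ := hP.count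
  obtain ⟨ea, e1, rfl, hea, he1⟩ := List.map_eq_cons_iff.1 he
  obtain ⟨eb, er, rfl, heb, her⟩ := List.map_eq_cons_iff.1 he1
  obtain rfl := List.map_eq_nil_iff.1 her
  simp only [Linked, fb_cons, fb_nil, and_true, itemLab, hea, heb] at hlink
  obtain ⟨sa, hsa⟩ : ∃ s, s = decide (S.ev a.1 < S.ev b.1) := ⟨_, rfl⟩
  have sb : decide (S.ev b.1 < S.ev a.1) = !sa := by
    rcases hne.lt_or_gt with h | h <;> simp [hsa, h, not_lt.2 h.le]
  have hclosed := hlink.1.closed hab hne
  rw [← hsa] at hclosed
  have h0 := (hlink.2 (!sa) sa).1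
  have h1 := hsum [(ea, sa), (eb, !sa)] rfl
  simp only [wl, fb_cons, fb_nil, hea, heb] at h1
  have w1 := M.wt_glue hab hne
  have w2 := M.wt_glue hba hne.symm
  rw [sb] at w2
  rw [← hsa] at w1
  rw [w1, w2] at h1
  have hl := hP.len
  simp only [List.length_cons, List.length_nil] at hl
  have hl' : (2 : ℤ) * k + 2 * q = k * w.len := by exact_mod_cast (by omega : 2 * k + 2 * q = k * w.len)
  linarith

end

end Vale.Agent.P174
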