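import Mathlib

/-!
Systems of equations in which every equation has a private unknown reduce, by amalgamation,
to a one-relator Freiheitssatz.
-/

namespace Vale.P174.Private

open Monoid

variable {G : Type} [Group G] {α ι : Type}

/-- The relative free group `G * F(X)`. -/
abbrev Rel (G : Type) [Group G] (X : Type) := Coprod G (FreeGroup X)

/-- Inclusion of the shared part into the group of one equation. -/
def shared : Rel G α →* Rel G (α ⊕ Unit) := Coprod.map (MonoidHom.id G) (FreeGroup.map Sum.inl)

/-- The `i`-th one-equation group inside the group of the whole system. -/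
def piece (i : ι) : Rel G (α ⊕ Unit) →* Rel G (α ⊕ ι) :=
  Coprod.map (MonoidHom.id G) (FreeGroup.map (Sum.map id fun _ => i))

/-- The Freiheitssatz for the shared subgroup in one equation. -/
def Frei (r : Rel G (α ⊕ Unit)) : Prop :=
  Function.Injective ((QuotientGroup.mk' (Subgroup.normalClosure {r})).comp (shared (α := α)))

theorem system_injective [Nonempty ι] (r : ι → Rel G (α ⊕ Unit)) (hr : ∀ i, Frei (r i)) :
    Function.Injective
      ((QuotientGroup.mk' (Subgroup.normalClosure (Set.range fun i => piece i (r i)))).comp
        (Coprod.inl : G →* Rel G (α ⊕ ι))) := by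
  let P : ι → Type := fun i => Rel G (α ⊕ Unit) ⧸ Subgroup.normalClosure {r i}
  let ψ : ∀ i, Rel G α →* P i := fun i =>
    (QuotientGroup.mk' (Subgroup.normalClosure {r i})).comp (shared (α := α))
  let priv : ι → PushoutI ψ := fun i =>
    PushoutI.of (φ := ψ) i (QuotientGroup.mk (Coprod.inr (FreeGroup.of (Sum.inr ()))))
  let sol : Rel G (α ⊕ ι) →* PushoutI ψ :=
    Coprod.lift ((PushoutI.base ψ).comp Coprod.inl)
      (FreeGroup.lift (Sum.elim (fun a => PushoutI.base ψ (Coprod.inr (FreeGroup.of a))) priv))
  have hcomp : ∀ i, sol.comp (piece i) =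
      (PushoutI.of (φ := ψ) i).comp (QuotientGroup.mk' (Subgroup.normalClosure {r i})) := by
    intro i
    refine Coprod.hom_ext ?_ ?_
    · ext g
      simp only [MonoidHom.comp_apply, piece, Coprod.map_apply_inl, MonoidHom.id_apply, sol,
        Coprod.lift_apply_inl]
      rw [← PushoutI.of_apply_eq_base ψ i]
      simp [ψ, shared]
      rfl
    · refine FreeGroup.ext_hom _ _ fun a => ?_
      simp only [MonoidHom.comp_apply, piece, Coprod.map_apply_inr, sol, Coprod.lift_apply_inr,
        FreeGroup.map.of, FreeGroup.lift_apply_of]
      cases a with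
      | inl a =>
        simp only [Sum.map_inl, id_eq, Sum.elim_inl]
        rw [← PushoutI.of_apply_eq_base ψ i]
        simp [ψ, shared]
        rfl
      | inr u => rfl
  have hle : Subgroup.normalClosure (Set.range fun i => piece i (r i)) ≤ sol.ker := by
    refine Subgroup.normalClosure_le_normal ?_
    rintro _ ⟨i, rfl⟩
    have h1 : (QuotientGroup.mk' (Subgroup.normalClosure {r i})) (r i) = 1 :=
      (QuotientGroup.eq_one_iff _).2 (Subgroup.subset_normalClosure rfl)
    have h2 := congrArg (fun f => f (r i)) (hcomp i)
    simp only [MonoidHom.comp_apply] at h2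
    rw [h1, map_one] at h2
    exact h2
  intro x y hxy
  have h : sol (Coprod.inl x) = sol (Coprod.inl y) := by
    have := congrArg (QuotientGroup.lift _ sol hle) hxy
    simpa using this
  simp only [sol, Coprod.lift_apply_inl, MonoidHom.comp_apply] at h
  have hinj : Function.Injective (Coprod.inl : G →* Rel G α) := by
    exact Function.LeftInverse.injective (g := Coprod.fst) (fun g => by simp)
  exact hinj (PushoutI.base_injective hr h)

/-- With no equations the coefficient group trivially injects; with some, `system_injective`. -/
theorem system_injective' (r : ι → Rel G (α ⊕ Unit)) (hr : ∀ i, Frei (r i)) :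
    Function.Injective
      ((QuotientGroup.mk' (Subgroup.normalClosure (Set.range fun i => piece i (r i)))).comp
        (Coprod.inl : G →* Rel G (α ⊕ ι))) := by
  rcases isEmpty_or_nonempty ι with h | h
  · have h0 : Subgroup.normalClosure (Set.range fun i => piece i (r i)) ≤
        (Coprod.fst : Rel G (α ⊕ ι) →* G).ker := by
      refine Subgroup.normalClosure_le_normal ?_
      rintro _ ⟨i, rfl⟩
      exact h.elim i
    intro x y hxy
    simpa using congrArg (QuotientGroup.lift _ Coprod.fst h0) hxy
  · exact system_injective r hr

end Vale.P174.Private
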