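import Vale.Agent.P174.Raw

/-!
Products of at most `n` conjugates of a fixed element and of its inverse, and words built from
blocks by nested insertion.
-/

namespace Vale.Agent.P174

open Monoid

variable {G : Type*} [Group G] {ι : Type*} {α : Type*}

/-- Products of at most `n` conjugates of `v` and `v⁻¹`. -/
inductive InProd {Q : Type*} [Group Q] (v : Q) : ℕ → Q → Prop
  | one (n : ℕ) : InProd v n 1
  | pos {n : ℕ} {x : Q} (u : Q) : InProd v n x → InProd v (n + 1) (x * (u * v * u⁻¹))
  | neg {n : ℕ} {x : Q} (u : Q) : InProd v n x → InProd v (n + 1) (x * (u * v⁻¹ * u⁻¹))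

namespace InProd

variable {Q : Type*} [Group Q] {v : Q}

theorem succ {n : ℕ} {x : Q} (h : InProd v n x) : InProd v (n + 1) x := by
  induction h with
  | one n => exact one _
  | pos u _ ih => exact pos u ih
  | neg u _ ih => exact neg u ih

theorem mono {m n : ℕ} {x : Q} (h : InProd v m x) (hmn : m ≤ n) : InProd v n x := by
  induction hmn with
  | refl => exact h
  | step _ ih => exact ih.succ

theorem mul {m n : ℕ} {x y : Q} (hx : InProd v m x) (hy : InProd v n y) :
    InProd v (m + n) (x * y) := by
  induction hy with
  | one n => rw [mul_one]; exact hx.mono (Nat.le_add_right _ _)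
  | pos u _ ih => rw [← mul_assoc, ← add_assoc]; exact pos u ih
  | neg u _ ih => rw [← mul_assoc, ← add_assoc]; exact neg u ih

theorem conj {n : ℕ} {x : Q} (h : InProd v n x) (c : Q) : InProd v n (c * x * c⁻¹) := by
  induction h with
  | one n => simpa using one _
  | @pos n x u _ ih =>
    have := ih.pos (c * u)
    convert this using 1
    group
  | @neg n x u _ ih =>
    have := ih.neg (c * u)
    convert this using 1
    group

theorem inv {n : ℕ} {x : Q} (h : InProd v n x) : InProd v n x⁻¹ := by
  induction h with
  | one n => simpa using one _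
  | @pos n x u _ ih =>
    have h1 : InProd v 1 (u * v⁻¹ * u⁻¹) := by simpa using (one (v := v) 0).neg u
    have := h1.mul ih
    rw [add_comm] at this
    convert this using 1
    group
  | @neg n x u _ ih =>
    have h1 : InProd v 1 (u * v * u⁻¹) := by simpa using (one (v := v) 0).pos u
    have := h1.mul ih
    rw [add_comm] at this
    convert this using 1
    group

theorem of_conj {n : ℕ} {x : Q} (c : Q) (h : InProd v n (c * x * c⁻¹)) : InProd v n x := by
  have := h.conj c⁻¹
  convert this using 1
  group

theorem comm {n : ℕ} {x y : Q} (h : InProd v n (x * y)) : InProd v n (y * x) := by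
  have := h.conj x⁻¹
  convert this using 1
  group

theorem exists_of_mem {x : Q} (h : x ∈ Subgroup.normalClosure {v}) : ∃ n, InProd v n x := by
  induction h using Subgroup.closure_induction with
  | mem z hz =>
    obtain ⟨a, ha, hc⟩ := Group.mem_conjugatesOfSet_iff.1 hz
    obtain rfl : a = v := ha
    obtain ⟨u, rfl⟩ := isConj_iff.1 hc
    exact ⟨1, by simpa using (one (v := a) 0).pos u⟩
  | one => exact ⟨0, one _⟩
  | mul a b _ _ ha hb =>
    obtain ⟨m, hm⟩ := ha
    obtain ⟨n, hn⟩ := hb
    exact ⟨m + n, hm.mul hn⟩
  | inv a _ ha =>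
    obtain ⟨m, hm⟩ := ha
    exact ⟨m, hm.inv⟩

end InProd

/-- `x` and `y` agree up to at most `n` conjugates of `v` and `v⁻¹`. -/
def Cong {Q : Type*} [Group Q] (v : Q) (n : ℕ) (x y : Q) : Prop := InProd v n (x⁻¹ * y)

namespace Cong

variable {Q : Type*} [Group Q] {v : Q}

theorem refl (n : ℕ) (x : Q) : Cong v n x x := by
  unfold Cong; rw [inv_mul_cancel]; exact InProd.one _

theorem of_eq {n : ℕ} {x y : Q} (h : x = y) : Cong v n x y := h ▸ refl n x

theorem symm {n : ℕ} {x y : Q} (h : Cong v n x y) : Cong v n y x := by
  have := h.inv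
  unfold Cong
  convert this using 1
  group

theorem trans {m n : ℕ} {x y z : Q} (h : Cong v m x y) (h' : Cong v n y z) :
    Cong v (m + n) x z := by
  have := h.mul h'
  unfold Cong
  convert this using 1
  group

theorem mono {m n : ℕ} {x y : Q} (h : Cong v m x y) (hmn : m ≤ n) : Cong v n x y :=
  InProd.mono h hmn

theorem mul_left {n : ℕ} {x y : Q} (h : Cong v n x y) (a : Q) : Cong v n (a * x) (a * y) := by
  unfold Cong at h ⊢
  convert h using 1
  group

theorem mul_right {n : ℕ} {x y : Q} (h : Cong v n x y) (a : Q) : Cong v n (x * a) (y * a) := by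
  have := InProd.conj h a⁻¹
  unfold Cong
  convert this using 1
  group

theorem mul {m n : ℕ} {x y x' y' : Q} (h : Cong v m x y) (h' : Cong v n x' y') :
    Cong v (m + n) (x * x') (y * y') :=
  (h.mul_right x').trans (h'.mul_left y)

theorem inv {n : ℕ} {x y : Q} (h : Cong v n x y) : Cong v n x⁻¹ y⁻¹ := by
  have := InProd.conj (InProd.inv h) x
  unfold Cong
  convert this using 1
  group

theorem inProd_iff {n : ℕ} {x : Q} : Cong v n 1 x ↔ InProd v n x := by simp [Cong]

end Cong

/-- A raw word that is, up to conjugation by a coefficient, a block of the family `T`. -/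
def InBlock (T : ℕ → List (α × G) → Prop) (j : ℕ) (R : Raw G α) : Prop :=
  ∃ q l, T j l ∧ R = Raw.co q * Raw.lst l * Raw.co q⁻¹

/-- `Ext T k W L`: the word `L` arises from `W` by inserting blocks of total weight `k`, one after
another, at arbitrary positions. -/
inductive Ext (T : ℕ → List (α × G) → Prop) : ℕ → Raw G α → Raw G α → Prop
  | refl (W : Raw G α) : Ext T 0 W W
  | ins {k j : ℕ} {W A B R : Raw G α} :
      Ext T k W (A * B) → InBlock T j R → Ext T (k + j) W (A * R * B)

end Vale.Agent.P174
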