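import Vale.Agent.P174.Word

/-!
Raw words over a free product of a group with a free group: the monoid of unreduced words with
labelled letters, the normal form theorem and the existence of cancelling partners.
-/

namespace Vale.Agent.P174

open Monoid

variable {G : Type*} [Group G] {ι : Type*} {α : Type*}

/-- Multiply the last coefficient of a list of labelled letters. -/
def adjLast : List (α × G) → G → List (α × G)
  | [], _ => []
  | [p], g => [(p.1, p.2 * g)]
  | p :: q :: r, g => p :: adjLast (q :: r) g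

@[simp] theorem adjLast_nil (g : G) : adjLast ([] : List (α × G)) g = [] := rfl

@[simp] theorem adjLast_single (p : α × G) (g : G) : adjLast [p] g = [(p.1, p.2 * g)] := rfl

theorem adjLast_cons {l : List (α × G)} (h : l ≠ []) (p : α × G) (g : G) :
    adjLast (p :: l) g = p :: adjLast l g := by
  cases l with
  | nil => exact absurd rfl h
  | cons q r => rfl

theorem adjLast_concat (l : List (α × G)) (p : α × G) (g : G) :
    adjLast (l ++ [p]) g = l ++ [(p.1, p.2 * g)] := by
  induction l with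
  | nil => rfl
  | cons q r ih => rw [List.cons_append, adjLast_cons (by simp), ih]; rfl

theorem adjLast_append (l : List (α × G)) {l' : List (α × G)} (h : l' ≠ []) (g : G) :
    adjLast (l ++ l') g = l ++ adjLast l' g := by
  obtain ⟨r, p, rfl⟩ : ∃ r p, l' = r ++ [p] := ⟨_, _, (List.dropLast_concat_getLast h).symm⟩
  rw [← List.append_assoc, adjLast_concat, adjLast_concat, List.append_assoc]

@[simp] theorem adjLast_eq_nil {l : List (α × G)} {g : G} : adjLast l g = [] ↔ l = [] := by
  rcases l.eq_nil_or_concat' with rfl | ⟨r, p, rfl⟩ <;> simp [adjLast_concat]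

@[simp] theorem length_adjLast (l : List (α × G)) (g : G) :
    (adjLast l g).length = l.length := by
  rcases l.eq_nil_or_concat' with rfl | ⟨r, p, rfl⟩ <;> simp [adjLast_concat]

@[simp] theorem map_fst_adjLast (l : List (α × G)) (g : G) :
    (adjLast l g).map Prod.fst = l.map Prod.fst := by
  rcases l.eq_nil_or_concat' with rfl | ⟨r, p, rfl⟩ <;> simp [adjLast_concat]

@[simp] theorem adjLast_one (l : List (α × G)) : adjLast l 1 = l := by
  rcases l.eq_nil_or_concat' with rfl | ⟨r, p, rfl⟩ <;> simp [adjLast_concat]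

theorem adjLast_adjLast (l : List (α × G)) (g h : G) :
    adjLast (adjLast l g) h = adjLast l (g * h) := by
  rcases l.eq_nil_or_concat' with rfl | ⟨r, p, rfl⟩ <;> simp [adjLast_concat, mul_assoc]

/-- An unreduced word: a coefficient followed by labelled letters, each followed by a
coefficient. -/
@[ext] structure Raw (G : Type*) (α : Type*) where
  hd : G
  tl : List (α × G)

instance : Mul (Raw G α) :=
  ⟨fun a b => if a.tl = [] then ⟨a.hd * b.hd, b.tl⟩ else ⟨a.hd, adjLast a.tl b.hd ++ b.tl⟩⟩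

instance : One (Raw G α) := ⟨⟨1, []⟩⟩

theorem Raw.mul_of_nil (g : G) (b : Raw G α) : (⟨g, []⟩ : Raw G α) * b = ⟨g * b.hd, b.tl⟩ := by
  show (if _ then _ else _) = _
  simp

theorem Raw.mul_of_ne {a : Raw G α} (h : a.tl ≠ []) (b : Raw G α) :
    a * b = ⟨a.hd, adjLast a.tl b.hd ++ b.tl⟩ := by
  show (if _ then _ else _) = _
  simp [h]

theorem Raw.one_def : (1 : Raw G α) = ⟨1, []⟩ := rfl

instance : Monoid (Raw G α) where
  one_mul a := by rw [Raw.one_def, Raw.mul_of_nil, one_mul]
  mul_one a := by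
    obtain ⟨h, t⟩ := a
    by_cases ht : t = []
    · subst ht; rw [Raw.mul_of_nil]; simp [Raw.one_def]
    · rw [Raw.mul_of_ne (by exact ht)]; simp [Raw.one_def]
  mul_assoc a b c := by
    obtain ⟨g, s⟩ := a
    obtain ⟨h, t⟩ := b
    obtain ⟨k, u⟩ := c
    by_cases hs : s = []
    · subst hs
      by_cases ht : t = []
      · subst ht; simp [Raw.mul_of_nil, mul_assoc]
      · simp [Raw.mul_of_nil, Raw.mul_of_ne, ht]
    · by_cases ht : t = []
      · subst ht; simp [Raw.mul_of_nil, Raw.mul_of_ne, hs, adjLast_adjLast]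
      · simp [Raw.mul_of_ne, hs, ht, adjLast_append]

/-- A coefficient as a raw word. -/
def Raw.co (g : G) : Raw G α := ⟨g, []⟩

/-- A single letter as a raw word. -/
def Raw.lt (a : α) : Raw G α := ⟨1, [(a, 1)]⟩

/-- A list of items as a raw word. -/
def Raw.lst (l : List (α × G)) : Raw G α := ⟨1, l⟩

@[simp] theorem Raw.co_mul_co (g h : G) : (Raw.co g : Raw G α) * Raw.co h = Raw.co (g * h) := by
  simp [Raw.co, Raw.mul_of_nil]

@[simp] theorem Raw.co_one : (Raw.co 1 : Raw G α) = 1 := rfl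

theorem Raw.co_mul (g : G) (b : Raw G α) : Raw.co g * b = ⟨g * b.hd, b.tl⟩ := Raw.mul_of_nil g b

theorem Raw.lst_nil : (Raw.lst [] : Raw G α) = 1 := rfl

theorem Raw.lst_cons (a : α) (h : G) (l : List (α × G)) :
    Raw.lst ((a, h) :: l) = Raw.lt a * Raw.co h * Raw.lst l := by
  simp [Raw.lst, Raw.lt, Raw.co, Raw.mul_of_ne]

theorem Raw.eq_co_mul_lst (r : Raw G α) : r = Raw.co r.hd * Raw.lst r.tl := by
  simp [Raw.lst, Raw.co, Raw.mul_of_nil]

theorem Raw.lst_append (l l' : List (α × G)) :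
    (Raw.lst (l ++ l') : Raw G α) = Raw.lst l * Raw.lst l' := by
  induction l with
  | nil => simp [Raw.lst_nil]
  | cons p r ih =>
    obtain ⟨a, h⟩ := p
    rw [List.cons_append, Raw.lst_cons, Raw.lst_cons, ih, mul_assoc]
    simp [mul_assoc]

theorem Raw.lst_adjLast {l : List (α × G)} (h : l ≠ []) (g : G) :
    (Raw.lst (adjLast l g) : Raw G α) = Raw.lst l * Raw.co g := by
  obtain ⟨r, p, rfl⟩ : ∃ r p, l = r ++ [p] := ⟨_, _, (List.dropLast_concat_getLast h).symm⟩
  obtain ⟨a, k⟩ := p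
  rw [adjLast_concat, Raw.lst_append, Raw.lst_append, mul_assoc]
  simp [Raw.lst, Raw.co, Raw.mul_of_ne]

/-- The number of letters. -/
def Raw.nlet (r : Raw G α) : ℕ := r.tl.length

@[simp] theorem Raw.nlet_mul (a b : Raw G α) : (a * b).nlet = a.nlet + b.nlet := by
  obtain ⟨g, s⟩ := a
  by_cases hs : s = []
  · subst hs; simp [Raw.nlet, Raw.mul_of_nil]
  · simp [Raw.nlet, Raw.mul_of_ne, hs]

omit [Group G] in
@[simp] theorem Raw.nlet_co (g : G) : (Raw.co g : Raw G α).nlet = 0 := rfl

@[simp] theorem Raw.nlet_lt (a : α) : (Raw.lt a : Raw G α).nlet = 1 := rfl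

/-- The labels of the letters of a raw word. -/
def Raw.labels (r : Raw G α) : List α := r.tl.map Prod.fst

@[simp] theorem Raw.labels_mul (a b : Raw G α) : (a * b).labels = a.labels ++ b.labels := by
  obtain ⟨g, s⟩ := a
  by_cases hs : s = []
  · subst hs; simp [Raw.labels, Raw.mul_of_nil]
  · simp [Raw.labels, Raw.mul_of_ne, hs]

/-- Levi's lemma. -/
theorem Raw.levi (X Y X' Y' : Raw G α) (h : X * Y = X' * Y') :
    (∃ M, X' = X * M ∧ Y = M * Y') ∨ (∃ M, X = X' * M ∧ Y' = M * Y) := by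
  obtain ⟨g, t⟩ := X
  induction t generalizing g X' with
  | nil =>
    refine Or.inl ⟨Raw.co g⁻¹ * X', ?_, ?_⟩
    · rw [← mul_assoc, show (⟨g, []⟩ : Raw G α) = Raw.co g from rfl, Raw.co_mul_co,
        mul_inv_cancel, Raw.co_one, one_mul]
    · rw [mul_assoc, ← h, ← mul_assoc, show (⟨g, []⟩ : Raw G α) = Raw.co g from rfl,
        Raw.co_mul_co, inv_mul_cancel, Raw.co_one, one_mul]
  | cons p r ih =>
    obtain ⟨g', t'⟩ := X'
    cases t' with
    | nil =>
      refine Or.inr ⟨Raw.co g'⁻¹ * ⟨g, p :: r⟩, ?_, ?_⟩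
      · rw [← mul_assoc, show (⟨g', []⟩ : Raw G α) = Raw.co g' from rfl, Raw.co_mul_co,
          mul_inv_cancel, Raw.co_one, one_mul]
      · rw [mul_assoc, h, ← mul_assoc, show (⟨g', []⟩ : Raw G α) = Raw.co g' from rfl,
          Raw.co_mul_co, inv_mul_cancel, Raw.co_one, one_mul]
    | cons p' r' =>
      obtain ⟨a, k⟩ := p
      obtain ⟨a', k'⟩ := p'
      have e : ∀ (g : G) (a : α) (k : G) (r : List (α × G)),
          (⟨g, (a, k) :: r⟩ : Raw G α) = Raw.co g * Raw.lt a * ⟨k, r⟩ := by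
        intro g a k r
        simp [Raw.co, Raw.lt, Raw.mul_of_nil, Raw.mul_of_ne]
      have hcons : ∀ (g : G) (a : α) (Z : Raw G α),
          Raw.co g * Raw.lt a * Z = ⟨g, (a, Z.hd) :: Z.tl⟩ := by
        intro g a Z
        simp [Raw.co, Raw.lt, Raw.mul_of_nil, Raw.mul_of_ne]
      rw [e g a k r, e g' a' k' r', mul_assoc _ _ Y, mul_assoc _ _ Y', hcons, hcons] at h
      simp only [Raw.mk.injEq, List.cons.injEq, Prod.mk.injEq] at h
      obtain ⟨rfl, ⟨rfl, h1⟩, h2⟩ := h
      have h3 : (⟨k, r⟩ : Raw G α) * Y = ⟨k', r'⟩ * Y' := Raw.ext h1 h2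
      rcases ih _ k h3 with ⟨M, hM, hY⟩ | ⟨M, hM, hY⟩
      · exact Or.inl ⟨M, by rw [e g a k r, e g a k' r', hM]; simp only [mul_assoc], hY⟩
      · exact Or.inr ⟨M, by rw [e g a k r, e g a k' r', hM]; simp only [mul_assoc], hY⟩

/-- A splitting of a product at a letter. -/
theorem Raw.split_letter (X Y A B : Raw G α) (a : α) (h : X * Y = A * Raw.lt a * B) :
    (∃ M, X = A * Raw.lt a * M ∧ B = M * Y) ∨ (∃ M, Y = M * Raw.lt a * B ∧ A = X * M) := by
  rw [mul_assoc] at h
  rcases Raw.levi _ _ _ _ h with ⟨M, hA, hY⟩ | ⟨M, hX, hY⟩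
  · exact Or.inr ⟨M, by rw [hY]; simp [mul_assoc], hA⟩
  · -- `Y'` = letter * B = M * Y
    obtain ⟨m, t⟩ := M
    cases t with
    | nil =>
      refine Or.inr ⟨Raw.co m⁻¹, ?_, ?_⟩
      · rw [mul_assoc, hY, ← mul_assoc, show (⟨m, []⟩ : Raw G α) = Raw.co m from rfl,
          Raw.co_mul_co, inv_mul_cancel, Raw.co_one, one_mul]
      · rw [hX, mul_assoc, show (⟨m, []⟩ : Raw G α) = Raw.co m from rfl, Raw.co_mul_co,
          mul_inv_cancel, Raw.co_one, mul_one]
    | cons p r =>
      obtain ⟨b, k⟩ := p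
      obtain ⟨kb, tb⟩ := B
      have e1 : (⟨m, (b, k) :: r⟩ : Raw G α) * Y =
          ⟨m, (b, ((⟨k, r⟩ : Raw G α) * Y).hd) :: ((⟨k, r⟩ : Raw G α) * Y).tl⟩ := by
        by_cases hr : r = []
        · subst hr; simp [Raw.mul_of_ne, Raw.mul_of_nil]
        · simp [Raw.mul_of_ne, hr, adjLast_cons hr]
      have e2 : (Raw.lt a : Raw G α) * ⟨kb, tb⟩ = ⟨1, (a, kb) :: tb⟩ := by
        simp [Raw.lt, Raw.mul_of_ne]
      rw [e1, e2] at hY
      simp only [Raw.mk.injEq, List.cons.injEq, Prod.mk.injEq] at hY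
      obtain ⟨rfl, ⟨rfl, h1⟩, h2⟩ := hY
      refine Or.inl ⟨⟨k, r⟩, ?_, Raw.ext h1 h2⟩
      rw [hX, mul_assoc]
      congr 1
      simp [Raw.lt, Raw.mul_of_ne]

/-- Any raw word with letters has a first letter. -/
theorem Raw.exists_first {r : Raw G α} (h : r.nlet ≠ 0) :
    ∃ g a B, r = Raw.co g * Raw.lt a * B := by
  obtain ⟨g, t⟩ := r
  cases t with
  | nil => exact absurd rfl h
  | cons p r =>
    exact ⟨g, p.1, ⟨p.2, r⟩, by simp [Raw.co, Raw.lt, Raw.mul_of_nil, Raw.mul_of_ne]⟩

omit [Group G] in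
theorem Raw.eq_co_of_nlet {r : Raw G α} (h : r.nlet = 0) : r = Raw.co r.hd := by
  obtain ⟨g, t⟩ := r
  obtain rfl : t = [] := List.eq_nil_of_length_eq_zero h
  rfl

theorem Raw.lt_eq {p b : α} {M N : Raw G α} (h : Raw.lt p = M * Raw.lt b * N) :
    M = 1 ∧ b = p := by
  have hn := congrArg Raw.nlet h
  simp only [Raw.nlet_mul, Raw.nlet_lt] at hn
  obtain ⟨m, hm⟩ : ∃ m, M = Raw.co m := ⟨_, Raw.eq_co_of_nlet (by omega)⟩
  obtain ⟨k, hk⟩ : ∃ k, N = Raw.co k := ⟨_, Raw.eq_co_of_nlet (by omega)⟩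
  subst hm hk
  simp [Raw.lt, Raw.co, Raw.mul_of_ne, Raw.mul_of_nil] at h
  obtain ⟨rfl, rfl, -⟩ := h
  exact ⟨rfl, rfl⟩

section Val

variable (ℓ : α → Letter ι)

/-- The value of a list of items. -/
def lval : List (α × G) → FP G ι
  | [] => 1
  | p :: r => letter (ℓ p.1) * Coprod.inl p.2 * lval r

@[simp] theorem lval_nil : lval ℓ ([] : List (α × G)) = 1 := rfl

theorem lval_cons (p : α × G) (r : List (α × G)) :
    lval ℓ (p :: r) = letter (ℓ p.1) * Coprod.inl p.2 * lval ℓ r := rfl

theorem lval_append (l l' : List (α × G)) : lval ℓ (l ++ l') = lval ℓ l * lval ℓ l' := by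
  induction l with
  | nil => simp
  | cons p r ih => simp [lval_cons, ih, mul_assoc]

theorem lval_adjLast {l : List (α × G)} (h : l ≠ []) (g : G) :
    lval ℓ (adjLast l g) = lval ℓ l * Coprod.inl g := by
  obtain ⟨r, p, rfl⟩ : ∃ r p, l = r ++ [p] := ⟨_, _, (List.dropLast_concat_getLast h).symm⟩
  simp [adjLast_concat, lval_append, lval_cons, mul_assoc]

/-- The value of a raw word. -/
def Raw.val : Raw G α →* FP G ι where
  toFun r := Coprod.inl r.hd * lval ℓ r.tl
  map_one' := by simp [Raw.one_def]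
  map_mul' a b := by
    obtain ⟨g, s⟩ := a
    by_cases hs : s = []
    · subst hs; simp [Raw.mul_of_nil, mul_assoc]
    · simp [Raw.mul_of_ne, hs, lval_append, lval_adjLast, mul_assoc]

@[simp] theorem Raw.val_co (g : G) : Raw.val ℓ (Raw.co g) = Coprod.inl g := by
  simp [Raw.val, Raw.co]

@[simp] theorem Raw.val_lt (a : α) : Raw.val (G := G) ℓ (Raw.lt a) = letter (ℓ a) := by
  simp [Raw.val, Raw.lt, lval_cons]

@[simp] theorem Raw.val_lst (l : List (α × G)) : Raw.val ℓ (Raw.lst l) = lval ℓ l := by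
  simp [Raw.val, Raw.lst]

/-- A list of letters is reduced. -/
def RedList : List (Letter ι × G) → Prop
  | [] => True
  | [_] => True
  | p :: q :: r => ¬ (q.1 = p.1.rev ∧ p.2 = 1) ∧ RedList (q :: r)

theorem Letter.rev_rev (l : Letter ι) : l.rev.rev = l := by
  simp [Letter.rev]

theorem RedList.tail {p : Letter ι × G} {r : List (Letter ι × G)} (h : RedList (p :: r)) :
    RedList r := by
  cases r with
  | nil => trivial
  | cons q r => exact h.2

/-- Reduced forms. -/
abbrev NF (G : Type*) [Group G] (ι : Type*) : Type _ :=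
  {p : G × List (Letter ι × G) // RedList p.2}

open Classical in
/-- Left multiplication of a reduced form by a letter. -/
noncomputable def push (l : Letter ι) : NF G ι → NF G ι
  | ⟨(g, []), _⟩ => ⟨(1, [(l, g)]), trivial⟩
  | ⟨(g, q :: r), h⟩ =>
    if hc : q.1 = l.rev ∧ g = 1 then ⟨(q.2, r), RedList.tail h⟩
    else ⟨(1, (l, g) :: q :: r), hc, h⟩

theorem push_rev (l : Letter ι) (p : NF G ι) : push l.rev (push l p) = p := by
  obtain ⟨⟨g, t⟩, h⟩ := p
  cases t with
  | nil => simp [push, Letter.rev_rev]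
  | cons q r =>
    by_cases hc : q.1 = l.rev ∧ g = 1
    · obtain ⟨hq, rfl⟩ := hc
      simp only [push, hq, and_self, dite_true]
      cases r with
      | nil =>
        simp [← hq]
      | cons s r =>
        have hn : ¬ (s.1 = l.rev.rev ∧ q.2 = 1) := by
          have := h.1
          rwa [hq] at this
        simp only [dif_neg hn]
        simp [← hq]
    · simp [push, hc, Letter.rev_rev]

/-- The permutation of reduced forms given by a generator. -/
noncomputable def pushPerm (t : ι) : Equiv.Perm (NF G ι) where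
  toFun := push (t, true)
  invFun := push (t, false)
  left_inv := push_rev (t, true)
  right_inv := push_rev (t, false)

/-- The action of the free product on reduced forms. -/
noncomputable def nfAct : FP G ι →* Equiv.Perm (NF G ι) :=
  Coprod.lift
    { toFun := fun g =>
        { toFun := fun p => ⟨(g * p.1.1, p.1.2), p.2⟩
          invFun := fun p => ⟨(g⁻¹ * p.1.1, p.1.2), p.2⟩
          left_inv := fun p => by simp
          right_inv := fun p => by simp }
      map_one' := by ext p <;> simp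
      map_mul' := fun g h => by ext p <;> simp [mul_assoc] }
    (FreeGroup.lift pushPerm)

theorem nfAct_inl (g : G) (p : NF G ι) :
    nfAct (Coprod.inl g : FP G ι) p = ⟨(g * p.1.1, p.1.2), p.2⟩ := by
  simp [nfAct]

theorem nfAct_letter (l : Letter ι) (p : NF G ι) : nfAct (letter l : FP G ι) p = push l p := by
  obtain ⟨t, b⟩ := l
  cases b
  · simp only [letter_false, map_inv]
    rw [Equiv.Perm.inv_def, Equiv.symm_apply_eq]
    have h : nfAct (Coprod.inr (FreeGroup.of t) : FP G ι) = pushPerm t := by simp [nfAct]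
    rw [h]
    exact (push_rev (t, false) p).symm
  · simp [letter_true, nfAct, pushPerm]
    rfl

theorem nfAct_lval (l : List (Letter ι × G)) (h : RedList l) :
    nfAct (lval id l) ⟨(1, []), trivial⟩ = ⟨(1, l), h⟩ := by
  induction l with
  | nil => simp
  | cons p r ih =>
    rw [lval_cons, map_mul, map_mul, Equiv.Perm.mul_apply, Equiv.Perm.mul_apply,
      ih (RedList.tail h), nfAct_inl, nfAct_letter]
    obtain ⟨a, k⟩ := p
    cases r with
    | nil => simp [push]
    | cons q r =>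
      have hn : ¬ (q.1 = a.rev ∧ k * 1 = 1) := by simpa using h.1
      simp [push, h.1]

theorem lval_map (l : List (α × G)) :
    lval id (l.map fun p => (ℓ p.1, p.2)) = lval ℓ l := by
  induction l with
  | nil => rfl
  | cons p r ih => simp [lval_cons, ih]

/-- A raw word with a letter whose value lies in `G` has a cancelling pair. -/
theorem Raw.exists_cancel (r : Raw G α) (c : G) (hn : r.nlet ≠ 0)
    (hv : Raw.val ℓ r = Coprod.inl c) :
    ∃ P a b Q, r = P * Raw.lt a * Raw.lt b * Q ∧ ℓ b = (ℓ a).rev := by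
  obtain ⟨g, t⟩ := r
  have aux : ∀ t : List (α × G), ¬ RedList (t.map fun p => (ℓ p.1, p.2)) →
      ∃ P a b Q, (Raw.lst t : Raw G α) = P * Raw.lt a * Raw.lt b * Q ∧ ℓ b = (ℓ a).rev := by
    intro t
    induction t with
    | nil => intro h; exact absurd trivial h
    | cons p r ih =>
      intro h
      cases r with
      | nil => exact absurd trivial h
      | cons q r =>
        obtain ⟨a, k⟩ := p
        obtain ⟨b, k'⟩ := q
        rcases not_and_or.1 (show ¬ (_ ∧ _) from h) with h | h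
        · obtain ⟨hb, rfl⟩ := not_not.1 h
          refine ⟨1, a, b, Raw.co k' * Raw.lst r, ?_, hb⟩
          simp [Raw.lst_cons, mul_assoc]
        · obtain ⟨P, a', b', Q, e, he⟩ := ih h
          exact ⟨Raw.lt a * Raw.co k * P, a', b', Q, by rw [Raw.lst_cons, e]; simp [mul_assoc], he⟩
  by_cases hred : RedList (t.map fun p => (ℓ p.1, p.2))
  · exfalso
    have h1 : lval ℓ t = Coprod.inl (g⁻¹ * c) := by
      rw [map_mul, map_inv, eq_inv_mul_iff_mul_eq]
      exact hv
    have h2 := nfAct_lval _ hred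
    rw [lval_map, h1, nfAct_inl] at h2
    simp only [Subtype.mk.injEq, Prod.mk.injEq] at h2
    exact hn (by simpa [Raw.nlet] using h2.2.symm)
  · obtain ⟨P, a, b, Q, e, he⟩ := aux t hred
    refine ⟨Raw.co g * P, a, b, Q, ?_, he⟩
    rw [Raw.eq_co_mul_lst ⟨g, t⟩]
    show Raw.co g * Raw.lst t = _
    rw [e]
    simp [mul_assoc]

theorem Raw.val_pair {a b : α} (h : ℓ b = (ℓ a).rev) :
    Raw.val (G := G) ℓ (Raw.lt a * Raw.lt b) = 1 := by
  simp [h, letter_rev]

/-- In a raw word of value one every letter has a partner on one side. -/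
theorem Raw.exists_partner (A B : Raw G α) (p : α)
    (h : Raw.val ℓ (A * Raw.lt p * B) = 1) :
    (∃ A₀ r A₁, A = A₀ * Raw.lt r * A₁ ∧ Raw.val ℓ A₁ = 1 ∧ ℓ p = (ℓ r).rev) ∨
      (∃ B₁ r B₀, B = B₁ * Raw.lt r * B₀ ∧ Raw.val ℓ B₁ = 1 ∧ ℓ r = (ℓ p).rev) := by
  suffices H : ∀ n, ∀ A B : Raw G α, A.nlet + B.nlet = n →
      Raw.val ℓ (A * Raw.lt p * B) = 1 →
      (∃ A₀ r A₁, A = A₀ * Raw.lt r * A₁ ∧ Raw.val ℓ A₁ = 1 ∧ ℓ p = (ℓ r).rev) ∨
        (∃ B₁ r B₀, B = B₁ * Raw.lt r * B₀ ∧ Raw.val ℓ B₁ = 1 ∧ ℓ r = (ℓ p).rev) from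
    H _ A B rfl h
  clear h A B
  intro n
  induction n using Nat.strong_induction_on with
  | _ n ih =>
    intro A B hn h
    obtain ⟨P, a, b, Q, e, hab⟩ :=
      Raw.exists_cancel ℓ (A * Raw.lt p * B) 1 (by simp) (by rw [h, map_one])
    have e' : A * Raw.lt p * B = (P * Raw.lt a) * Raw.lt b * Q := e
    rw [mul_assoc] at e'
    rcases Raw.split_letter _ _ _ _ _ e' with ⟨M, hA, hQ⟩ | ⟨M, hB, hPa⟩
    · -- both letters of the pair lie in `A`
      have hQ' : Q = M * (Raw.lt p * B) := hQ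
      let A' := P * M
      have hv : Raw.val ℓ (A' * Raw.lt p * B) = 1 := by
        rw [← h, hA]
        simp only [A', map_mul, Raw.val_lt, hab, letter_rev]
        group
      have hlt : A'.nlet + B.nlet < n := by rw [← hn, hA]; simp [A']
      rcases ih _ hlt A' B rfl hv with ⟨A₀, r, A₁, hA', hA₁, hr⟩ | h'
      · rcases Raw.split_letter _ _ _ _ _ hA' with ⟨N, hP, hA₁'⟩ | ⟨N, hM, hA₀⟩
        · refine Or.inl ⟨A₀, r, N * (Raw.lt a * Raw.lt b) * M, ?_, ?_, hr⟩
          · rw [hA, hP]; simp [mul_assoc]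
          · rw [map_mul, map_mul, Raw.val_pair ℓ hab, mul_one, ← map_mul, ← hA₁', hA₁]
        · exact Or.inl ⟨P * Raw.lt a * Raw.lt b * N, r, A₁, by rw [hA, hM]; simp [mul_assoc],
            hA₁, hr⟩
      · exact Or.inr h'
    · -- `b` lies in `lt p * B`
      rcases Raw.split_letter _ _ _ _ _ hB with ⟨N, hp, hQ⟩ | ⟨N, hBeq, hM⟩
      · -- `b` is `p` itself
        obtain ⟨hM1, hbp⟩ := Raw.lt_eq hp
        refine Or.inl ⟨P, a, 1, ?_, map_one _, hbp ▸ hab⟩
        rw [mul_one, hPa, hM1, mul_one]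
      · have e4 : (A * Raw.lt p) * N = P * Raw.lt a * 1 := by
          rw [mul_one, hPa, hM, mul_assoc]
        rcases Raw.split_letter _ _ _ _ _ e4 with ⟨N', hAp, hN'⟩ | ⟨N', hN, hP⟩
        · have hz : N'.nlet = 0 ∧ N.nlet = 0 := by
            have := congrArg Raw.nlet hN'
            rw [Raw.nlet_mul] at this
            simp only [Raw.one_def, Raw.nlet, List.length_nil] at this ⊢
            omega
          have hAp' : A * (Raw.lt p * 1) = P * Raw.lt a * N' := by rw [mul_one, hAp]
          rcases Raw.split_letter _ _ _ _ _ hAp' with ⟨K, -, hK⟩ | ⟨K, hK, -⟩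
          · exfalso
            have := congrArg Raw.nlet hK
            simp [hz.1] at this
          · rw [mul_one] at hK
            obtain ⟨hK1, hap⟩ := Raw.lt_eq hK
            have hN1 : N = 1 := by
              have h2 := congrArg Raw.nlet hK
              rw [hK1, one_mul] at hK
              obtain ⟨g, hg⟩ : ∃ g, N' = Raw.co g := ⟨_, Raw.eq_co_of_nlet hz.1⟩
              rw [hg] at hK
              have hg1 : g = 1 := by
                have h3 := congrArg (fun r : Raw G α => r.tl) hK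
                simp [Raw.lt, Raw.co, Raw.mul_of_ne] at h3
                exact h3.2.symm
              rw [hg, hg1, Raw.co_one, one_mul] at hN'
              exact hN'.symm
            refine Or.inr ⟨1, b, Q, ?_, map_one _, hap ▸ hab⟩
            rw [hBeq, hN1]
        · let B' := N' * Q
          have hv : Raw.val ℓ (A * Raw.lt p * B') = 1 := by
            rw [← h, hBeq, hN]
            simp only [B', map_mul, map_one, Raw.val_lt, hab, letter_rev]
            group
          have hlt : A.nlet + B'.nlet < n := by rw [← hn, hBeq, hN]; simp [B']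
          rcases ih _ hlt A B' rfl hv with h' | ⟨B₁, r, B₀, hB', hB₁, hr⟩
          · exact Or.inl h'
          · rcases Raw.split_letter _ _ _ _ _ hB' with ⟨N'', hN'', hB₀⟩ | ⟨N'', hQ, hB₁'⟩
            · exact Or.inr ⟨B₁, r, N'' * (Raw.lt a * Raw.lt b) * Q,
                by rw [hBeq, hN, hN'']; simp [mul_assoc], hB₁, hr⟩
            · refine Or.inr ⟨N' * (Raw.lt a * Raw.lt b) * N'', r, B₀,
                by rw [hBeq, hN, hQ]; simp [mul_assoc], ?_, hr⟩
              rw [map_mul, map_mul, Raw.val_pair ℓ hab, mul_one, ← map_mul, ← hB₁', hB₁]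

end Val

end Vale.Agent.P174
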