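import Vale.Agent.P174.Prod

/-!
Diagram states of a stacked cyclic word.

A state is a cyclic list of labelled letters, the boundary of a partially glued diagram with `k`
faces. It records where the faces sit up to conjugates (`Place`) and the index count (`Pot`).
Glueing and cancelling keep both, unless they produce a product of fewer conjugates.
-/

namespace Vale.Agent.P174

open Monoid

/-- A label: an index of the cyclic word and the orientation of the face. -/
abbrev Lab : Type := ℤ × Bool

/-- An item with a lower bound for the number of sign changes at its corner. -/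
abbrev Item (G : Type*) : Type _ := (Lab × G) × (Bool → Bool → ℤ)

variable {G : Type*} [Group G] {ι : Type*}

namespace CWord

variable (w : CWord G ι)

/-- The letter of a label. -/
def lab (a : Lab) : Letter ι := if a.2 then w.c a.1 else (w.c a.1).rev

/-- The coefficient to the right of a label in its face. -/
def cor (a : Lab) : G := if a.2 then w.g (a.1 - 1) else (w.g a.1)⁻¹

/-- Products along the word starting at an index. -/
def pr (i : ℤ) : ℕ → FP G ι
  | 0 => 1
  | n + 1 => Coprod.inl (w.g (i + n)) * letter (w.c (i + n)) * pr i n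

end CWord

/-- The next label in the same face. -/
def nextLab (a : Lab) : Lab := if a.2 then (a.1 - 1, true) else (a.1 + 1, false)

/-- A run of consecutive letters of a face. -/
def faceList (w : CWord G ι) : Lab → ℕ → List (Lab × G)
  | _, 0 => []
  | a, n + 1 => (a, w.cor a) :: faceList w (nextLab a) n

/-- The word of a face, read from just after the given label. -/
def CWord.rest (w : CWord G ι) (a : Lab) : FP G ι :=
  Coprod.inl (w.cor a) * lval w.lab (faceList w (nextLab a) (w.len - 1))

variable {w : CWord G ι}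

theorem CWord.pr_eq_part (n : ℕ) : w.pr 0 n = w.part n := by
  induction n with
  | zero => rfl
  | succ n ih => simp [CWord.pr, CWord.part, ih]

theorem CWord.pr_succ_right (i : ℤ) (n : ℕ) :
    w.pr i (n + 1) = w.pr (i + 1) n * (Coprod.inl (w.g i) * letter (w.c i)) := by
  induction n with
  | zero => simp [CWord.pr]
  | succ n ih =>
    rw [CWord.pr, ih, CWord.pr]
    push_cast
    rw [show i + ((n : ℤ) + 1) = i + 1 + n by ring]
    simp [mul_assoc]

theorem CWord.pr_periodic (i : ℤ) (n : ℕ) : w.pr (i + w.len) n = w.pr i n := by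
  induction n with
  | zero => rfl
  | succ n ih =>
    rw [CWord.pr, CWord.pr, ih, show i + (w.len : ℤ) + n = i + n + w.len by ring, w.g_per, w.c_per]

theorem CWord.pr_conj_succ (i : ℤ) :
    w.pr (i + 1) w.len = (Coprod.inl (w.g i) * letter (w.c i)) * w.pr i w.len *
      (Coprod.inl (w.g i) * letter (w.c i))⁻¹ := by
  rw [eq_mul_inv_iff_mul_eq, ← CWord.pr_succ_right, CWord.pr, w.g_per, w.c_per]

theorem CWord.exists_pr_conj (i : ℤ) : ∃ c, w.pr i w.len = c * w.val * c⁻¹ := by
  have hnat : ∀ n : ℕ, ∃ c, w.pr n w.len = c * w.val * c⁻¹ := by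
    intro n
    induction n with
    | zero => exact ⟨1, by simp [CWord.pr_eq_part, CWord.val]⟩
    | succ n ih =>
      obtain ⟨c, hc⟩ := ih
      refine ⟨Coprod.inl (w.g n) * letter (w.c n) * c, ?_⟩
      push_cast
      rw [CWord.pr_conj_succ, hc]
      group
  have hp : Function.Periodic (fun i => w.pr i w.len) (w.len : ℤ) := fun i => w.pr_periodic i _
  obtain ⟨c, hc⟩ := hnat (i % (w.len : ℤ)).toNat
  refine ⟨c, ?_⟩
  rw [← hc, Int.toNat_of_nonneg (Int.emod_nonneg _ (by have := w.len_pos; omega))]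
  conv_lhs => rw [← Int.emod_add_mul_ediv i w.len, mul_comm (w.len : ℤ)]
  exact hp.int_mul (i / w.len) (i % w.len)

theorem lval_faceList_neg (i : ℤ) (n : ℕ) :
    lval w.lab (faceList w (i, false) n) * w.pr i n = 1 := by
  induction n generalizing i with
  | zero => simp [faceList, CWord.pr]
  | succ n ih =>
    have h := ih (i + 1)
    simp only [faceList, lval_cons, CWord.pr_succ_right, CWord.lab, CWord.cor, nextLab,
      Bool.false_eq_true, if_false, letter_rev, map_inv]
    calc _ = (letter (w.c i))⁻¹ * (Coprod.inl (w.g i))⁻¹ *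
          (lval w.lab (faceList w (i + 1, false) n) * w.pr (i + 1) n) *
          (Coprod.inl (w.g i) * letter (w.c i)) := by simp only [mul_assoc]
      _ = 1 := by rw [h]; group

theorem lval_faceList_pos (b : ℤ) (n : ℕ) :
    Coprod.inl (w.g (b + n)) * lval w.lab (faceList w (b + n, true) n) * letter (w.c b) =
      w.pr b (n + 1) := by
  induction n with
  | zero => simp [faceList, CWord.pr]
  | succ n ih =>
    conv_rhs => rw [CWord.pr, ← ih]
    simp only [faceList, lval_cons, CWord.lab, CWord.cor, nextLab, if_true]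
    push_cast
    rw [show b + ((n : ℤ) + 1) - 1 = b + n by ring]
    simp [mul_assoc]

theorem CWord.rest_pos (i : ℤ) : w.rest (i, true) = w.pr i w.len * (letter (w.c i))⁻¹ := by
  obtain ⟨L', hL'⟩ : ∃ L', w.len = L' + 1 := ⟨w.len - 1, by have := w.len_pos; omega⟩
  have hsplit : i - 1 = (i - (w.len : ℤ)) + (L' : ℕ) := by rw [hL']; push_cast; ring
  rw [eq_mul_inv_iff_mul_eq]
  simp only [CWord.rest, CWord.cor, nextLab, if_true]
  rw [show w.len - 1 = L' by omega, hsplit]
  have hc : w.c i = w.c (i - w.len) := by rw [← w.c_per (i - w.len), sub_add_cancel]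
  rw [hc, lval_faceList_pos, ← hL', ← w.pr_periodic (i - w.len), sub_add_cancel]

theorem CWord.rest_neg (i : ℤ) : w.rest (i, false) = letter (w.c i) * (w.pr i w.len)⁻¹ := by
  obtain ⟨L', hL'⟩ : ∃ L', w.len = L' + 1 := ⟨w.len - 1, by have := w.len_pos; omega⟩
  have h := lval_faceList_neg (w := w) (i + 1) L'
  simp only [CWord.rest, CWord.cor, nextLab, Bool.false_eq_true, if_false]
  rw [show w.len - 1 = L' by omega, eq_inv_of_mul_eq_one_left h, hL', CWord.pr_succ_right, map_inv]
  group

theorem CWord.rest_neg_eq (i : ℤ) : w.rest (i, false) = (w.rest (i, true))⁻¹ := by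
  rw [CWord.rest_neg, CWord.rest_pos, mul_inv_rev, inv_inv]

theorem CWord.pr_congr {i j : ℤ} (h : w.SameShift i j) (n : ℕ) : w.pr i n = w.pr j n := by
  induction n with
  | zero => rfl
  | succ n ih => rw [CWord.pr, CWord.pr, ih, (h n).1, (h n).2]

theorem CWord.rest_inProd (a : Lab) : InProd w.val 1 (letter (w.lab a) * w.rest a) := by
  obtain ⟨i, σ⟩ := a
  obtain ⟨c, hc⟩ := w.exists_pr_conj i
  cases σ
  · have := (InProd.one (v := w.val) 0).neg c
    rw [CWord.rest_neg, hc]
    simp only [CWord.lab, Bool.false_eq_true, if_false, letter_rev, inv_mul_cancel_left]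
    convert this using 1
    group
  · have := (InProd.one (v := w.val) 0).pos (letter (w.c i) * c)
    rw [CWord.rest_pos, hc]
    simp only [CWord.lab, if_true]
    convert this using 1
    group

theorem lval_faceList_full (a : Lab) :
    lval w.lab (faceList w a w.len) = letter (w.lab a) * w.rest a := by
  obtain ⟨L', hL'⟩ : ∃ L', w.len = L' + 1 := ⟨w.len - 1, by have := w.len_pos; omega⟩
  rw [CWord.rest, hL', faceList, lval_cons, mul_assoc]
  simp

theorem faceList_length (a : Lab) (n : ℕ) : (faceList w a n).length = n := by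
  induction n generalizing a with
  | zero => rfl
  | succ n ih => simp [faceList, ih]

theorem faceList_snd (a : Lab) (n : ℕ) : ∀ p ∈ faceList w a n, p.1.2 = a.2 := by
  induction n generalizing a with
  | zero => simp [faceList]
  | succ n ih =>
    intro p hp
    simp only [faceList, List.mem_cons] at hp
    rcases hp with rfl | hp
    · rfl
    · rw [ih _ p hp]
      obtain ⟨i, σ⟩ := a
      cases σ <;> simp [nextLab]

/-- The label `m` steps further along the face. -/
def stepLab (a : Lab) (m : ℤ) : Lab := if a.2 then (a.1 - m, true) else (a.1 + m, false)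

theorem nextLab_stepLab (a : Lab) (m : ℤ) : nextLab (stepLab a m) = stepLab a (m + 1) := by
  obtain ⟨i, σ⟩ := a
  cases σ <;> simp [nextLab, stepLab] <;> ring

theorem stepLab_next (a : Lab) (m : ℤ) : stepLab (nextLab a) m = stepLab a (1 + m) := by
  obtain ⟨i, σ⟩ := a
  cases σ <;> simp [nextLab, stepLab] <;> ring

theorem faceList_get (a : Lab) (n : ℕ) :
    ∀ p ∈ faceList w a n, ∃ m : ℕ, m < n ∧ p.1 = stepLab a m ∧ p.2 = w.cor (stepLab a m) := by
  induction n generalizing a with
  | zero => simp [faceList]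
  | succ n ih =>
    intro p hp
    simp only [faceList, List.mem_cons] at hp
    rcases hp with rfl | hp
    · obtain ⟨i, σ⟩ := a
      refine ⟨0, Nat.succ_pos _, ?_, ?_⟩ <;> cases σ <;> simp [stepLab]
    · obtain ⟨m, hm, h1, h2⟩ := ih _ p hp
      refine ⟨m + 1, by omega, ?_, ?_⟩ <;> push_cast <;>
        rw [add_comm (m : ℤ) 1, ← stepLab_next] <;> assumption

/-- Placement of faces in a state with `k` faces. -/
structure Place (w : CWord G ι) (k : ℕ) (l : List (Lab × G)) : Prop where
  one : ∀ a h B, l ~r (a, h) :: B →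
    Cong w.val (k - 1) (Coprod.inl h * lval w.lab B) (w.rest a)
  two : ∀ (a : Lab) (h : G) B (b : Lab) (h' : G) C, l ~r (a, h) :: (B ++ (b, h') :: C) →
    a.2 ≠ b.2 → 2 ≤ k ∧ Cong w.val (k - 2) (Coprod.inl h' * lval w.lab C)
      (w.rest b * (Coprod.inl h * lval w.lab B)⁻¹ * w.rest a)

theorem Place.rot {k : ℕ} {l l' : List (Lab × G)} (h : Place w k l) (hl : l' ~r l) :
    Place w k l' :=
  ⟨fun a g B hB => h.one a g B (hl.symm.trans hB),
   fun a g B b g' C hC => h.two a g B b g' C (hl.symm.trans hC)⟩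


theorem exists_split_of_isRotated {α : Type*} {l B : List α} {p : α} (h : l ~r p :: B) :
    ∃ A B', l = A ++ p :: B' ∧ B = B' ++ A := by
  obtain ⟨n, hn, he⟩ := List.isRotated_iff_mod.1 h
  rw [List.rotate_eq_drop_append_take hn] at he
  cases hd : l.drop n with
  | nil =>
    rw [hd, List.nil_append] at he
    refine ⟨[], B, ?_, by simp⟩
    have h1 := List.take_append_drop n l
    rw [hd, he, List.append_nil] at h1
    simpa using h1.symm
  | cons q r =>
    rw [hd, List.cons_append] at he
    obtain ⟨rfl, rfl⟩ := List.cons.inj he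
    exact ⟨l.take n, r, by rw [← hd, List.take_append_drop], rfl⟩

theorem rot_split {α : Type*} (A B : List α) : A ++ B ~r B ++ A := List.isRotated_append

/-- Splitting an adjusted list at an item. -/
theorem adjLast_split {α : Type*} {U A B : List (α × G)} {a : α} {h g : G}
    (he : adjLast U g = A ++ (a, h) :: B) :
    ∃ h₀ B₀, U = A ++ (a, h₀) :: B₀ ∧
      ((B₀ = [] ∧ B = [] ∧ h = h₀ * g) ∨ (B₀ ≠ [] ∧ B = adjLast B₀ g ∧ h = h₀)) := by
  induction U generalizing A with
  | nil => simp at he
  | cons p U ih =>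
    obtain ⟨a', h'⟩ := p
    rcases eq_or_ne U [] with rfl | hU
    · cases A with
      | nil =>
        simp only [adjLast_single, List.nil_append, List.cons.injEq, Prod.mk.injEq] at he
        obtain ⟨⟨rfl, rfl⟩, rfl⟩ := he
        exact ⟨h', [], rfl, Or.inl ⟨rfl, rfl, rfl⟩⟩
      | cons q A => simp at he
    · rw [adjLast_cons hU] at he
      cases A with
      | nil =>
        simp only [List.nil_append, List.cons.injEq, Prod.mk.injEq] at he
        obtain ⟨⟨rfl, rfl⟩, rfl⟩ := he
        exact ⟨h', U, rfl, Or.inr ⟨hU, rfl, rfl⟩⟩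
      | cons q A =>
        simp only [List.cons_append, List.cons.injEq] at he
        obtain ⟨rfl, he⟩ := he
        obtain ⟨h₀, B₀, rfl, hB⟩ := ih he
        exact ⟨h₀, B₀, rfl, hB⟩

theorem adjLast_split_val {α : Type*} (ℓ : α → Letter ι) {U A B : List (α × G)} {a : α} {h g : G}
    (he : adjLast U g = A ++ (a, h) :: B) :
    ∃ h₀ B₀, U = A ++ (a, h₀) :: B₀ ∧
      Coprod.inl h * lval ℓ B = Coprod.inl h₀ * lval ℓ B₀ * (Coprod.inl g : FP G ι) := by
  obtain ⟨h₀, B₀, hU, hB⟩ := adjLast_split he
  refine ⟨h₀, B₀, hU, ?_⟩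
  rcases hB with ⟨rfl, rfl, rfl⟩ | ⟨hne, rfl, rfl⟩
  · simp
  · rw [lval_adjLast ℓ hne, mul_assoc]

/-- The value of the word of a state is a product of at most `k` conjugates. -/
theorem Place.val_inProd {k : ℕ} {a : Lab} {h : G} {B : List (Lab × G)} (hk : 1 ≤ k)
    (hP : Place w k ((a, h) :: B)) : InProd w.val k (lval w.lab ((a, h) :: B)) := by
  have h1 := ((hP.one a h B (List.IsRotated.refl _)).mul_left (letter (w.lab a))).symm
  have h2 : Cong w.val 1 1 (letter (w.lab a) * w.rest a) := Cong.inProd_iff.2 (w.rest_inProd a)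
  have h3 := h2.trans h1
  rw [Cong.inProd_iff, show 1 + (k - 1) = k by omega] at h3
  rw [lval_cons, mul_assoc]
  exact h3

/-- A full face is placed. -/
theorem place_face (a : Lab) : Place w 1 (faceList w a w.len) := by
  have hadd : ∀ (m n : ℕ) (a : Lab),
      faceList w a (m + n) = faceList w a m ++ faceList w (stepLab a m) n := by
    intro m
    induction m with
    | zero =>
      intro n a
      obtain ⟨i, σ⟩ := a
      cases σ <;> simp [faceList, stepLab]
    | succ m ih =>
      intro n a
      rw [show m + 1 + n = m + n + 1 by omega, faceList, faceList, ih, stepLab_next,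
        List.cons_append]
      push_cast
      rw [add_comm (1 : ℤ)]
  have hper : ∀ (n : ℕ) (a : Lab),
      lval w.lab (faceList w (stepLab a w.len) n) = lval w.lab (faceList w a n) := by
    intro n
    induction n with
    | zero => intro a; rfl
    | succ n ih =>
      intro a
      have hcomm : nextLab (stepLab a w.len) = stepLab (nextLab a) w.len := by
        rw [nextLab_stepLab, stepLab_next, add_comm]
      rw [faceList, faceList, lval_cons, lval_cons, hcomm, ih]
      obtain ⟨i, σ⟩ := a
      cases σ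
      · simp [stepLab, CWord.lab, CWord.cor, w.c_per, w.g_per]
      · have hc : w.c (i - w.len) = w.c i := by rw [← w.c_per (i - w.len), sub_add_cancel]
        have hg : w.g (i - w.len - 1) = w.g (i - 1) := by
          rw [← w.g_per (i - w.len - 1)]; congr 1; ring
        simp [stepLab, CWord.lab, CWord.cor, hc, hg]
  constructor
  · intro b h B hB
    obtain ⟨A, B', hsplit, rfl⟩ := exists_split_of_isRotated hB
    have hlen := congrArg List.length hsplit
    simp only [faceList_length, List.length_append, List.length_cons] at hlen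
    have hL := hadd A.length (B'.length + 1) a
    rw [show A.length + (B'.length + 1) = w.len by omega, hsplit] at hL
    obtain ⟨hA, hB'⟩ := List.append_inj hL (by simp [faceList_length])
    have hb : b = stepLab a A.length := by
      rw [faceList] at hB'
      exact (Prod.mk.inj (List.cons.inj hB').1).1
    have hval : lval w.lab ((b, h) :: (B' ++ A)) =
        lval w.lab (faceList w (stepLab a A.length) w.len) := by
      rw [show w.len = (B'.length + 1) + A.length by omega, hadd (B'.length + 1) A.length,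
        ← List.cons_append, lval_append, lval_append, hB']
      congr 1
      conv_lhs => rw [hA]
      rw [← hper A.length a]
      congr 2
      have hlenZ : (w.len : ℤ) = A.length + B'.length + 1 := by omega
      obtain ⟨i, σ⟩ := a
      cases σ <;> simp [stepLab] <;> omega
    rw [lval_faceList_full, lval_cons, hb, mul_assoc] at hval
    rw [hb]
    exact Cong.of_eq (mul_left_cancel hval)
  · intro b h B c h' C hB hbc
    exfalso
    apply hbc
    have h1 : (b, h) ∈ faceList w a w.len := hB.symm.mem_iff.1 (by simp)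
    have h2 : (c, h') ∈ faceList w a w.len := hB.symm.mem_iff.1 (by simp)
    rw [show b.2 = a.2 from faceList_snd a _ _ h1, show c.2 = a.2 from faceList_snd a _ _ h2]

/-- Glueing keeps the placement, for a point in the first part. -/
theorem place_glue_aux {i j : ℕ} (hi : 1 ≤ i) (hj : 1 ≤ j) {U V : List (Lab × G)} {y x : Lab}
    {h₁ h₂ : G} (hV0 : V ≠ []) (hU : Place w i ((y, h₁) :: U)) (hV : Place w j ((x, h₂) :: V))
    (hxy : w.lab x = (w.lab y).rev) {a : Lab} {h : G} {A B : List (Lab × G)}
    (he : adjLast U h₂ = A ++ (a, h) :: B) :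
    Cong w.val (i + j - 1) (Coprod.inl h * lval w.lab (B ++ adjLast V h₁ ++ A)) (w.rest a) ∧
      ∀ B₁ b h' C, B ++ adjLast V h₁ ++ A = B₁ ++ (b, h') :: C → a.2 ≠ b.2 →
        2 ≤ i + j ∧ Cong w.val (i + j - 2) (Coprod.inl h' * lval w.lab C)
          (w.rest b * (Coprod.inl h * lval w.lab B₁)⁻¹ * w.rest a) := by
  -- the glued part may stand in for the letter `y`
  have hsub : Cong w.val j (Coprod.inl h₂ * lval w.lab V) (letter (w.lab y)) := by
    have h1 := ((Cong.inProd_iff.2 (hV.val_inProd hj)).mul_left (letter (w.lab y))).symm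
    simpa [lval_cons, hxy, letter_rev, mul_assoc] using h1
  have hVval : lval w.lab (adjLast V h₁) = lval w.lab V * Coprod.inl h₁ := lval_adjLast _ hV0 _
  obtain ⟨h₀, B₀, hU₀, hB⟩ := adjLast_split_val w.lab he
  have hrotU : (y, h₁) :: U ~r (a, h₀) :: (B₀ ++ (y, h₁) :: A) := by
    rw [hU₀]
    simpa using rot_split ((y, h₁) :: A) ((a, h₀) :: B₀)
  have oneU := hU.one _ _ _ hrotU
  simp only [lval_append, lval_cons, ← mul_assoc] at oneU
  constructor
  · have h1 := (hsub.mul_left (Coprod.inl h₀ * lval w.lab B₀)).mul_right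
      (Coprod.inl h₁ * lval w.lab A)
    simp only [← mul_assoc] at h1
    have h2 := h1.trans oneU
    rw [show j + (i - 1) = i + j - 1 by omega] at h2
    refine (Cong.of_eq (n := 0) ?_).trans h2 |>.mono (by omega)
    simp only [lval_append, hVval, ← mul_assoc, hB]
  intro B₁ b h' C hpos hab
  refine ⟨by omega, ?_⟩
  rcases List.append_eq_append_iff.1 hpos with ⟨K, hB₁, hA⟩ | ⟨K, hBV, hC⟩
  · -- `b` follows `V`
    obtain rfl := hB₁
    have hrot2 : (y, h₁) :: U ~r (a, h₀) :: ((B₀ ++ (y, h₁) :: K) ++ (b, h') :: C) := by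
      simpa [hA] using hrotU
    obtain ⟨hi2, t⟩ := hU.two _ _ _ _ _ _ hrot2 hab
    have h1 := ((hsub.mul_left (Coprod.inl h₀ * lval w.lab B₀)).mul_right
      (Coprod.inl h₁ * lval w.lab K)).symm.inv.mul_left (w.rest b) |>.mul_right (w.rest a)
    simp only [lval_append, lval_cons, ← mul_assoc] at t h1
    refine ((t.trans h1).trans (Cong.of_eq (n := 0) ?_)).mono (by omega)
    simp only [lval_append, hVval, ← mul_assoc, hB]
  rcases K with _ | ⟨q, K⟩
  · -- `b` is the first item of `A`
    rw [List.append_nil] at hBV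
    rw [List.nil_append] at hC
    obtain rfl := hBV
    have hrot2 : (y, h₁) :: U ~r (a, h₀) :: ((B₀ ++ (y, h₁) :: []) ++ (b, h') :: C) := by
      simpa [← hC] using hrotU
    obtain ⟨hi2, t⟩ := hU.two _ _ _ _ _ _ hrot2 hab
    have h1 := ((hsub.mul_left (Coprod.inl h₀ * lval w.lab B₀)).mul_right
      (Coprod.inl h₁)).symm.inv.mul_left (w.rest b) |>.mul_right (w.rest a)
    simp only [lval_append, lval_cons, lval_nil, mul_one, ← mul_assoc] at t h1
    refine ((t.trans h1).trans (Cong.of_eq (n := 0) ?_)).mono (by omega)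
    simp only [lval_append, hVval, ← mul_assoc, hB]
  obtain ⟨rfl, hC⟩ := List.cons.inj hC
  rcases List.append_eq_append_iff.1 hBV with ⟨K', hB₁, hVK⟩ | ⟨K', hBK, hK'⟩
  · -- `b` lies in `V`
    obtain rfl := hB₁
    obtain ⟨h'₀, C₀, hV₀, hC₀⟩ := adjLast_split_val w.lab hVK
    have hrotV : (x, h₂) :: V ~r (b, h'₀) :: (C₀ ++ (x, h₂) :: K') := by
      rw [hV₀]
      simpa using rot_split ((x, h₂) :: K') ((b, h'₀) :: C₀)
    have oneV := (hV.one _ _ _ hrotV).mul_right
      ((lval w.lab K')⁻¹ * (Coprod.inl h₂)⁻¹ * letter (w.lab y))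
    have oneU' := oneU.mul_left
      ((letter (w.lab y))⁻¹ * (Coprod.inl h₀ * lval w.lab B₀)⁻¹)
    have e1 : Coprod.inl h'₀ * lval w.lab (C₀ ++ (x, h₂) :: K') *
        ((lval w.lab K')⁻¹ * (Coprod.inl h₂)⁻¹ * letter (w.lab y)) =
        Coprod.inl h'₀ * lval w.lab C₀ := by
      simp only [lval_append, lval_cons, hxy, letter_rev]; group
    have e2 : (letter (w.lab y))⁻¹ * (Coprod.inl h₀ * lval w.lab B₀)⁻¹ *
        (Coprod.inl h₀ * lval w.lab B₀ * letter (w.lab y) * Coprod.inl h₁ * lval w.lab A) =
        Coprod.inl h₁ * lval w.lab A := by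
      group
    rw [e1] at oneV
    rw [e2] at oneU'
    have t := oneV.mul oneU'
    refine ((Cong.of_eq (n := 0) ?_).trans (t.trans (Cong.of_eq (n := 0) ?_))).mono (by omega)
    · rw [show C = K ++ A from (List.cons.inj hC).2]
      simp only [lval_append, ← mul_assoc, hC₀]
    · rw [lval_append, ← mul_assoc (Coprod.inl h : FP G ι), hB]
      group
  rcases K' with _ | ⟨q', K'⟩
  · -- `b` is the first item of `V`
    rw [List.append_nil] at hBK
    rw [List.nil_append] at hK'
    obtain rfl := hBK
    obtain ⟨h'₀, C₀, hV₀, hC₀⟩ := adjLast_split_val (A := []) w.lab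
      (show adjLast V h₁ = [] ++ (b, h') :: K by rw [hK', List.nil_append])
    have hrotV : (x, h₂) :: V ~r (b, h'₀) :: (C₀ ++ [(x, h₂)]) := by
      rw [hV₀]
      simpa using rot_split [(x, h₂)] ((b, h'₀) :: C₀)
    have oneV := (hV.one _ _ _ hrotV).mul_right ((Coprod.inl h₂)⁻¹ * letter (w.lab y))
    have oneU' := oneU.mul_left
      ((letter (w.lab y))⁻¹ * (Coprod.inl h₀ * lval w.lab B₀)⁻¹)
    have e1 : Coprod.inl h'₀ * lval w.lab (C₀ ++ [(x, h₂)]) *
        ((Coprod.inl h₂)⁻¹ * letter (w.lab y)) = Coprod.inl h'₀ * lval w.lab C₀ := by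
      simp only [lval_append, lval_cons, lval_nil, hxy, letter_rev]; group
    have e2 : (letter (w.lab y))⁻¹ * (Coprod.inl h₀ * lval w.lab B₀)⁻¹ *
        (Coprod.inl h₀ * lval w.lab B₀ * letter (w.lab y) * Coprod.inl h₁ * lval w.lab A) =
        Coprod.inl h₁ * lval w.lab A := by
      group
    rw [e1] at oneV
    rw [e2] at oneU'
    have t := oneV.mul oneU'
    refine ((Cong.of_eq (n := 0) ?_).trans (t.trans (Cong.of_eq (n := 0) ?_))).mono (by omega)
    · rw [show C = K ++ A from (List.cons.inj hC).2]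
      simp only [lval_append, ← mul_assoc, hC₀]
    · rw [hB]
      group
  -- `b` lies in `B`
  obtain ⟨rfl, hK'⟩ := List.cons.inj hK'
  subst hBK
  obtain ⟨h'₀, C₀, B', hB₀, e1, e2⟩ :
      ∃ h'₀ C₀ B', B₀ = B' ++ (b, h'₀) :: C₀ ∧
        Coprod.inl h' * lval w.lab K' = Coprod.inl h'₀ * lval w.lab C₀ * (Coprod.inl h₂ : FP G ι) ∧
        Coprod.inl h * lval w.lab B₁ = (Coprod.inl h₀ * lval w.lab B' : FP G ι) := by
    obtain ⟨h0, B0, hU1, hcase⟩ := adjLast_split he
    rw [hU₀] at hU1
    obtain ⟨h₀e, B0e⟩ := List.cons.inj (List.append_cancel_left hU1)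
    obtain rfl := B0e
    obtain rfl := (Prod.mk.inj h₀e).2
    rcases hcase with ⟨-, hnil, -⟩ | ⟨-, hBadj, rfl⟩
    · simp at hnil
    · obtain ⟨h'₀, C₀, hB₀, hv⟩ := adjLast_split_val w.lab hBadj.symm
      exact ⟨h'₀, C₀, B₁, hB₀, hv, rfl⟩
  have hrot2 : (y, h₁) :: U ~r (a, h₀) :: (B' ++ (b, h'₀) :: (C₀ ++ (y, h₁) :: A)) := by
    simpa [hB₀] using hrotU
  obtain ⟨hi2, t⟩ := hU.two _ _ _ _ _ _ hrot2 hab
  have h1 := (hsub.mul_left (Coprod.inl h'₀ * lval w.lab C₀)).mul_right
    (Coprod.inl h₁ * lval w.lab A)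
  simp only [lval_append, lval_cons, ← mul_assoc] at t h1
  refine (((Cong.of_eq (n := 0) ?_).trans (h1.trans t)).trans (Cong.of_eq (n := 0) ?_)).mono
    (by omega)
  · rw [show C = K' ++ adjLast V h₁ ++ A from ((List.cons.inj hC).2).trans (by rw [show K = K' ++ adjLast V h₁ from (List.cons.inj hK').2]; rfl)]
    simp only [lval_append, hVval, ← mul_assoc, e1]
  · rw [e2]

/-- Glueing two placed states along an edge. -/
theorem place_glue {i j : ℕ} (hi : 1 ≤ i) (hj : 1 ≤ j) {U V : List (Lab × G)} {y x : Lab}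
    {h₁ h₂ : G} (hU0 : U ≠ []) (hV0 : V ≠ []) (hU : Place w i ((y, h₁) :: U))
    (hV : Place w j ((x, h₂) :: V)) (hxy : w.lab x = (w.lab y).rev) :
    Place w (i + j) (adjLast U h₂ ++ adjLast V h₁) := by
  have hyx : w.lab y = (w.lab x).rev := by rw [hxy, Letter.rev_rev]
  have key : ∀ a h B, adjLast U h₂ ++ adjLast V h₁ ~r (a, h) :: B →
      Cong w.val (i + j - 1) (Coprod.inl h * lval w.lab B) (w.rest a) ∧
      ∀ B₁ b h' C, B = B₁ ++ (b, h') :: C → a.2 ≠ b.2 →
        2 ≤ i + j ∧ Cong w.val (i + j - 2) (Coprod.inl h' * lval w.lab C)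
          (w.rest b * (Coprod.inl h * lval w.lab B₁)⁻¹ * w.rest a) := by
    intro a h B hB
    obtain ⟨A, B', hs, rfl⟩ := exists_split_of_isRotated hB
    rcases List.append_eq_append_iff.1 hs with ⟨K, hA, hVK⟩ | ⟨K, hUA, hK⟩
    · subst hA
      have := place_glue_aux hj hi hU0 hV hU hyx hVK
      rw [add_comm j i] at this
      simpa [List.append_assoc] using this
    rcases K with _ | ⟨q, K⟩
    · rw [List.append_nil] at hUA
      rw [List.nil_append] at hK
      have := place_glue_aux hj hi hU0 hV hU hyx (A := []) (a := a) (h := h) (B := B')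
        (by rw [List.nil_append]; exact hK.symm)
      rw [add_comm j i] at this
      simpa [← hUA] using this
    · obtain ⟨rfl, rfl⟩ := List.cons.inj hK
      have := place_glue_aux hi hj hV0 hU hV hxy hUA
      simpa [List.append_assoc] using this
  exact ⟨fun a h B hB => (key a h B hB).1, fun a h B b h' C hB =>
    (key a h _ hB).2 B b h' C rfl⟩

/-- Cancelling an edge inside a placed state. -/
theorem place_cancel {k : ℕ} {a b : Lab} {hb : G} {l : List (Lab × G)}
    (hab : w.lab b = (w.lab a).rev) (hP : Place w k ((a, 1) :: (b, hb) :: l)) :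
    Place w k (adjLast l hb) := by
  have hone : ∀ X Y : FP G ι, X * letter (w.lab a) * Coprod.inl (1 : G) * letter (w.lab b) * Y =
      X * Y := by
    intro X Y; rw [hab, letter_rev, map_one]; group
  have key : ∀ z h B, adjLast l hb ~r (z, h) :: B →
      ∃ h₀ A B₀ B₂, (a, 1) :: (b, hb) :: l ~r (z, h₀) :: (B₀ ++ (a, 1) :: (b, hb) :: A) ∧
        B = B₂ ++ A ∧ adjLast l hb = A ++ (z, h) :: B₂ ∧ l = A ++ (z, h₀) :: B₀ ∧
        Coprod.inl h * lval w.lab B₂ = Coprod.inl h₀ * lval w.lab B₀ * (Coprod.inl hb : FP G ι) := by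
    intro z h B hB
    obtain ⟨A, B₂, hs, rfl⟩ := exists_split_of_isRotated hB
    obtain ⟨h₀, B₀, hl', hv⟩ := adjLast_split_val w.lab hs
    refine ⟨h₀, A, B₀, B₂, ?_, rfl, hs, hl', hv⟩
    rw [hl']
    simpa using rot_split ((a, (1 : G)) :: (b, hb) :: A) ((z, h₀) :: B₀)
  constructor
  · intro z h B hB
    obtain ⟨h₀, A, B₀, B₂, hrot, rfl, -, -, hv⟩ := key z h B hB
    refine ((Cong.of_eq (n := 0) ?_).trans (hP.one _ _ _ hrot)).mono (by omega)
    simp only [lval_append, lval_cons, ← mul_assoc, hv]
    rw [mul_assoc _ (Coprod.inl hb : FP G ι) (lval w.lab A), mul_assoc _ (Coprod.inl hb : FP G ι)]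
    exact (hone _ _).symm
  · intro z h B₁ u h' C hB hzu
    obtain ⟨h₀, A, B₀, B₂, hrot, hsplit, hs, hl', hv⟩ := key z h _ hB
    rcases List.append_eq_append_iff.1 hsplit with ⟨K, hB₂, hK⟩ | ⟨K, hBK, hA⟩
    · -- `u` lies in `B₂` or is the first item of `A`
      rcases K with _ | ⟨q, K⟩
      · rw [List.append_nil] at hB₂
        rw [List.nil_append] at hK
        subst hB₂
        have hrot2 : (a, 1) :: (b, hb) :: l ~r
            (z, h₀) :: ((B₀ ++ [(a, 1), (b, hb)]) ++ (u, h') :: C) := by
          simpa [← hK] using hrot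
        obtain ⟨hk, t⟩ := hP.two _ _ _ _ _ _ hrot2 hzu
        refine ⟨hk, (t.trans (Cong.of_eq (n := 0) ?_)).mono (by omega)⟩
        simp only [lval_append, lval_cons, lval_nil, ← mul_assoc, hv]
        simp [hab, letter_rev, mul_assoc]
      · obtain ⟨rfl, hK⟩ := List.cons.inj hK
        subst hB₂
        obtain ⟨h0, B0, hl2, hcase⟩ := adjLast_split hs
        rw [hl'] at hl2
        obtain ⟨h₀e, rfl⟩ := List.cons.inj (List.append_cancel_left hl2)
        obtain rfl := (Prod.mk.inj h₀e).2
        rcases hcase with ⟨-, hnil, -⟩ | ⟨-, hBadj, rfl⟩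
        · simp at hnil
        obtain ⟨h'₀, C₀, hB₀, hv'⟩ := adjLast_split_val w.lab hBadj.symm
        have hrot2 : (a, 1) :: (b, hb) :: l ~r
            (z, h) :: (B₁ ++ (u, h'₀) :: (C₀ ++ (a, 1) :: (b, hb) :: A)) := by
          simpa [hB₀] using hrot
        obtain ⟨hk, t⟩ := hP.two _ _ _ _ _ _ hrot2 hzu
        refine ⟨hk, ((Cong.of_eq (n := 0) ?_).trans t).mono (by omega)⟩
        rw [show C = K ++ A from (List.cons.inj hK).2]
        simp only [lval_append, lval_cons, ← mul_assoc, hv']
        simp [hab, letter_rev, mul_assoc]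
    · -- `u` lies in `A`
      obtain rfl := hBK
      have hrot2 : (a, 1) :: (b, hb) :: l ~r
          (z, h₀) :: ((B₀ ++ (a, 1) :: (b, hb) :: K) ++ (u, h') :: C) := by
        simpa [hA] using hrot
      obtain ⟨hk, t⟩ := hP.two _ _ _ _ _ _ hrot2 hzu
      refine ⟨hk, (t.trans (Cong.of_eq (n := 0) ?_)).mono (by omega)⟩
      simp only [lval_append, lval_cons, ← mul_assoc, hv]
      simp [hab, letter_rev, mul_assoc]

end Vale.Agent.P174
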