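import Vale.Agent.P174.Frei

/-!
Systems in the notation `G * F_n`: every equation has a private unknown with nonzero exponent sum.
-/

namespace Vale.Agent.P174

open Monoid Vale.P174.Private

variable {G : Type} [Group G]

/-- The exponent vector of an element of `G * F_n`. -/
def expVec (n : ℕ) : FP G (Fin n) →* Multiplicative (Fin n → ℤ) :=
  Coprod.lift 1 (FreeGroup.lift fun j => Multiplicative.ofAdd (Pi.single j 1))

/-- The exponent-sum matrix of a system. -/
def expMatrix {m n : ℕ} (w : Fin m → FP G (Fin n)) : Matrix (Fin m) (Fin n) ℤ :=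
  Matrix.of fun i => Multiplicative.toAdd (expVec n (w i))

/-- The subgroup of `G * F_n` generated by `G` and the unknowns in `s`. -/
def supported {n : ℕ} (s : Set (Fin n)) : Subgroup (FP G (Fin n)) :=
  Subgroup.closure (Set.range (Coprod.inl : G →* FP G (Fin n)) ∪
    (fun j => Coprod.inr (FreeGroup.of j)) '' s)

theorem expVec_supported {n : ℕ} {s : Set (Fin n)} {j : Fin n} (hj : j ∉ s) {q : FP G (Fin n)}
    (hq : q ∈ supported s) : Multiplicative.toAdd (expVec n q) j = 0 := by
  induction hq using Subgroup.closure_induction with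
  | mem z hz =>
    rcases hz with ⟨g, rfl⟩ | ⟨k, hk, rfl⟩
    · simp [expVec]
    · have hkj : j ≠ k := fun h => hj (h ▸ hk)
      simp [expVec, Pi.single_eq_of_ne hkj]
  | one => simp
  | mul a b _ _ ha hb => simp [ha, hb]
  | inv a _ ha => simp [ha]

/-- The shared unknowns. -/
abbrev Shared {m n : ℕ} (p : Fin m → Fin n) : Type := {k : Fin n // k ∉ Set.range p}

/-- Positions of the unknowns. -/
def place {m n : ℕ} (p : Fin m → Fin n) : Shared p ⊕ Fin m → Fin n := Sum.elim Subtype.val p

/-- A system in which the `i`-th equation has nonzero exponent sum in an unknown `p i` that occurs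
in no other equation is solvable over every left-ordered group, given the one-equation theorem. -/
theorem solvable_of_oneEquation [LinearOrder G] [MulLeftStrictMono G] (H : OneEquation)
    {m n : ℕ} (w : Fin m → FP G (Fin n)) (p : Fin m → Fin n) (hp : Function.Injective p)
    (hw : ∀ i, w i ∈ supported {k | k ∈ Set.range p → k = p i})
    (he : ∀ i, expMatrix w i (p i) ≠ 0) :
    Function.Injective
      ((QuotientGroup.mk' (Subgroup.normalClosure (Set.range w))).comp
        (Coprod.inl : G →* FP G (Fin n))) := by
  classical
  let P : Fin m → (Shared p ⊕ Unit → Fin n) := fun i => Sum.elim Subtype.val fun _ => p i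
  let ρ : ∀ i, FP G (Shared p ⊕ Unit) →* FP G (Fin n) := fun i =>
    Coprod.map (MonoidHom.id G) (FreeGroup.map (P i))
  let σ : FP G (Shared p ⊕ Fin m) →* FP G (Fin n) :=
    Coprod.map (MonoidHom.id G) (FreeGroup.map (place p))
  have lift_ex : ∀ i, ∃ r, ρ i r = w i := by
    intro i
    have hle : supported {k | k ∈ Set.range p → k = p i} ≤ (ρ i).range := by
      refine (Subgroup.closure_le _).2 ?_
      rintro _ (⟨g, rfl⟩ | ⟨k, hk, rfl⟩)
      · exact ⟨Coprod.inl g, by simp [ρ]⟩
      · by_cases hkp : k ∈ Set.range p
        · exact ⟨Coprod.inr (FreeGroup.of (Sum.inr ())), by simp [ρ, P, hk hkp]⟩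
        · exact ⟨Coprod.inr (FreeGroup.of (Sum.inl ⟨k, hkp⟩)), by simp [ρ, P]⟩
    exact hle (hw i)
  choose r hr using lift_ex
  have hσ : ∀ i, σ (piece i (r i)) = w i := by
    intro i
    rw [← hr i]
    have h : σ.comp (piece i) = ρ i := by
      refine Coprod.hom_ext ?_ ?_
      · ext g; simp [σ, ρ, piece]
      · refine FreeGroup.ext_hom _ _ fun a => ?_
        cases a <;> simp [σ, ρ, piece, place, P]
    exact DFunLike.congr_fun h (r i)
  have hpriv : ∀ i, privExp (r i) ≠ 1 := by
    intro i hc
    apply he i
    have h : ∀ q, Multiplicative.toAdd (expVec n (ρ i q)) (p i) =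
        Multiplicative.toAdd (privExp q) := by
      intro q
      induction q using Coprod.induction_on with
      | inl g => simp [expVec, privExp, ρ]
      | inr u =>
        induction u using FreeGroup.induction_on with
        | C1 => simp
        | of a =>
          cases a with
          | inl a =>
            have : p i ≠ a.val := fun h => a.2 ⟨i, h⟩
            simp [expVec, privExp, ρ, P, Pi.single_eq_of_ne this]
          | inr u => simp [expVec, privExp, ρ, P]
        | inv_of a ih => simp only [map_inv, toAdd_inv, Pi.neg_apply, ih]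
        | mul u v hu hv => simp only [map_mul, toAdd_mul, Pi.add_apply, hu, hv]
      | mul a b ha hb => simp only [map_mul, toAdd_mul, Pi.add_apply, ha, hb]
    simp [expMatrix, ← hr i, h, hc]
  -- a left inverse of `σ`
  let back : Fin n → Shared p ⊕ Fin m := fun k =>
    if hk : k ∈ Set.range p then Sum.inr hk.choose else Sum.inl ⟨k, hk⟩
  have hback : ∀ a, back (place p a) = a := by
    intro a
    cases a with
    | inl a =>
      have h : place p (Sum.inl a) = a.val := rfl
      rw [h]
      simp only [back]
      rw [dif_neg a.2]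
    | inr i =>
      have hk : p i ∈ Set.range p := ⟨i, rfl⟩
      simp [back, place, hp hk.choose_spec]
  let τ : FP G (Fin n) →* FP G (Shared p ⊕ Fin m) :=
    Coprod.map (MonoidHom.id G) (FreeGroup.map back)
  have hτ : τ.comp σ = MonoidHom.id _ := by
    refine Coprod.hom_ext ?_ ?_
    · ext g; simp [τ, σ]
    · refine FreeGroup.ext_hom _ _ fun a => ?_
      simp [τ, σ, hback]
  have hinj := system_of_privExp H r hpriv
  intro x y hxy
  refine hinj ?_
  have hle : Subgroup.normalClosure (Set.range w) ≤
      (Subgroup.normalClosure (Set.range fun i => piece i (r i))).comap τ :=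
    Subgroup.normalClosure_le_normal fun z hz => by
      obtain ⟨i, rfl⟩ := hz
      rw [SetLike.mem_coe, Subgroup.mem_comap]
      have : τ (w i) = piece i (r i) := by
        rw [← hσ i]; exact DFunLike.congr_fun hτ (piece i (r i))
      rw [this]
      exact Subgroup.subset_normalClosure ⟨i, rfl⟩
  have := congrArg (QuotientGroup.map _ _ τ hle) hxy
  simpa [τ] using this

/-- Such a system is nonsingular. -/
theorem rank_of_private {m n : ℕ} (w : Fin m → FP G (Fin n)) (p : Fin m → Fin n)
    (hp : Function.Injective p) (hw : ∀ i, w i ∈ supported {k | k ∈ Set.range p → k = p i})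
    (he : ∀ i, expMatrix w i (p i) ≠ 0) :
    ((expMatrix w).map (Int.cast : ℤ → ℚ)).rank = m := by
  have hz : ∀ i j, i ≠ j → expMatrix w i (p j) = 0 := fun i j hij =>
    expVec_supported (s := {k | k ∈ Set.range p → k = p i})
      (fun h => hij (hp ((h : p j ∈ Set.range p → p j = p i) ⟨j, rfl⟩)).symm) (hw i)
  have hli : LinearIndependent ℚ ((expMatrix w).map (Int.cast : ℤ → ℚ)).row := by
    rw [Fintype.linearIndependent_iff]
    intro c hc i
    have h := congrFun hc (p i)
    simp only [Finset.sum_apply, Pi.smul_apply, smul_eq_mul, Matrix.row_apply, Matrix.map_apply,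
      Pi.zero_apply] at h
    rw [Finset.sum_eq_single i (fun j _ hj => by simp [hz j i hj]) (fun h' => absurd
      (Finset.mem_univ i) h')] at h
    exact (mul_eq_zero.1 h).resolve_right (by exact_mod_cast he i)
  simpa using hli.rank_matrix

end Vale.Agent.P174
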