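import Mathlib

/-!
Cyclic words over a free product of a group with a free group.
-/

namespace Vale.Agent.P174

open Monoid

/-- The free product of `G` with the free group on `ι`. -/
abbrev FP (G : Type*) [Group G] (ι : Type*) : Type _ := Coprod G (FreeGroup ι)

/-- A letter `t ^ (±1)`; `true` is the exponent `+1`. -/
abbrev Letter (ι : Type*) : Type _ := ι × Bool

/-- The inverse letter. -/
def Letter.rev {ι : Type*} (l : Letter ι) : Letter ι := (l.1, !l.2)

/-- The element of the free product represented by a letter. -/
def letter {G : Type*} [Group G] {ι : Type*} (l : Letter ι) : FP G ι :=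
  if l.2 then Coprod.inr (FreeGroup.of l.1) else (Coprod.inr (FreeGroup.of l.1))⁻¹

theorem letter_true {G : Type*} [Group G] {ι : Type*} (t : ι) :
    letter (G := G) (t, true) = Coprod.inr (FreeGroup.of t) := rfl

theorem letter_false {G : Type*} [Group G] {ι : Type*} (t : ι) :
    letter (G := G) (t, false) = (Coprod.inr (FreeGroup.of t))⁻¹ := rfl

theorem letter_rev {G : Type*} [Group G] {ι : Type*} (l : Letter ι) :
    letter (G := G) l.rev = (letter l)⁻¹ := by
  obtain ⟨t, b⟩ := l
  cases b <;> simp [Letter.rev, letter]

/-- A cyclic word of positive length: letters `c i` followed by coefficients `g i`, indexed by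
the integers modulo the length. -/
structure CWord (G : Type*) (ι : Type*) where
  len : ℕ
  len_pos : 0 < len
  c : ℤ → Letter ι
  g : ℤ → G
  c_per : ∀ i, c (i + len) = c i
  g_per : ∀ i, g (i + len) = g i

variable {G : Type*} [Group G] {ι : Type*}

/-- Partial products, read from the right. -/
def CWord.part (w : CWord G ι) : ℕ → FP G ι
  | 0 => 1
  | n + 1 => Coprod.inl (w.g n) * letter (w.c n) * w.part n

/-- The element represented by a cyclic word, based at index zero. -/
def CWord.val (w : CWord G ι) : FP G ι := w.part w.len

/-- A cyclic word is reduced if it has no subword `t^ε 1 t^{-ε}`, cyclically. -/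
def CWord.Reduced (w : CWord G ι) : Prop :=
  ∀ i, ¬ (w.c (i + 1) = (w.c i).rev ∧ w.g i = 1)

/-- Two indices of a cyclic word see the same cyclic word. -/
def CWord.SameShift (w : CWord G ι) (i j : ℤ) : Prop :=
  ∀ k, w.c (i + k) = w.c (j + k) ∧ w.g (i + k) = w.g (j + k)

/-- The edge point of a traversal: the tail of the underlying positive edge. -/
def edgePoint {X : Type*} (l : Letter ι) (before after : X) : X := if l.2 then before else after

/-- A stacking of a cyclic word: an order-preserving action in which the cyclic word closes up and
two traversals of one letter lie over different points unless they differ by a period. -/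
structure Stacking (w : CWord G ι) where
  X : Type*
  [ord : LinearOrder X]
  act : FP G ι →* (X ≃o X)
  x : ℤ → X
  x_per : ∀ i, x (i + w.len) = x i
  x_step : ∀ i, x (i + 1) = act (Coprod.inl (w.g i)) (act (letter (w.c i)) (x i))
  sep : ∀ i j, (w.c i).1 = (w.c j).1 →
    edgePoint (w.c i) (x i) (act (letter (w.c i)) (x i)) =
      edgePoint (w.c j) (x j) (act (letter (w.c j)) (x j)) →
    w.SameShift i j

attribute [instance] Stacking.ord

end Vale.Agent.P174
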